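import Vale.Agent.P078.Single.Cells

/-!
# An atom gives an operator intertwining the MASA into itself

If the square sums of the conjugated pieces of `W` stay away from zero, some nonzero `S` with
`E S = 0` has `S* A S` inside `A`.
-/

namespace Vale.Agent.P078.General.Single

open scoped InnerProductSpace Topology ComplexOrder
open Filter

universe u

variable {H : Type u} [NormedAddCommGroup H] [InnerProductSpace ℂ H] [CompleteSpace H]
variable {M A : VonNeumannAlgebra H} {φ : (H →L[ℂ] H) →ₗ[ℂ] ℂ}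

/-- Products over the descendants of the cuts at `t`. -/
noncomputable def cmul (b : ∀ n, (Fin n → Bool) → H →L[ℂ] H) (t : ℝ) :
    ℕ → ∀ n, (Fin n → Bool) → H →L[ℂ] H
  | 0, n, s => cut (b n s) t
  | m + 1, n, s => cmul b t m (n + 1) (Fin.cons true s) * cmul b t m (n + 1) (Fin.cons false s)

/-- Sums of squares over the descendants. -/
noncomputable def qsum (b : ∀ n, (Fin n → Bool) → H →L[ℂ] H) :
    ℕ → ∀ n, (Fin n → Bool) → H →L[ℂ] H
  | 0, n, s => b n s * b n s
  | m + 1, n, s => qsum b m (n + 1) (Fin.cons true s) + qsum b m (n + 1) (Fin.cons false s)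

/-- The lexicographically first large descendant. -/
noncomputable def sel (z : ∀ n, (Fin n → Bool) → H →L[ℂ] H) :
    ∀ n, (Fin n → Bool) → H →L[ℂ] H
  | 0, _ => 1 - z 0 Fin.elim0
  | n + 1, s =>
    if s 0 then sel z n (Fin.tail s) * (1 - z (n + 1) (Fin.cons true (Fin.tail s)))
    else sel z n (Fin.tail s) * z (n + 1) (Fin.cons true (Fin.tail s))

theorem tendsto_apply_comp {T : ℕ → H →L[ℂ] H} {S : H →L[ℂ] H} {c : ℝ} {x : ℕ → H} {x0 : H}
    (hc : ∀ n, ‖T n‖ ≤ c) (hT : ∀ w, Tendsto (fun n => T n w) atTop (𝓝 (S w)))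
    (hx : Tendsto x atTop (𝓝 x0)) : Tendsto (fun n => T n (x n)) atTop (𝓝 (S x0)) := by
  have h1 : Tendsto (fun n => T n (x n - x0)) atTop (𝓝 0) := by
    refine squeeze_zero_norm (fun n => ((T n).le_opNorm _).trans
      (mul_le_mul_of_nonneg_right (hc n) (norm_nonneg _))) ?_
    have := ((hx.sub (tendsto_const_nhds (x := x0))).norm).const_mul c
    simpa using this
  simpa [map_sub] using h1.add (hT x0)

namespace IsCState

theorem proj_map_ge (hφ : IsCState M A φ) {q b b' : H →L[ℂ] H} (hq : q ∈ A)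
    (hqp : IsStarProjection q) (hb : b ∈ A) (hbs : IsSelfAdjoint b) (hb' : b' ∈ A) (hb'0 : 0 ≤ b')
    {t : ℝ} (h : ∀ v, t * ‖q v‖ ^ 2 ≤ (⟪b (q v), q v⟫_ℂ).re) :
    t * (φ (q * b')).re ≤ (φ (q * b * b')).re := by
  have hc : Commute q b := hφ.masa.comm q hq b hb
  set T := q * b * q - (t : ℂ) • q with hT
  have hT0 : 0 ≤ T := by
    refine nonneg_of_re_inner ?_ fun v => ?_
    · refine IsSelfAdjoint.sub ?_ (by simp [IsSelfAdjoint, star_smul, hqp.isSelfAdjoint.star_eq])
      have := hbs.conjugate q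
      rwa [hqp.isSelfAdjoint.star_eq] at this
    · simp only [hT, sub_apply, smul_apply, mul_apply_eq_comp, inner_sub_left, inner_smul_left,
        Complex.sub_re, Complex.conj_ofReal, Complex.re_ofReal_mul,
        inner_sa hqp.isSelfAdjoint (b (q v))]
      rw [← star_proj_apply_norm_sq hqp]
      linarith [h v]
  have h1 := hφ.map_mul_nonneg (sub_mem (mul_mem (mul_mem hq hb) hq) (smul_mem' A hq _)) hb' hT0 hb'0
  have e : q * b * q = q * b := by rw [mul_assoc, ← hc.eq, ← mul_assoc, hqp.isIdempotentElem.eq]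
  simp only [e, sub_mul, smul_mul_assoc, map_sub, map_smul, Complex.sub_re, smul_eq_mul,
    Complex.re_ofReal_mul] at h1
  linarith

theorem proj_map_le (hφ : IsCState M A φ) {q b b' : H →L[ℂ] H} (hq : q ∈ A)
    (hqp : IsStarProjection q) (hb : b ∈ A) (hbs : IsSelfAdjoint b) (hb' : b' ∈ A) (hb'0 : 0 ≤ b')
    {t : ℝ} (h : ∀ v, (⟪b (q v), q v⟫_ℂ).re ≤ t * ‖q v‖ ^ 2) :
    (φ (q * b * b')).re ≤ t * (φ (q * b')).re := by
  have := hφ.proj_map_ge hq hqp (neg_mem hb) hbs.neg hb' hb'0 (t := -t) fun v => by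
    simp only [neg_apply, inner_neg_left, Complex.neg_re]
    linarith [h v]
  simp only [mul_neg, neg_mul, map_neg, Complex.neg_re] at this
  linarith

theorem sq_expE_le (hφ : IsCState M A φ) {y : H →L[ℂ] H} (hy : y ∈ M) :
    sq φ (expE A φ y) ≤ 2 * sq φ y := by
  have := refF_neBot hφ.masa.comm
  have h := ((hφ.expE_spec hy).2.2.const_mul 2).add (tendsto_const_nhds (x := 2 * sq φ y))
  simp only [mul_zero, zero_add] at h
  refine ge_of_tendsto h (.of_forall fun Q => ?_)
  have h1 := hφ.sq_add_le (sub_mem (hφ.expE_memM hy) (hφ.pinch_memM Q hy)) (hφ.pinch_memM Q hy)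
  rw [sub_add_cancel] at h1
  have e : sq φ (expE A φ y - pinch Q.p y) = sq φ (pinch Q.p y - expE A φ y) := by
    rw [← neg_sub (pinch Q.p y), sq, sq, star_neg, neg_mul_neg]
  linarith [hφ.sq_pinch_le Q hy]

theorem sq_proj_star_mul (hφ : IsCState M A φ) {W f a : H →L[ℂ] H} (hW : W ∈ M) (hf : f ∈ A)
    (hfp : IsStarProjection f) (ha : a ∈ A) (hap : IsStarProjection a) :
    sq φ (f * star W * a) = (φ (a * bE A φ W f)).re := by
  have hfM := hφ.masa.le f hf
  have haM := hφ.masa.le a ha
  have hY : W * f * star W ∈ M := mul_mem (mul_mem hW hfM) (star_mem hW)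
  have e : star (f * star W * a) * (f * star W * a) = a * (W * f * star W * a) := by
    simp only [star_mul, star_star, hfp.isSelfAdjoint.star_eq, hap.isSelfAdjoint.star_eq, mul_assoc]
    rw [← mul_assoc f f, hfp.isIdempotentElem.eq]
  rw [sq, e, hφ.central a ha _ (mul_mem hY haM), mul_assoc (W * f * star W) a a,
    hap.isIdempotentElem.eq, ← hφ.map_expE (mul_mem hY haM), hφ.expE_mul_right ha hY,
    (hφ.masa.comm _ (hφ.expE_mem hY) a ha).eq]
  rfl

/-- Cuts decrease along dominated commuting elements. -/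
theorem cut_mono (hφ : IsCState M A φ) {b b' : H →L[ℂ] H} (hb : b ∈ A) (hb' : b' ∈ A)
    (hbs : IsSelfAdjoint b) (hbs' : IsSelfAdjoint b')
    (hle : ∀ w, (⟪b' w, w⟫_ℂ).re ≤ (⟪b w, w⟫_ℂ).re) (t : ℝ) :
    cut b t * cut b' t = cut b t := by
  ext v
  set x := cut b t v with hx
  rw [mul_apply_eq_comp]
  set w := x - cut b' t x with hw
  have hP := isStarProjection_cut b t
  have hP' := isStarProjection_cut b' t
  have hcc : Commute (cut b t) (cut b' t) :=
    hφ.masa.comm _ (cut_mem A hb hbs t) _ (cut_mem A hb' hbs' t)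
  have hxx : cut b t x = x := congrArg (fun f : H →L[ℂ] H => f v) hP.isIdempotentElem.eq
  have hwP : cut b t w = w := by
    have e := congrArg (fun f : H →L[ℂ] H => f x) hcc.eq
    simp only [mul_apply_eq_comp] at e
    rw [hw, map_sub, hxx, e, hxx]
  have hw' : cut b' t w = 0 := by
    rw [hw, map_sub, show cut b' t (cut b' t x) = cut b' t x from
      congrArg (fun f : H →L[ℂ] H => f x) hP'.isIdempotentElem.eq, sub_self]
  have h1 := le_re_inner_of_cut_eq_zero hbs' hw'
  have h2 : (⟪b w, w⟫_ℂ).re ≤ t * ‖w‖ ^ 2 := by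
    refine re_inner_le_of_mem_cutSpace hbs ?_
    rw [← hwP]
    exact cut_mem_cutSpace _ _ _
  have h3 := hle w
  have hd := CFC.posPart_sub_negPart (shift b' t) (isSelfAdjoint_shift hbs' t)
  have hn : (shift b' t)⁻ w = 0 := by
    have hmem : (shift b' t)⁻ ((shift b' t)⁻ w) ∈ cutSpace b' t :=
      congrArg (fun f : H →L[ℂ] H => f ((shift b' t)⁻ w))
        (CFC.posPart_mul_negPart (shift b' t))
    have h0 : ⟪w - cut b' t w, (shift b' t)⁻ ((shift b' t)⁻ w)⟫_ℂ = 0 :=
      Submodule.starProjection_inner_eq_zero w _ hmem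
    rw [hw', sub_zero, ← inner_sa (IsSelfAdjoint.of_nonneg (CFC.negPart_nonneg _))] at h0
    exact inner_self_eq_zero.1 h0
  have he : (shift b' t)⁺ w = b' w - (t : ℂ) • w := by
    have e := congrArg (fun f : H →L[ℂ] H => f w) hd
    simp only [sub_apply, hn, sub_zero] at e
    rw [e]
    simp [shift]
  have hz : (⟪(shift b' t)⁺ w, w⟫_ℂ).re = 0 := by
    have hn2 : (⟪w, w⟫_ℂ).re = ‖w‖ ^ 2 := inner_self_eq_norm_sq (𝕜 := ℂ) w
    rw [he, inner_sub_left, inner_smul_left, Complex.sub_re, Complex.conj_ofReal,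
      Complex.re_ofReal_mul, hn2]
    linarith
  have hwker : w ∈ cutSpace b' t := by
    show (shift b' t)⁺ w = 0
    have hr : IsSelfAdjoint (CFC.sqrt (shift b' t)⁺) := (CFC.sqrt_nonneg _).isSelfAdjoint
    have hrr := CFC.sqrt_mul_sqrt_self (shift b' t)⁺ (CFC.posPart_nonneg _)
    have hr0 : CFC.sqrt (shift b' t)⁺ w = 0 := by
      rw [← hrr, mul_apply_eq_comp, inner_sa hr] at hz
      exact norm_eq_zero.1 (pow_eq_zero_iff two_ne_zero |>.1
        ((inner_self_eq_norm_sq (𝕜 := ℂ) (CFC.sqrt (shift b' t)⁺ w)).symm.trans hz))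
    rw [← hrr, mul_apply_eq_comp, hr0, map_zero]
  have hw0 : w = 0 := by
    rw [← hw']
    exact (Submodule.starProjection_eq_self_iff.2 hwker).symm
  have hfix : cut b' t x = x := (sub_eq_zero.1 (hw ▸ hw0)).symm
  rw [show cut b t (cut b' t v) = cut b' t (cut b t v) from
    congrArg (fun f : H →L[ℂ] H => f v) hcc.eq]
  exact hfix

/-- Facts about sums of squares over the descendants. -/
theorem qsum_facts (hφ : IsCState M A φ) {b : ∀ n, (Fin n → Bool) → H →L[ℂ] H} {t : ℝ}
    (ht0 : 0 ≤ t) (hbA : ∀ n s, b n s ∈ A) (hb0 : ∀ n s, 0 ≤ b n s)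
    (hbsplit : ∀ n s, b (n + 1) (Fin.cons true s) + b (n + 1) (Fin.cons false s) = b n s)
    (hcA : ∀ m n s, cmul b t m n s ∈ A ∧ IsStarProjection (cmul b t m n s)) :
    (∀ m n s (x : H →L[ℂ] H), x ∈ A → IsStarProjection x →
      (φ (x * qsum b m n s)).re ≤ (φ (x * (b n s * b n s))).re) ∧
    (∀ m n s, (φ (cmul b t m n s * qsum b m n s)).re ≤ t * (φ (b n s)).re) := by
  have hbs : ∀ n s, IsSelfAdjoint (b n s) := fun n s => IsSelfAdjoint.of_nonneg (hb0 n s)
  have hcm := fun {x y : H →L[ℂ] H} (hx : x ∈ A) (hy : y ∈ A) => (hφ.masa.comm x hx y hy).eq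
  have hqsA : ∀ m n s, qsum b m n s ∈ A ∧ 0 ≤ qsum b m n s := by
    intro m
    induction m with
    | zero =>
      exact fun n s => ⟨mul_mem (hbA n s) (hbA n s), by
        simpa [qsum, (hbs n s).star_eq] using star_mul_self_nonneg (b n s)⟩
    | succ m ih => exact fun n s => ⟨add_mem (ih _ _).1 (ih _ _).1, add_nonneg (ih _ _).2 (ih _ _).2⟩
  have hA1 : ∀ {x : H →L[ℂ] H}, IsStarProjection x → 0 ≤ x := fun h => h.nonneg
  refine ⟨?_, ?_⟩
  · intro m
    induction m with
    | zero => intro n s x _ _; exact le_rfl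
    | succ m ih =>
      intro n s x hx hxp
      have hb1 := hb0 (n + 1) (Fin.cons true s)
      have hb2 := hb0 (n + 1) (Fin.cons false s)
      rw [← hbsplit n s]
      simp only [qsum, mul_add, add_mul, map_add, Complex.add_re]
      have key : ∀ d d', 0 ≤ (φ (x * (b (n + 1) (Fin.cons d s) * b (n + 1) (Fin.cons d' s)))).re :=
        fun d d' => by
          rw [← mul_assoc]
          refine hφ.map_mul_nonneg (mul_mem hx (hbA _ _)) (hbA _ _) ?_ (hb0 _ _)
          obtain ⟨s1, hs1, hs1a, hs1s⟩ := exists_sqrt A (hbA (n + 1) (Fin.cons d s)) (hb0 _ _)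
          have : x * b (n + 1) (Fin.cons d s) = star (s1 * x) * (s1 * x) := by
            rw [star_mul, hs1a.star_eq, hxp.isSelfAdjoint.star_eq, ← hs1s, mul_assoc x s1 (s1 * x),
              ← mul_assoc s1 s1 x, hcm (mul_mem hs1 hs1) hx, ← mul_assoc x x,
              hxp.isIdempotentElem.eq]
          rw [this]
          exact star_mul_self_nonneg _
      linarith [ih (n + 1) (Fin.cons true s) x hx hxp, ih (n + 1) (Fin.cons false s) x hx hxp,
        key true false, key false true]
  · intro m
    induction m with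
    | zero =>
      intro n s
      simp only [cmul, qsum]
      rw [← mul_assoc]
      refine (hφ.proj_map_le (cut_mem A (hbA n s) (hbs n s) t) (isStarProjection_cut _ _)
        (hbA n s) (hbs n s) (hbA n s) (hb0 n s) fun v =>
          re_inner_le_of_mem_cutSpace (hbs n s) (cut_mem_cutSpace _ _ v)).trans ?_
      refine mul_le_mul_of_nonneg_left ?_ ht0
      have h := hφ.map_mul_nonneg (sub_mem (one_mem A) (cut_mem A (hbA n s) (hbs n s) t)) (hbA n s)
        (hA1 (isStarProjection_cut (b n s) t).one_sub) (hb0 n s)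
      simp only [sub_mul, one_mul, map_sub, Complex.sub_re] at h
      linarith
    | succ m ih =>
      intro n s
      set C1 := cmul b t m (n + 1) (Fin.cons true s) with hC1
      set C2 := cmul b t m (n + 1) (Fin.cons false s) with hC2
      have h1 := hφ.map_mul_nonneg (mul_mem (hcA m _ _).1 (sub_mem (one_mem A) (hcA m _ _).1))
        (hqsA m (n + 1) (Fin.cons true s)).1
        (hA1 ((hcA m (n + 1) (Fin.cons true s)).2.mul (hcA m (n + 1) (Fin.cons false s)).2.one_sub
          (hφ.masa.comm _ (hcA m _ _).1 _ (sub_mem (one_mem A) (hcA m _ _).1))))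
        (hqsA m (n + 1) (Fin.cons true s)).2
      have h2 := hφ.map_mul_nonneg (mul_mem (sub_mem (one_mem A) (hcA m _ _).1) (hcA m _ _).1)
        (hqsA m (n + 1) (Fin.cons false s)).1
        (hA1 ((hcA m (n + 1) (Fin.cons true s)).2.one_sub.mul (hcA m (n + 1) (Fin.cons false s)).2
          (hφ.masa.comm _ (sub_mem (one_mem A) (hcA m _ _).1) _ (hcA m _ _).1)))
        (hqsA m (n + 1) (Fin.cons false s)).2
      rw [← hC1, ← hC2] at h1 h2
      simp only [sub_mul, mul_sub, one_mul, mul_one, map_sub, Complex.sub_re] at h1 h2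
      have e := congrArg (fun x => t * (φ x).re) (hbsplit n s)
      simp only [map_add, Complex.add_re] at e
      simp only [cmul, qsum, ← hC1, ← hC2, mul_add, map_add, Complex.add_re]
      linarith [ih (n + 1) (Fin.cons true s), ih (n + 1) (Fin.cons false s)]

/-- A selection of one large branch of a minimising tree. -/
theorem exists_selection (hφ : IsCState M A φ) {W : H →L[ℂ] H} (hW : W ∈ M)
    {u : ∀ n, (Fin n → Bool) → H →L[ℂ] H} (hu : IsTree A u) (hu0 : u 0 Fin.elim0 = 1)
    (hpos : 0 < ssInf A φ W) :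
    ∃ (t : ℝ) (q : ∀ n, (Fin n → Bool) → H →L[ℂ] H), 0 < t ∧ IsTree A q ∧
      0 < (φ (q 0 Fin.elim0)).re ∧
      ∀ n s v, t * ‖q n s v‖ ^ 2 ≤ (⟪bE A φ W (u n s) (q n s v), q n s v⟫_ℂ).re := by
  set b : ∀ n, (Fin n → Bool) → H →L[ℂ] H := fun n s => bE A φ W (u n s) with hb
  have hbA : ∀ n s, b n s ∈ A := fun n s => hφ.bE_memA hW (hu.mem n s)
  have hb0 : ∀ n s, 0 ≤ b n s := fun n s => hφ.bE_nonneg hW (hu.mem n s) (hu.proj n s)
  have hbs : ∀ n s, IsSelfAdjoint (b n s) := fun n s => IsSelfAdjoint.of_nonneg (hb0 n s)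
  have hbsplit : ∀ n s, b (n + 1) (Fin.cons true s) + b (n + 1) (Fin.cons false s) = b n s :=
    fun n s => by
      rw [hb]
      simp only
      rw [← hφ.bE_add hW (hu.mem _ _) (hu.mem _ _), hu.split]
  set c := (φ (b 0 Fin.elim0)).re with hc
  have hc0 : 0 ≤ c :=
    (Complex.le_def.1 (hφ.map_nonneg (hφ.masa.le _ (hbA _ _)) (hb0 _ _))).1
  set t := ssInf A φ W / (2 * (c + 1)) with ht
  have ht0 : 0 < t := by positivity
  have hcA : ∀ m n s, cmul b t m n s ∈ A ∧ IsStarProjection (cmul b t m n s) := by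
    intro m
    induction m with
    | zero => exact fun n s => ⟨cut_mem A (hbA n s) (hbs n s) t, isStarProjection_cut _ _⟩
    | succ m ih =>
      exact fun n s => ⟨mul_mem (ih _ _).1 (ih _ _).1,
        (ih _ _).2.mul (ih _ _).2 (hφ.masa.comm _ (ih _ _).1 _ (ih _ _).1)⟩
  have hcm := fun {x y : H →L[ℂ] H} (hx : x ∈ A) (hy : y ∈ A) => (hφ.masa.comm x hx y hy).eq
  -- the cuts decrease along the tree
  have hmono0 : ∀ n d s, cut (b n s) t * cut (b (n + 1) (Fin.cons d s)) t = cut (b n s) t := by
    intro n d s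
    refine hφ.cut_mono (hbA n s) (hbA _ _) (hbs n s) (hbs _ _) (fun w => ?_) t
    rw [← hbsplit n s, add_apply, inner_add_left, Complex.add_re]
    cases d
    · linarith [re_inner_nonneg_of_nonneg (hb0 (n + 1) (Fin.cons true s)) w]
    · linarith [re_inner_nonneg_of_nonneg (hb0 (n + 1) (Fin.cons false s)) w]
  have hmono : ∀ m n s, cmul b t m n s * cmul b t (m + 1) n s = cmul b t m n s := by
    intro m
    induction m with
    | zero =>
      intro n s
      simp only [cmul]
      rw [← mul_assoc, hmono0, hmono0]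
    | succ m ih =>
      intro n s
      rw [show cmul b t (m + 1 + 1) n s = cmul b t (m + 1) (n + 1) (Fin.cons true s) *
        cmul b t (m + 1) (n + 1) (Fin.cons false s) from rfl]
      show cmul b t m (n + 1) (Fin.cons true s) * cmul b t m (n + 1) (Fin.cons false s) * _ = _
      rw [mul_assoc, ← mul_assoc (cmul b t m (n + 1) (Fin.cons false s)),
        hcm (hcA m _ _).1 (hcA (m + 1) (n + 1) (Fin.cons true s)).1, mul_assoc, ← mul_assoc, ih, ih]
      rfl
  choose z hzA hzp hzmul hzlim hzφ using fun n s =>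
    hφ.exists_proj_limit (fun m => (hcA m n s).1) (fun m => (hcA m n s).2) fun m => hmono m n s
  have hz_split : ∀ n s, z n s = z (n + 1) (Fin.cons true s) * z (n + 1) (Fin.cons false s) := by
    intro n s
    refine ContinuousLinearMap.ext fun w => ?_
    rw [mul_apply_eq_comp]
    exact tendsto_nhds_unique ((hzlim n s w).comp (tendsto_add_atTop_nat 1))
      (tendsto_apply_comp (T := fun m => cmul b t m (n + 1) (Fin.cons true s))
        (fun m => opNorm_proj_le_one (hcA m _ _).2) (hzlim _ _) (hzlim _ _ w))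
  set q := sel z with hq
  have hqA : ∀ n s, q n s ∈ A ∧ IsStarProjection (q n s) := by
    intro n
    induction n with
    | zero =>
      intro s
      exact ⟨sub_mem (one_mem A) (hzA _ _), (hzp _ _).one_sub⟩
    | succ n ih =>
      intro s
      simp only [hq, sel] at ih ⊢
      split_ifs
      · exact ⟨mul_mem (ih _).1 (sub_mem (one_mem A) (hzA _ _)),
          (ih _).2.mul (hzp _ _).one_sub (hφ.masa.comm _ (ih _).1 _ (sub_mem (one_mem A) (hzA _ _)))⟩
      · exact ⟨mul_mem (ih _).1 (hzA _ _),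
          (ih _).2.mul (hzp _ _) (hφ.masa.comm _ (ih _).1 _ (hzA _ _))⟩
  have hqtree : IsTree A q := by
    refine ⟨fun n s => (hqA n s).1, fun n s => (hqA n s).2, fun n s => ?_⟩
    simp [hq, sel, mul_sub]
  have hqz : ∀ n s, q n s * z n s = 0 := by
    intro n
    induction n with
    | zero =>
      intro s
      rw [Subsingleton.elim s Fin.elim0]
      simp [hq, sel, sub_mul, (hzp 0 Fin.elim0).isIdempotentElem.eq]
    | succ n ih =>
      intro s
      obtain ⟨d, s, rfl⟩ : ∃ d s', s = Fin.cons d s' :=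
        ⟨s 0, Fin.tail s, (Fin.cons_self_tail s).symm⟩
      cases d
      · have e : q (n + 1) (Fin.cons false s) = q n s * z (n + 1) (Fin.cons true s) := by
          simp [hq, sel]
        rw [e, mul_assoc, ← hz_split, ih]
      · have e : q (n + 1) (Fin.cons true s) = q n s * (1 - z (n + 1) (Fin.cons true s)) := by
          simp [hq, sel]
        rw [e, mul_assoc, sub_mul, one_mul, (hzp _ _).isIdempotentElem.eq, sub_self, mul_zero]
  have hqcut : ∀ n s v, cut (b n s) t (q n s v) = 0 := by
    intro n s v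
    have e : cut (b n s) t * q n s = 0 := by
      have e0 : cut (b n s) t * z n s = cut (b n s) t := hzmul n s 0
      rw [← e0, mul_assoc, hcm (hzA n s) (hqA n s).1, hqz, mul_zero]
    exact congrArg (fun f : H →L[ℂ] H => f v) e
  refine ⟨t, q, ht0, hqtree, ?_,
    fun n s v => le_re_inner_of_cut_eq_zero (hbs n s) (hqcut n s v)⟩
  -- the root is not zero
  obtain ⟨q1, q2⟩ := hφ.qsum_facts ht0.le hbA hb0 hbsplit hcA
  have q3 : ∀ m n, (∑ s : Fin n → Bool, (φ (qsum b m n s)).re) = ss A φ W (u (n + m)) := by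
    intro m
    induction m with
    | zero =>
      intro n
      exact Finset.sum_congr rfl fun s _ => (sq_eq_map φ (hbs n s)).symm
    | succ m ih =>
      intro n
      rw [show n + (m + 1) = n + 1 + m by omega, ← ih, sum_cons]
      simp only [qsum, map_add, Complex.add_re]
  set z0 := z 0 Fin.elim0 with hz0
  have hroot : q 0 Fin.elim0 = 1 - z0 := rfl
  rw [hroot, map_sub, Complex.sub_re]
  set K := ‖b 0 Fin.elim0‖ ^ 2 + 1 with hK
  have key : ∀ m, ssInf A φ W / 2 ≤ K * ((φ 1).re - (φ (cmul b t m 0 Fin.elim0)).re) := by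
    intro m
    set C := cmul b t m 0 Fin.elim0
    have hCp := (hcA m 0 Fin.elim0).2.one_sub
    have h0 : ssInf A φ W ≤ (φ (qsum b m 0 Fin.elim0)).re := by
      have hp : IsPart A (1 : H →L[ℂ] H) (u (0 + m)) := hu0 ▸ hu.isPart hφ.masa.comm _
      refine (hφ.ssInf_le hW hp).trans_eq ?_
      rw [← q3 m 0]
      exact Fintype.sum_eq_single _ fun s h => absurd (Subsingleton.elim s _) h
    have h1 := q2 m 0 Fin.elim0
    have h2 := q1 m 0 Fin.elim0 _ (sub_mem (one_mem A) (hcA m 0 Fin.elim0).1) hCp
    have h3 : (φ ((1 - C) * (b 0 Fin.elim0 * b 0 Fin.elim0))).re ≤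
        ‖b 0 Fin.elim0‖ ^ 2 * ((φ 1).re - (φ C).re) := by
      have h := hφ.sq_mul_left (hφ.masa.le _ (hbA 0 Fin.elim0))
        (sub_mem (one_mem M) (hφ.masa.le _ (hcA m 0 Fin.elim0).1))
      have e : star (b 0 Fin.elim0 * (1 - C)) * (b 0 Fin.elim0 * (1 - C)) =
          (1 - C) * (b 0 Fin.elim0 * b 0 Fin.elim0) := by
        rw [star_mul, hCp.isSelfAdjoint.star_eq, (hbs 0 Fin.elim0).star_eq,
          mul_assoc (1 - C), ← mul_assoc (b 0 Fin.elim0) (b 0 Fin.elim0) (1 - C),
          hcm (mul_mem (hbA _ _) (hbA _ _)) (sub_mem (one_mem A) (hcA m 0 Fin.elim0).1),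
          ← mul_assoc (1 - C), hCp.isIdempotentElem.eq]
      rw [sq, e, sq, hCp.isSelfAdjoint.star_eq, hCp.isIdempotentElem.eq, map_sub,
        Complex.sub_re] at h
      exact h
    have h4 : t * c ≤ ssInf A φ W / 2 := by
      rw [ht, div_mul_eq_mul_div, div_le_iff₀ (by positivity)]
      nlinarith
    have h5 : 0 ≤ (φ 1).re - (φ C).re := by
      have h := hφ.sq_nonneg' (sub_mem (one_mem M) (hφ.masa.le _ (hcA m 0 Fin.elim0).1))
      rwa [sq, hCp.isSelfAdjoint.star_eq, hCp.isIdempotentElem.eq, map_sub, Complex.sub_re] at h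
    rw [sub_mul, one_mul, map_sub, Complex.sub_re] at h2
    nlinarith
  have hlim := ((tendsto_const_nhds (x := (φ 1).re)).sub (hzφ 0 Fin.elim0)).const_mul K
  have hfin := ge_of_tendsto hlim (.of_forall key)
  nlinarith [sq_nonneg ‖b 0 Fin.elim0‖]

/-- An atom gives an intertwining operator with zero expectation, a limit of sums `∑ a W b`. -/
theorem exists_intertwiner_lim (hφ : IsCState M A φ) {W : H →L[ℂ] H} (hW : W ∈ M)
    (h0 : expE A φ W = 0) (hpos : 0 < ssInf A φ W) :
    ∃ S ∈ M, S ≠ 0 ∧ expE A φ S = 0 ∧ (∀ e ∈ A, star S * e * S ∈ A) ∧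
      ((∀ e ∈ A, W * e * star W ∈ A) → ∀ e ∈ A, S * e * star S ∈ A) ∧
      ∀ η : ℝ, 0 < η → ∃ (k : ℕ) (a c : (Fin k → Bool) → H →L[ℂ] H),
        (∀ i, a i ∈ A) ∧ (∀ i, c i ∈ A) ∧ sq φ (∑ i, a i * W * c i - S) ≤ η := by
  classical
  obtain ⟨u, hu, hu0, hlimu⟩ := hφ.exists_tree hW
  obtain ⟨t, q, ht, hq, hq0, hqt⟩ := hφ.exists_selection hW hu hu0 hpos
  set b : ∀ n, (Fin n → Bool) → H →L[ℂ] H := fun n s => bE A φ W (u n s) with hb
  have hcm := fun {x y : H →L[ℂ] H} (hx : x ∈ A) (hy : y ∈ A) => (hφ.masa.comm x hx y hy).eq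
  obtain ⟨S, hSM, hSlim, hSsq⟩ := hφ.exists_lvl_limit hq hu hW
  obtain ⟨X, hXM, hXlim, hXsq⟩ := hφ.exists_lvl_limit hu hq (star_mem hW)
  set Sn := fun n => lvl q u n W with hSn
  have hstar : ∀ n, star (Sn n) = lvl u q n (star W) := fun n => hq.star_lvl hu n W
  have hX : X = star S := by
    refine ContinuousLinearMap.ext fun w => ext_inner_right ℂ fun w' => ?_
    rw [ContinuousLinearMap.star_eq_adjoint, ContinuousLinearMap.adjoint_inner_left]
    refine tendsto_nhds_unique ((hXlim w).inner tendsto_const_nhds)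
      ((tendsto_const_nhds.inner (hSlim w')).congr' (.of_forall fun n => ?_))
    simp only
    rw [← hstar n, ContinuousLinearMap.star_eq_adjoint, ContinuousLinearMap.adjoint_inner_left]
  have hSnM : ∀ n, Sn n ∈ M := fun n => hφ.lvl_mem hq hu n hW
  have hSnn : ∀ n, ‖Sn n‖ ≤ ‖W‖ := fun n => hq.norm_lvl_le hu hφ.masa.comm n W
  refine ⟨S, hSM, ?_, ?_, ?_, ?_, ?_⟩
  · -- S is not zero
    intro hS0
    have hlow : ∀ n, t * (φ (q 0 Fin.elim0)).re ≤ sq φ (lvl u q n (star W)) := by
      intro n
      rw [hφ.sq_lvl hu hq n (star_mem hW), star_star]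
      have e : (φ (W * lvl u q n (star W))).re = ∑ s, (φ (q n s * b n s)).re := by
        rw [lvl, Finset.mul_sum, map_sum, Complex.re_sum]
        refine Finset.sum_congr rfl fun s _ => ?_
        have hY : W * u n s * star W ∈ M :=
          mul_mem (mul_mem hW (hφ.masa.le _ (hu.mem n s))) (star_mem hW)
        rw [show W * (u n s * star W * q n s) = W * u n s * star W * q n s by simp only [mul_assoc],
          ← hφ.map_expE (mul_mem hY (hφ.masa.le _ (hq.mem n s))), hφ.expE_mul_right (hq.mem n s) hY,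
          hcm (hφ.expE_mem hY) (hq.mem n s)]
        rfl
      rw [e, ← hq.sum_level n, map_sum, Complex.re_sum, Finset.mul_sum]
      refine Finset.sum_le_sum fun s _ => ?_
      have h := hφ.proj_map_ge (hq.mem n s) (hq.proj n s) (hφ.bE_memA hW (hu.mem n s))
        (IsSelfAdjoint.of_nonneg (hφ.bE_nonneg hW (hu.mem n s) (hu.proj n s))) (one_mem A)
        zero_le_one (hqt n s)
      simpa using h
    have h := ge_of_tendsto (hXsq.const_mul 2) (.of_forall fun n => ?_) (b := t * (φ (q 0 Fin.elim0)).re)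
    · nlinarith
    · refine (hlow n).trans ?_
      have hX0 : X = 0 := by rw [hX, hS0, star_zero]
      have h2 : 0 ≤ sq φ (lvl u q n (star W)) := hφ.sq_nonneg' (hφ.lvl_mem hu hq n (star_mem hW))
      simp only [hX0, sub_zero]
      linarith
  · -- E S = 0
    refine hφ.faithful _ (hφ.expE_memM hSM) ?_
    have hn : ∀ n, sq φ (expE A φ S) ≤ 2 * sq φ (Sn n - S) := by
      intro n
      have hEn : expE A φ (Sn n) = 0 := by
        refine hφ.expE_unique (hSnM n) fun v => ?_
        have hz : ∀ s, expE A φ (q n s * W * u n s) = 0 := fun s => by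
          rw [hφ.expE_mul_right (hu.mem n s) (mul_mem (hφ.masa.le _ (hq.mem n s)) hW),
            hφ.expE_mul_left (hq.mem n s) hW, h0, mul_zero, zero_mul]
        have := tendsto_finsetSum Finset.univ fun s _ => hφ.tendsto_pinch
          (mul_mem (mul_mem (hφ.masa.le _ (hq.mem n s)) hW) (hφ.masa.le _ (hu.mem n s))) v
        simp only [hz, zero_apply, Finset.sum_const_zero] at this
        refine this.congr fun Q => ?_
        simp [hSn, lvl, pinch, Finset.mul_sum, Finset.sum_mul, sum_apply]
        exact Finset.sum_comm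
      have h := hφ.sq_expE_le (sub_mem (hSnM n) hSM)
      rw [hφ.expE_sub (hSnM n) hSM, hEn, zero_sub] at h
      rwa [show sq φ (-expE A φ S) = sq φ (expE A φ S) by simp [sq]] at h
    have h0' : sq φ (expE A φ S) ≤ 2 * 0 :=
      ge_of_tendsto (hSsq.const_mul 2) (.of_forall hn)
    exact Complex.ext (le_antisymm (by simpa [sq] using h0') (hφ.sq_nonneg' (hφ.expE_memM hSM)))
      (hφ.pos_im (hφ.expE_memM hSM))
  · -- intertwining
    intro e he
    refine hφ.masa.max _ (mul_mem (mul_mem (star_mem hSM) (hφ.masa.le e he)) hSM) fun a ha =>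
      commute_of_commute_proj A (fun f hf hfp => ?_) ha
    have hf1 : 1 - f ∈ A := sub_mem (one_mem A) hf
    let cu := fun n (s : Fin n → Bool) => cut (bE A φ W (u n s * f)) (t / 2)
    have hufA : ∀ n s, u n s * f ∈ A ∧ IsStarProjection (u n s * f) := fun n s =>
      ⟨mul_mem (hu.mem n s) hf, (hu.proj n s).mul hfp (hφ.masa.comm _ (hu.mem n s) _ hf)⟩
    have hucA : ∀ n s, u n s * (1 - f) ∈ A ∧ IsStarProjection (u n s * (1 - f)) := fun n s =>
      ⟨mul_mem (hu.mem n s) hf1,
        (hu.proj n s).mul hfp.one_sub (hφ.masa.comm _ (hu.mem n s) _ hf1)⟩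
    have hbfs : ∀ n s, IsSelfAdjoint (bE A φ W (u n s * f)) := fun n s =>
      IsSelfAdjoint.of_nonneg (hφ.bE_nonneg hW (hufA n s).1 (hufA n s).2)
    have hcuA : ∀ n s, cu n s ∈ A := fun n s =>
      cut_mem A (hφ.bE_memA hW (hufA n s).1) (hbfs n s) _
    have hcup : ∀ n s, IsStarProjection (cu n s) := fun n s => isStarProjection_cut _ _
    set ψ := fun n => ∑ s, q n s * (1 - cu n s) with hψ
    set T := fun n => Sn n * f - ψ n * Sn n with hT
    have hψA : ∀ n, ψ n ∈ A := fun n =>
      sum_mem fun s _ => mul_mem (hq.mem n s) (sub_mem (one_mem A) (hcuA n s))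
    have hψs : ∀ n, star (ψ n) = ψ n := fun n => by
      simp only [hψ, star_sum, star_mul, (hq.proj n _).isSelfAdjoint.star_eq,
        (hcup n _).one_sub.isSelfAdjoint.star_eq]
      exact Finset.sum_congr rfl fun s _ => hcm (sub_mem (one_mem A) (hcuA n s)) (hq.mem n s)
    have hψn : ∀ n, ‖ψ n‖ ≤ 1 := fun n => by
      refine ContinuousLinearMap.opNorm_le_bound _ zero_le_one fun v => ?_
      rw [one_mul]
      refine le_of_pow_le_pow_left₀ two_ne_zero (norm_nonneg _) ?_
      have e1 : ψ n v = ∑ s, q n s ((1 - cu n s) (q n s v)) := by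
        rw [hψ, sum_apply]
        refine Finset.sum_congr rfl fun s _ => ?_
        have : q n s * (1 - cu n s) = q n s * ((1 - cu n s) * q n s) := by
          rw [hcm (sub_mem (one_mem A) (hcuA n s)) (hq.mem n s), ← mul_assoc,
            (hq.proj n s).isIdempotentElem.eq]
        exact congrArg (fun T : H →L[ℂ] H => T v) this
      rw [e1, (hq.isPart hφ.masa.comm n).norm_sq_sum_apply]
      refine le_trans (Finset.sum_le_sum fun s _ => ?_) ((hq.isPart hφ.masa.comm n).sum_norm_sq_le v)
      exact pow_le_pow_left₀ (norm_nonneg _)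
        ((norm_proj_le (hq.proj n s) _).trans (norm_proj_le (hcup n s).one_sub _)) 2
    have hψS : ∀ n, ψ n * Sn n = ∑ s, q n s * (1 - cu n s) * W * u n s := fun n => by
      simp only [hψ, hSn, lvl, Finset.sum_mul, Finset.mul_sum]
      refine Finset.sum_congr rfl fun s _ => ?_
      rw [Finset.sum_eq_single s]
      · calc q n s * (1 - cu n s) * (q n s * W * u n s)
            = q n s * ((1 - cu n s) * q n s) * W * u n s := by simp only [mul_assoc]
          _ = _ := by
              rw [hcm (sub_mem (one_mem A) (hcuA n s)) (hq.mem n s), ← mul_assoc (q n s) (q n s),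
                (hq.proj n s).isIdempotentElem.eq]
      · intro r _ hr
        calc q n r * (1 - cu n r) * (q n s * W * u n s)
            = (q n r * (1 - cu n r) * q n s) * (W * u n s) := by simp only [mul_assoc]
          _ = 0 := by
              rw [hcm (hq.mem n r) (sub_mem (one_mem A) (hcuA n r)), mul_assoc (1 - cu n r),
                hq.orth hφ.masa.comm n r s hr]
              simp
      · exact fun h => absurd (Finset.mem_univ s) h
    have hTsum : ∀ n, star (T n) = ∑ s, (u n s * f * star W * (q n s * cu n s) -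
        u n s * (1 - f) * star W * (q n s * (1 - cu n s))) := fun n => by
      have hT' : T n = ∑ s, (q n s * cu n s * W * (u n s * f) -
          q n s * (1 - cu n s) * W * (u n s * (1 - f))) := by
        simp only [hT, hψS]
        simp only [hSn, lvl, Finset.sum_mul]
        rw [← Finset.sum_sub_distrib]
        refine Finset.sum_congr rfl fun s _ => ?_
        simp only [mul_sub, sub_mul, mul_one, mul_assoc]
        abel
      rw [hT', star_sum]
      refine Finset.sum_congr rfl fun s _ => ?_
      rw [star_sub]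
      simp only [star_mul, (hufA n s).2.isSelfAdjoint.star_eq, (hucA n s).2.isSelfAdjoint.star_eq,
        (hq.proj n s).isSelfAdjoint.star_eq, (hcup n s).isSelfAdjoint.star_eq,
        (hcup n s).one_sub.isSelfAdjoint.star_eq, hcm (hcuA n s) (hq.mem n s),
        hcm (sub_mem (one_mem A) (hcuA n s)) (hq.mem n s)]
      simp only [mul_assoc]
    have hsq : ∀ n, sq φ (star (T n)) ≤ (ss A φ W (u n) - ssInf A φ W) / t := by
      intro n
      have hM' : ∀ {a c : H →L[ℂ] H}, a ∈ A → c ∈ A → a * star W * c ∈ M := fun ha hc =>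
        mul_mem (mul_mem (hφ.masa.le _ ha) (star_mem hW)) (hφ.masa.le _ hc)
      rw [hTsum, hφ.sq_sum_orth' (fun s => sub_mem (hM' (hufA n s).1 (mul_mem (hq.mem n s) (hcuA n s)))
        (hM' (hucA n s).1 (mul_mem (hq.mem n s) (sub_mem (one_mem A) (hcuA n s))))) ?orth]
      case orth =>
        intro r s hrs
        have e : ∀ s, u n s * f * star W * (q n s * cu n s) -
            u n s * (1 - f) * star W * (q n s * (1 - cu n s)) = u n s *
            (f * star W * (q n s * cu n s) - (1 - f) * star W * (q n s * (1 - cu n s))) := fun s => by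
          simp only [mul_assoc]
          rw [← mul_sub (u n s)]
        rw [e, e, star_mul, (hu.proj n r).isSelfAdjoint.star_eq, mul_assoc, ← mul_assoc (u n r),
          hu.orth hφ.masa.comm n r s hrs, zero_mul, mul_zero]
      have hpart : IsPart A (1 : H →L[ℂ] H) (u n) := hu0 ▸ hu.isPart hφ.masa.comm n
      have hinf := hφ.ssInf_le hW (isPart_inter hφ.masa.comm hpart (twoPart hf hfp).isPart)
      rw [ss, Fintype.sum_prod_type] at hinf
      have hinf' : ssInf A φ W ≤
          ∑ s, (sq φ (bE A φ W (u n s * f)) + sq φ (bE A φ W (u n s * (1 - f)))) :=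
        hinf.trans_eq (Finset.sum_congr rfl fun s _ => by
          show ∑ i : Fin 2, _ = _
          rw [Fin.sum_univ_two]
          rfl)
      rw [le_div_iff₀ ht, Finset.sum_mul]
      refine le_trans (Finset.sum_le_sum fun s _ => ?_) ((Finset.sum_sub_distrib
        (f := fun s => sq φ (b n s))
        (g := fun s => sq φ (bE A φ W (u n s * f)) + sq φ (bE A φ W (u n s * (1 - f))))).trans_le
          (sub_le_sub le_rfl hinf'))
      set bf := bE A φ W (u n s * f) with hbf
      set bc := bE A φ W (u n s * (1 - f)) with hbc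
      have hbfA : bf ∈ A := hφ.bE_memA hW (hufA n s).1
      have hbcA : bc ∈ A := hφ.bE_memA hW (hucA n s).1
      have hbf0 : 0 ≤ bf := hφ.bE_nonneg hW (hufA n s).1 (hufA n s).2
      have hbc0 : 0 ≤ bc := hφ.bE_nonneg hW (hucA n s).1 (hucA n s).2
      have hsum : b n s = bf + bc := by
        rw [hb, hbf, hbc, ← hφ.bE_add hW (hufA n s).1 (hucA n s).1, ← mul_add, add_sub_cancel,
          mul_one]
      set a1 := q n s * cu n s with ha1
      set a2 := q n s * (1 - cu n s) with ha2
      have ha1A : a1 ∈ A := mul_mem (hq.mem n s) (hcuA n s)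
      have ha2A : a2 ∈ A := mul_mem (hq.mem n s) (sub_mem (one_mem A) (hcuA n s))
      have ha1p : IsStarProjection a1 :=
        (hq.proj n s).mul (hcup n s) (hφ.masa.comm _ (hq.mem n s) _ (hcuA n s))
      have ha2p : IsStarProjection a2 := (hq.proj n s).mul (hcup n s).one_sub
        (hφ.masa.comm _ (hq.mem n s) _ (sub_mem (one_mem A) (hcuA n s)))
      have hsqs : sq φ (u n s * f * star W * a1 - u n s * (1 - f) * star W * a2) =
          (φ (a1 * bf)).re + (φ (a2 * bc)).re := by
        rw [sub_eq_add_neg, ← neg_one_smul ℂ (u n s * (1 - f) * star W * a2),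
          hφ.sq_add_smul (hM' (hufA n s).1 ha1A) (hM' (hucA n s).1 ha2A),
          hφ.sq_proj_star_mul hW (hufA n s).1 (hufA n s).2 ha1A ha1p,
          hφ.sq_proj_star_mul hW (hucA n s).1 (hucA n s).2 ha2A ha2p]
        have z : star (u n s * f * star W * a1) * (u n s * (1 - f) * star W * a2) = 0 := by
          have z1 : u n s * f * (u n s * (1 - f)) = 0 := by
            calc u n s * f * (u n s * (1 - f)) = u n s * (f * u n s) * (1 - f) := by
                  simp only [mul_assoc]
              _ = u n s * (u n s * (f * (1 - f))) := by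
                  rw [hcm hf (hu.mem n s)]; simp only [mul_assoc]
              _ = 0 := by rw [mul_sub, mul_one, hfp.isIdempotentElem.eq, sub_self]; simp
          calc star (u n s * f * star W * a1) * (u n s * (1 - f) * star W * a2)
              = star (star W * a1) * (u n s * f * (u n s * (1 - f))) * (star W * a2) := by
                rw [mul_assoc (u n s * f) (star W) a1, star_mul,
                  (hufA n s).2.isSelfAdjoint.star_eq]
                simp only [mul_assoc]
            _ = 0 := by rw [z1]; simp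
        rw [z]
        simp [hbf, hbc]
      have k1 : t / 2 * (φ (a1 * bf)).re ≤ (φ (a1 * bc * bf)).re := by
        refine hφ.proj_map_ge ha1A ha1p hbcA (IsSelfAdjoint.of_nonneg hbc0) hbfA hbf0 fun v => ?_
        have e1 : a1 v = q n s (cu n s v) := rfl
        have h1 := hqt n s (cu n s v)
        rw [show bE A φ W (u n s) = bf + bc from hsum, add_apply, inner_add_left,
          Complex.add_re, ← e1] at h1
        have h2 : (⟪bf (a1 v), a1 v⟫_ℂ).re ≤ t / 2 * ‖a1 v‖ ^ 2 := by
          refine re_inner_le_of_mem_cutSpace (hbfs n s) ?_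
          rw [ha1, hcm (hq.mem n s) (hcuA n s)]
          exact cut_mem_cutSpace _ _ _
        linarith
      have k2 : t / 2 * (φ (a2 * bc)).re ≤ (φ (a2 * bf * bc)).re := by
        refine hφ.proj_map_ge ha2A ha2p hbfA (hbfs n s) hbcA hbc0 fun v => ?_
        refine le_re_inner_of_cut_eq_zero (hbfs n s) ?_
        have z : cu n s * a2 = 0 := by
          rw [hcm (hcuA n s) ha2A, ha2, mul_assoc, sub_mul, one_mul,
            (hcup n s).isIdempotentElem.eq, sub_self, mul_zero]
        exact congrArg (fun T : H →L[ℂ] H => T v) z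
      have k3 := hφ.map_mul_nonneg (sub_mem (one_mem A) (hq.mem n s)) (mul_mem hbfA hbcA)
        (hq.proj n s).one_sub.nonneg
        (((hφ.masa.comm _ hbfA _ hbcA)).mul_nonneg hbf0 hbc0)
      have e3 : a1 * bc * bf + a2 * bf * bc = q n s * (bf * bc) := by
        rw [mul_assoc a1, mul_assoc a2, hcm hbcA hbfA, ← add_mul, ha1, ha2, ← mul_add,
          add_sub_cancel, mul_one]
      have e3' := congrArg (fun x => (φ x).re) e3
      simp only [map_add, Complex.add_re] at e3'
      rw [sub_mul, one_mul, map_sub, Complex.sub_re] at k3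
      have e4 : sq φ (b n s) = sq φ bf + sq φ bc + 2 * (φ (bf * bc)).re := by
        rw [hsum, sq_eq_map φ ((IsSelfAdjoint.of_nonneg hbf0).add (IsSelfAdjoint.of_nonneg hbc0)),
          sq_eq_map φ (IsSelfAdjoint.of_nonneg hbf0), sq_eq_map φ (IsSelfAdjoint.of_nonneg hbc0),
          add_mul, mul_add, mul_add, hcm hbcA hbfA]
        simp only [map_add, Complex.add_re]
        ring
      rw [hsqs]
      linarith
    have hTM : ∀ n, T n ∈ M := fun n => sub_mem (mul_mem (hSnM n) (hφ.masa.le f hf))
      (mul_mem (hφ.masa.le _ (hψA n)) (hSnM n))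
    have hTn : ∀ n, ‖T n‖ ≤ ‖W‖ + ‖W‖ := fun n => by
      refine (norm_sub_le _ _).trans (add_le_add ?_ ?_)
      · exact (norm_mul_le _ _).trans ((mul_le_of_le_one_right (norm_nonneg _)
          (opNorm_proj_le_one hfp)).trans (hSnn n))
      · exact (norm_mul_le _ _).trans ((mul_le_of_le_one_left (norm_nonneg _) (hψn n)).trans (hSnn n))
    have hD : ∀ w, Tendsto (fun n => star (T n) w) atTop (𝓝 ((0 : H →L[ℂ] H) w)) := by
      intro w
      rw [zero_apply]
      refine hφ.apply_tendsto_zero (c := ‖W‖ + ‖W‖) (fun n => star_mem (hTM n))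
        (fun n => (norm_star _).trans_le (hTn n)) ?_ w
      have := (hlimu.sub (tendsto_const_nhds (x := ssInf A φ W))).div_const t
      rw [sub_self, zero_div] at this
      exact squeeze_zero (fun n => hφ.sq_nonneg' (star_mem (hTM n))) hsq this
    have hkey : ∀ n, f * (star (Sn n) * e * Sn n) - star (Sn n) * e * Sn n * f =
        star (T n) * e * Sn n - star (Sn n) * e * T n := by
      intro n
      simp only [hT, star_sub, star_mul, hψs, hfp.isSelfAdjoint.star_eq, sub_mul, mul_sub]
      have : ψ n * e = e * ψ n := hcm (hψA n) he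
      simp only [mul_assoc]
      rw [← mul_assoc (ψ n) e, this, mul_assoc e (ψ n)]
      abel
    refine ContinuousLinearMap.ext fun v => ext_inner_right ℂ fun w => ?_
    have hXl : ∀ w, Tendsto (fun n => star (Sn n) w) atTop (𝓝 (star S w)) := fun w => by
      rw [← hX]
      simpa only [hstar] using hXlim w
    have hXn : ∀ n, ‖star (Sn n)‖ ≤ ‖W‖ := fun n => (norm_star _).trans_le (hSnn n)
    have hL : Tendsto (fun n => ⟪(f * (star (Sn n) * e * Sn n) - star (Sn n) * e * Sn n * f) v, w⟫_ℂ)
        atTop (𝓝 ⟪(f * (star S * e * S) - star S * e * S * f) v, w⟫_ℂ) := by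
      simp only [sub_apply, mul_apply_eq_comp]
      refine Tendsto.inner (Tendsto.sub ((f.continuous.tendsto _).comp ?_) ?_) tendsto_const_nhds
      · exact tendsto_apply_comp hXn hXl ((e.continuous.tendsto _).comp (hSlim v))
      · exact tendsto_apply_comp hXn hXl ((e.continuous.tendsto _).comp (hSlim (f v)))
    have hR : Tendsto (fun n => ⟪(star (T n) * e * Sn n - star (Sn n) * e * T n) v, w⟫_ℂ)
        atTop (𝓝 0) := by
      simp only [sub_apply, mul_apply_eq_comp, inner_sub_left]
      have h1 : Tendsto (fun n => ⟪star (T n) (e (Sn n v)), w⟫_ℂ) atTop (𝓝 0) := by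
        have := Filter.Tendsto.inner (𝕜 := ℂ)
          (tendsto_apply_comp (fun n => (norm_star _).trans_le (hTn n)) hD
          ((e.continuous.tendsto _).comp (hSlim v))) (tendsto_const_nhds (x := w))
        simpa using this
      have h2 : Tendsto (fun n => ⟪star (Sn n) (e (T n v)), w⟫_ℂ) atTop (𝓝 0) := by
        have := Filter.Tendsto.inner (𝕜 := ℂ) (tendsto_const_nhds (x := v)) (tendsto_apply_comp
          (fun n => (norm_star _).trans_le (hTn n)) hD
          (((ContinuousLinearMap.adjoint e).continuous.tendsto _).comp (hSlim w)))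
        simp only [zero_apply, inner_zero_right] at this
        refine this.congr fun n => ?_
        simp only [Function.comp_apply, ContinuousLinearMap.star_eq_adjoint,
          ContinuousLinearMap.adjoint_inner_right, ContinuousLinearMap.adjoint_inner_left, hSn]
      simpa using h1.sub h2
    have h := tendsto_nhds_unique hL (hR.congr fun n => by rw [hkey])
    rw [sub_apply, inner_sub_left, sub_eq_zero] at h
    exact h
  · -- if `W A W*` is inside `A`, so is `S A S*`
    intro hWA e he
    refine mem_of_weak_limit (l := atTop) A (x := fun n => Sn n * e * star (Sn n)) (fun n => ?_)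
      fun v w => ?_
    · rw [hstar]
      simp only [hSn, lvl, Finset.sum_mul, Finset.mul_sum]
      refine sum_mem fun s _ => sum_mem fun r _ => ?_
      rcases eq_or_ne r s with rfl | h
      · rw [show q n r * W * u n r * e * (u n r * star W * q n r) =
            q n r * (W * (u n r * e * u n r) * star W) * q n r by simp only [mul_assoc]]
        exact mul_mem (mul_mem (hq.mem n r)
          (hWA _ (mul_mem (mul_mem (hu.mem n r) he) (hu.mem n r)))) (hq.mem n r)
      · have z : ∀ a c, a ≠ c → u n a * e * u n c = 0 := fun a c hac => by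
          rw [hcm (hu.mem n a) he, mul_assoc, hu.orth hφ.masa.comm n a c hac, mul_zero]
        rw [show q n r * W * u n r * e * (u n s * star W * q n s) =
            q n r * W * (u n r * e * u n s) * star W * q n s by simp only [mul_assoc], z r s h]
        simpa using zero_mem A
    · simp only [mul_apply_eq_comp]
      refine Tendsto.inner ?_ tendsto_const_nhds
      refine tendsto_apply_comp hSnn hSlim ((e.continuous.tendsto _).comp ?_)
      rw [← hX]
      simpa only [hstar] using hXlim v
  · -- a limit of bimodule combinations of `W`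
    intro η hη
    obtain ⟨n, hn⟩ := (hSsq.eventually (eventually_le_nhds hη)).exists
    exact ⟨n, q n, u n, hq.mem n, hu.mem n, hn⟩

/-- An atom gives an intertwining operator with zero expectation. -/
theorem exists_intertwiner (hφ : IsCState M A φ) {W : H →L[ℂ] H} (hW : W ∈ M)
    (h0 : expE A φ W = 0) (hpos : 0 < ssInf A φ W) :
    ∃ S ∈ M, S ≠ 0 ∧ expE A φ S = 0 ∧ (∀ e ∈ A, star S * e * S ∈ A) ∧
      ((∀ e ∈ A, W * e * star W ∈ A) → ∀ e ∈ A, S * e * star S ∈ A) := by
  obtain ⟨S, h1, h2, h3, h4, h5, -⟩ := hφ.exists_intertwiner_lim hW h0 hpos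
  exact ⟨S, h1, h2, h3, h4, h5⟩

end IsCState

end Vale.Agent.P078.General.Single
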