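import Vale.Agent.P078.Single.Moments

/-!
# Random colourings of a fine partition and alternating words

The mean over colourings of a word alternating between a centred colour projection and gaps with
diffuse conjugates tends to zero.
-/

namespace Vale.Agent.P078.General.Single

open scoped InnerProductSpace Topology ComplexOrder
open Filter

universe u

variable {H : Type u} [NormedAddCommGroup H] [InnerProductSpace ℂ H] [CompleteSpace H]
variable {M A : VonNeumannAlgebra H} {φ : (H →L[ℂ] H) →ₗ[ℂ] ℂ}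

theorem av_mul_sum {α : Type*} [Fintype α] {β : Type*} (s : Finset β) (f : α → β → ℝ) :
    av (fun x => ∑ y ∈ s, f x y) = ∑ y ∈ s, av fun x => f x y := by
  simp only [av]
  rw [Finset.sum_comm, Finset.sum_div]

theorem av_mul_const {α : Type*} [Fintype α] (f : α → ℝ) (c : ℝ) :
    av (fun x => f x * c) = av f * c := by
  simp [av, ← Finset.sum_mul, div_mul_eq_mul_div]

theorem av_mono {α : Type*} [Fintype α] {f g : α → ℝ} (h : ∀ x, f x ≤ g x) : av f ≤ av g :=
  div_le_div_of_nonneg_right (Finset.sum_le_sum fun x _ => h x) (Nat.cast_nonneg _)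

/-- Uniform mean of complex numbers. -/
noncomputable def avC {α : Type*} [Fintype α] (f : α → ℂ) : ℂ :=
  (∑ x, f x) / (Fintype.card α)

theorem avC_sum {α : Type*} [Fintype α] {β : Type*} (s : Finset β) (f : α → β → ℂ) :
    avC (fun x => ∑ y ∈ s, f x y) = ∑ y ∈ s, avC fun x => f x y := by
  simp only [avC]
  rw [Finset.sum_comm, Finset.sum_div]

theorem avC_mul {α : Type*} [Fintype α] (f : α → ℂ) (c : ℂ) :
    avC (fun x => f x * c) = avC f * c := by
  simp [avC, ← Finset.sum_mul, div_mul_eq_mul_div]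

theorem avC_ofReal {α : Type*} [Fintype α] (f : α → ℝ) :
    avC (fun x => (f x : ℂ)) = (av f : ℂ) := by
  simp [avC, av]

theorem norm_avC_le {α : Type*} [Fintype α] (f : α → ℂ) : ‖avC f‖ ≤ av fun x => ‖f x‖ := by
  rw [avC, norm_div, Complex.norm_natCast, av]
  exact div_le_div_of_nonneg_right (norm_sum_le _ _) (Nat.cast_nonneg _)

theorem av_prod_type {α β : Type*} [Fintype α] [Fintype β] (f : α × β → ℝ) :
    av f = av fun x => av fun y => f (x, y) := by
  simp only [av, Fintype.sum_prod_type, Fintype.card_prod, ← Finset.sum_div, div_div]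
  push_cast
  rw [mul_comm (Fintype.card α : ℝ)]

namespace IsCState

theorem pattern_small (hφ : IsCState M A φ) {a b : ℕ} (π : Fin (a + (b + 1)) → Fin (a + (b + 1)))
    (hinj : Function.Injective (π ∘ Fin.castAdd (b + 1)))
    (hmeet : ∀ x : Fin a, ∃ y, bl π y = π (Fin.castAdd (b + 1) x)) (i : Fin a)
    (hi : π (Fin.castAdd (b + 1) i) = π (Fin.natAdd a 0)) {m : ℕ → H →L[ℂ] H}
    (hm : ∀ x, m x ∈ M) (hd : Diffuse A φ (m a)) {η : ℝ} (hη : 0 < η) :
    ∀ᶠ Q in refF A, ∀ [DecidablePred fun k : Fin (a + (b + 1)) → Fin Q.n => KP π k],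
      ‖∑ k : Fin (a + (b + 1)) → Fin Q.n, if KP π k then φ (word Q.p m k) else 0‖ ≤ η := by
  set Kc : ℝ := (((a + (b + 1) : ℕ) : ℝ)⁻¹) ^ (Finset.univ.image π).card with hKc
  have hK0 : 0 < Kc := by positivity
  set m' : ℕ → H →L[ℂ] H := fun x => if x = 0 then 1 else m (a + x) with hm'
  have hm'M : ∀ x, m' x ∈ M := fun x => by
    simp only [hm']
    split_ifs
    exacts [one_mem M, hm _]
  set B := (∏ x ∈ Finset.range (b + 1 + 1), ‖m' x‖) ^ 2 * (φ 1).re + 1 with hB
  have hφ1 : 0 ≤ (φ 1).re := by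
    have := hφ.sq_nonneg' (one_mem M)
    simpa [sq] using this
  have hB0 : 0 < B := by positivity
  set lam := η * Kc / B with hlam
  have hl : 0 < lam := by positivity
  filter_upwards [hφ.sum_sq_small a m hm hd i (lam * (η * Kc)) (by positivity)] with Q hQ
  intro _
  have hp : ∀ j, Q.p j ∈ M := fun j => hφ.masa.le _ (Q.isPart.mem j)
  let Ω := (Fin Q.n → Fin (a + (b + 1))) × (Fin (a + (b + 1)) → Fin Q.n → Bool) ×
    (Fin (b + 1) → Fin Q.n → Bool)
  haveI : Nonempty (Fin (a + (b + 1))) := ⟨⟨0, by omega⟩⟩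
  set X := fun t : Fin a → Fin Q.n => word Q.p m t * Q.p (t i) with hX
  set Y := fun s : Fin (b + 1) → Fin Q.n => word Q.p m' s with hY
  set cl := fun (w : Ω) (t : Fin a → Fin Q.n) => (lc π w.1 w.2.1 t : ℂ) with hcl
  set cu := fun (w : Ω) (s : Fin (b + 1) → Fin Q.n) =>
    ∏ y, (uc π w.1 w.2.1 w.2.2 y (s y) : ℂ) with hcu
  have hXM : ∀ t, X t ∈ M := fun t => mul_mem (word_mem M hp m hm t) (hp _)
  have hsplit : ∀ k : Fin (a + (b + 1)) → Fin Q.n, KP π k → φ (word Q.p m k) =
      φ (X (fun x => k (Fin.castAdd (b + 1) x)) * Y (fun y => k (Fin.natAdd a y))) := by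
    intro k hk
    have e1 : k (Fin.castAdd (b + 1) i) = k (Fin.natAdd a 0) := (hk _ _).1 hi
    congr 1
    rw [word_split, hX, hY]
    simp only
    rw [word_succ Q.p m']
    simp only [e1, hm', if_pos, one_mul, Nat.succ_ne_zero, if_false]
    simp only [mul_assoc]
    rw [← mul_assoc (Q.p (k (Fin.natAdd a 0))) (Q.p (k (Fin.natAdd a 0))),
      (Q.isPart.proj _).isIdempotentElem.eq]
    rfl
  have havg : (Kc : ℂ) * ∑ k : Fin (a + (b + 1)) → Fin Q.n,
      (if KP π k then φ (word Q.p m k) else 0) =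
      avC fun w : Ω => φ ((∑ t, cl w t • X t) * ∑ s, cu w s • Y s) := by
    simp only [Finset.sum_mul (Finset.univ : Finset (Fin a → Fin Q.n))]
    simp only [Finset.mul_sum, map_sum, smul_mul_smul_comm, map_smul, smul_eq_mul]
    rw [avC_sum, ← (Fin.appendEquiv a (b + 1)).sum_comp, Fintype.sum_prod_type]
    refine Finset.sum_congr rfl fun t _ => ?_
    rw [avC_sum]
    refine Finset.sum_congr rfl fun s _ => ?_
    rw [avC_mul]
    set k := Fin.appendEquiv a (b + 1) (t, s) with hkdef
    have ht : (fun x => k (Fin.castAdd (b + 1) x)) = t := funext fun x => by simp [hkdef]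
    have hs : (fun y => k (Fin.natAdd a y)) = s := funext fun y => by simp [hkdef]
    have e : avC (fun w : Ω => cl w t * cu w s) = ((if KP π k then Kc else 0 : ℝ) : ℂ) := by
      have e0 : ∀ w : Ω, cl w t * cu w s = ((lc π w.1 w.2.1 (fun x => k (Fin.castAdd (b + 1) x)) *
          ∏ y, uc π w.1 w.2.1 w.2.2 y (k (Fin.natAdd a y)) : ℝ) : ℂ) := fun w => by
        simp [hcl, hcu, hkdef]
      simp only [e0]
      rw [avC_ofReal, av_prod_type]
      simp only [av_prod_type (α := Fin (a + (b + 1)) → Fin Q.n → Bool)]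
      rw [hKc]
      exact congrArg _ (av_lc_uc (by omega) π hinj hmeet k)
    rw [e]
    split_ifs with hk
    · rw [hsplit k hk, ht, hs]
    · simp
  have hR : ∀ w : Ω, ‖∑ s, cu w s • Y s‖ ^ 2 * (φ 1).re ≤ B ∧ (∑ s, cu w s • Y s) ∈ M := by
    intro w
    let c : ℕ → Fin Q.n → ℂ := fun x j =>
      if h : x < b + 1 then (uc π w.1 w.2.1 w.2.2 ⟨x, h⟩ j : ℂ) else 0
    have e : (∑ s, cu w s • Y s) = pw (b + 1) (fun x => ∑ j, c x j • Q.p j) m' := by
      rw [← sum_word]
      refine Finset.sum_congr rfl fun s _ => ?_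
      congr 1
      refine Finset.prod_congr rfl fun y _ => ?_
      simp only [c, dif_pos y.2, Fin.eta]
    refine ⟨?_, e ▸ pw_mem M _ _ _ (fun x => sum_mem fun j _ => smul_mem' M (hp j) _) hm'M⟩
    rw [e, hB]
    have hn := norm_pw_le (b + 1) (fun x => ∑ j, c x j • Q.p j) m' fun x =>
      norm_sum_coef_le Q.isPart fun j => by
        simp only [c]
        split_ifs
        · rw [Complex.norm_real]; exact abs_uc_le _ _ _ _ _ _
        · simp
    nlinarith [mul_le_mul_of_nonneg_right (pow_le_pow_left₀ (norm_nonneg _) hn 2) hφ1]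
  have hbound : ∀ w : Ω, ‖φ ((∑ t, cl w t • X t) * ∑ s, cu w s • Y s)‖ ≤
      (sq φ (star (∑ t, cl w t • X t)) / lam + lam * B) / 2 := by
    intro w
    have hLM : (∑ t, cl w t • X t) ∈ M := sum_mem fun t _ => smul_mem' M (hXM t) _
    have h := hφ.norm_le_sqrt (star_mem hLM) (hR w).2
    rw [star_star] at h
    have h2 : sq φ (∑ s, cu w s • Y s) ≤ B := (hφ.map_sq_le (hR w).2).trans (hR w).1
    refine h.trans ?_
    have hu0 := hφ.sq_nonneg' (star_mem hLM)
    have hv0 := hφ.sq_nonneg' (hR w).2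
    have h3 := Real.sq_sqrt hu0
    have h4 := Real.sq_sqrt hv0
    set U := √(sq φ (star (∑ t, cl w t • X t)))
    set V := √(sq φ (∑ s, cu w s • Y s))
    rw [le_div_iff₀ two_pos, ← h3, div_add' _ _ _ hl.ne', le_div_iff₀ hl]
    nlinarith [sq_nonneg (U - lam * V), mul_le_mul_of_nonneg_left h2 (sq_nonneg lam)]
  have hL : av (fun w : Ω => sq φ (star (∑ t, cl w t • X t))) ≤
      ∑ t, sq φ (star (X t)) := by
    have e : ∀ w : Ω, sq φ (star (∑ t, cl w t • X t)) = ∑ t, ∑ t',
        lc π w.1 w.2.1 t * lc π w.1 w.2.1 t' * (φ (X t * star (X t'))).re := fun w => by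
      simp [sq, star_sum, star_smul, hcl, Finset.sum_mul, Finset.mul_sum, map_sum, Complex.re_sum,
        ← Complex.ofReal_mul]
      rw [Finset.sum_comm]
      exact Finset.sum_congr rfl fun _ _ => Finset.sum_congr rfl fun _ _ => by ring
    simp only [e, av_mul_sum, av_mul_const]
    refine Finset.sum_le_sum fun t _ => ?_
    have e2 : ∀ t' : Fin a → Fin Q.n, ∃ c : ℝ, 0 ≤ c ∧ c ≤ 1 ∧
        av (fun w : Ω => lc π w.1 w.2.1 t * lc π w.1 w.2.1 t') = if t = t' then c else 0 := by
      intro t'
      obtain ⟨c, h0, h1, h⟩ := av_lc_lc π hinj t t'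
      refine ⟨c, h0, h1, ?_⟩
      rw [av_prod_type]
      simp only [av_prod_type (α := Fin (a + (b + 1)) → Fin Q.n → Bool), av_const]
      exact h
    obtain ⟨c, h0, h1, hc⟩ := e2 t
    rw [Finset.sum_eq_single t (fun t' _ hne => by
      obtain ⟨c', -, -, hc'⟩ := e2 t'
      rw [hc', if_neg hne.symm, zero_mul]) (fun h => absurd (Finset.mem_univ t) h), hc, if_pos rfl]
    refine le_of_le_of_eq (mul_le_of_le_one_left ?_ h1) ?_
    · have := hφ.sq_nonneg' (star_mem (hXM t))
      simpa [sq] using this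
    · simp [sq]
  have hXeq : ∑ t, sq φ (star (X t)) ≤ lam * (η * Kc) := by
    refine le_of_eq_of_le (Finset.sum_congr rfl fun t _ => ?_) hQ
    rw [hX, star_mul, (Q.isPart.proj _).isSelfAdjoint.star_eq]
  have h := (norm_avC_le _).trans (av_mono hbound)
  rw [← havg, norm_mul, Complex.norm_real, Real.norm_of_nonneg hK0.le] at h
  have hav : av (fun w : Ω => (sq φ (star (∑ t, cl w t • X t)) / lam + lam * B) / 2) =
      (av (fun w : Ω => sq φ (star (∑ t, cl w t • X t))) / lam + lam * B) / 2 := by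
    simp only [av, ← Finset.sum_div, Finset.sum_add_distrib, Finset.sum_const, Finset.card_univ,
      nsmul_eq_mul]
    have : (Fintype.card Ω : ℝ) ≠ 0 := Nat.cast_ne_zero.2 Fintype.card_ne_zero
    field_simp
  rw [hav] at h
  have e1 : lam * B = η * Kc := by rw [hlam]; field_simp
  have e2 : av (fun w : Ω => sq φ (star (∑ t, cl w t • X t))) / lam ≤ η * Kc := by
    rw [div_le_iff₀ hl]; linarith [hL.trans hXeq]
  refine le_of_mul_le_mul_left ?_ hK0
  linarith

end IsCState

/-- Centred indicator of the first colour. -/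
noncomputable def qc {r : ℕ} (i : Fin r) : ℝ := (if i.val = 0 then 1 else 0) - (r : ℝ)⁻¹

open Classical in
/-- The first position with the same value. -/
noncomputable def canon {l : ℕ} {α : Type*} (k : Fin l → α) (x : Fin l) : Fin l :=
  (Finset.univ.filter fun y => k y = k x).min' ⟨x, by simp⟩

theorem canon_spec {l : ℕ} {α : Type*} (k : Fin l → α) (x : Fin l) :
    k (canon k x) = k x ∧ canon k x ≤ x := by
  classical
  have h := Finset.min'_mem (Finset.univ.filter fun y => k y = k x) ⟨x, by simp⟩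
  exact ⟨(Finset.mem_filter.1 h).2, Finset.min'_le _ x (by simp)⟩

theorem canon_congr {l : ℕ} {α : Type*} (k : Fin l → α) {x y : Fin l} (h : k x = k y) :
    canon k x = canon k y := by
  simp only [canon]
  congr 1
  ext z
  simp [h]

theorem kp_canon {l : ℕ} {α : Type*} (k : Fin l → α) : KP (canon k) k := fun x y =>
  ⟨fun h => (canon_spec k x).1.symm.trans ((congrArg k h).trans (canon_spec k y).1),
    canon_congr k⟩

theorem canon_eq_canon {l : ℕ} {α β : Type*} {k : Fin l → α} {k' : Fin l → β}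
    (h : ∀ y x, k y = k x ↔ k' y = k' x) : canon k = canon k' := by
  funext x
  simp only [canon]
  congr 1
  ext y
  simp [h]

theorem canon_eq_of_kp {l : ℕ} {α : Type*} {π : Fin l → Fin l} {k : Fin l → α}
    (hπ : canon π = π) (h : KP π k) : canon k = π :=
  (canon_eq_canon fun y x => (h y x).symm).trans hπ

theorem canon_canon {l : ℕ} {α : Type*} (k : Fin l → α) : canon (canon k) = canon k :=
  canon_eq_canon fun y x => kp_canon k y x

theorem av_comp_injective {α β γ : Type*} [Fintype α] [Fintype β] [Fintype γ] [DecidableEq α]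
    [DecidableEq β] [Nonempty γ] {j : α → β} (hj : Function.Injective j) (F : (α → γ) → ℝ) :
    av (fun g : β → γ => F (g ∘ j)) = av F := by
  classical
  have hF : ∀ g : β → γ, F (g ∘ j) =
      ∑ d : α → γ, F d * ∏ x, if g (j x) = d x then (1 : ℝ) else 0 := fun g => by
    have : ∀ d : α → γ, (∏ x, if g (j x) = d x then (1 : ℝ) else 0) =
        if d = g ∘ j then 1 else 0 := fun d => by
      split_ifs with h
      · exact Finset.prod_eq_one fun x _ => if_pos (congrFun h x).symm
      · obtain ⟨x, hx⟩ := Function.ne_iff.1 h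
        exact Finset.prod_eq_zero (Finset.mem_univ x) (if_neg fun e => hx e.symm)
    simp [this]
  simp only [hF]
  rw [av_mul_sum]
  have h1 : ∀ d : α → γ, av (fun g : β → γ => F d * ∏ x, if g (j x) = d x then (1 : ℝ) else 0) =
      F d * ((Fintype.card γ : ℝ)⁻¹) ^ Fintype.card α := by
    intro d
    simp only [mul_comm (F d)]
    rw [av_mul_const]
    congr 1
    have e : ∀ g : β → γ, (∏ x, if g (j x) = d x then (1 : ℝ) else 0) =
        ∏ c, if c ∈ Finset.univ.image j then
          (if g c = Function.extend j d (fun _ => Classical.arbitrary γ) c then (1 : ℝ) else 0)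
          else 1 := fun g => by
      rw [Finset.prod_ite_mem, Finset.univ_inter, Finset.prod_image fun x _ y _ h => hj h]
      exact Finset.prod_congr rfl fun x _ => by rw [hj.extend_apply]
    simp only [e]
    refine (av_prod fun c v => if c ∈ Finset.univ.image j then
        (if v = Function.extend j d (fun _ => Classical.arbitrary γ) c then (1 : ℝ) else 0)
        else 1).trans ?_
    have e2 : ∀ c : β, av (fun v : γ => if c ∈ Finset.univ.image j then
        (if v = Function.extend j d (fun _ => Classical.arbitrary γ) c then (1 : ℝ) else 0)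
        else 1) = if c ∈ Finset.univ.image j then (Fintype.card γ : ℝ)⁻¹ else 1 := fun c => by
      split_ifs
      · simp [av]
      · exact av_const 1
    simp only [e2, Finset.prod_ite_mem, Finset.univ_inter, Finset.prod_const,
      Finset.card_image_of_injective _ hj, Finset.card_univ]
  rw [Finset.sum_congr rfl fun d _ => h1 d, ← Finset.sum_mul]
  simp [av, Fintype.card_fun, div_eq_mul_inv, inv_pow]

/-- The mean of a product of centred colour indicators. -/
noncomputable def colourMean (r : ℕ) {l : ℕ} {α : Type*} [Fintype α] [DecidableEq α]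
    (k : Fin l → α) : ℝ :=
  av fun c : α → Fin r => ∏ x, qc (c (k x))

theorem colourMean_canon {r l : ℕ} (hr : 0 < r) {α : Type*} [Fintype α] [DecidableEq α]
    (k : Fin l → α) : colourMean r k = colourMean r (canon k) := by
  haveI : Nonempty (Fin r) := ⟨⟨0, hr⟩⟩
  let κ : Fin l → {y // y ∈ Finset.univ.image (canon k)} :=
    fun x => ⟨canon k x, Finset.mem_image.2 ⟨x, Finset.mem_univ x, rfl⟩⟩
  have hk : ∀ (y : {y // y ∈ Finset.univ.image (canon k)}), canon k y.1 = y.1 := fun y => by
    obtain ⟨x, -, hx⟩ := Finset.mem_image.1 y.2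
    rw [← hx, canon_congr k (canon_spec k x).1]
  have hj : Function.Injective fun y : {y // y ∈ Finset.univ.image (canon k)} => k y.1 :=
    fun y y' h => Subtype.ext (by rw [← hk y, ← hk y', canon_congr k h])
  have h1 := av_comp_injective (γ := Fin r) hj fun d => ∏ x, qc (d (κ x))
  have h2 := av_comp_injective (γ := Fin r)
    (Subtype.val_injective (p := fun y => y ∈ Finset.univ.image (canon k)))
    fun d => ∏ x, qc (d (κ x))
  simp only [Function.comp_apply, κ, (canon_spec k _).1] at h1 h2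
  exact h1.trans h2.symm

theorem colourMean_single {r l : ℕ} (hr : 0 < r) (π : Fin l → Fin l) {x : Fin l}
    (h : ∀ y, π y = π x → y = x) : colourMean r π = 0 := by
  classical
  have e : ∀ d : Fin l → Fin r, (∏ y, qc (d (π y))) =
      ∏ β, ∏ _y ∈ Finset.univ.filter (fun y => π y = β), qc (d β) := fun d => by
    rw [← Finset.prod_fiberwise Finset.univ π]
    exact Finset.prod_congr rfl fun β _ => Finset.prod_congr rfl fun y hy => by
      rw [(Finset.mem_filter.1 hy).2]
  rw [colourMean]
  simp only [e]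
  refine (av_prod fun (β : Fin l) (i : Fin r) =>
    ∏ _y ∈ Finset.univ.filter (fun y => π y = β), qc i).trans ?_
  refine Finset.prod_eq_zero (Finset.mem_univ (π x)) ?_
  have e1 : Finset.univ.filter (fun y => π y = π x) = {x} := by
    ext y
    simpa using ⟨h y, fun e => by rw [e]⟩
  simp only [e1, Finset.prod_singleton, av, qc, Finset.sum_sub_distrib]
  haveI : NeZero r := ⟨hr.ne'⟩
  have e2 : ∑ i : Fin r, (if i.val = 0 then (1 : ℝ) else 0) = 1 := by
    rw [Finset.sum_eq_single (0 : Fin r)]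
    · simp
    · intro i _ hi
      rw [if_neg fun e => hi (Fin.ext (by simpa using e))]
    · simp
  simp [e2]

/-- The centred colour projection. -/
noncomputable def qOp {r : ℕ} (Q : Part A (1 : H →L[ℂ] H)) (c : Fin Q.n → Fin r) : H →L[ℂ] H :=
  ∑ j, (qc (c j) : ℂ) • Q.p j

/-- Alternating words have small means. -/
theorem IsCState.word_small (hφ : IsCState M A φ) {r l : ℕ} (hr : 0 < r) (hl : 0 < l)
    {m : ℕ → H →L[ℂ] H} (hm : ∀ x, m x ∈ M) (hd : ∀ x, 0 < x → x < l → Diffuse A φ (m x))
    {η : ℝ} (hη : 0 < η) :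
    ∀ᶠ Q in refF A, ‖avC fun c : Fin Q.n → Fin r => φ (pw l (fun _ => qOp Q c) m)‖ ≤ η := by
  classical
  set η' := η / ((Fintype.card (Fin l → Fin l) : ℝ) + 1) with hη'
  have hη'0 : 0 < η' := by positivity
  have hpat : ∀ π : Fin l → Fin l, ∀ᶠ Q in refF A, canon π = π →
      ‖(colourMean r π : ℂ) * ∑ k : Fin l → Fin Q.n, if KP π k then φ (word Q.p m k) else 0‖
        ≤ η' := by
    intro π
    by_cases hπ : canon π = π
    swap
    · exact Eventually.of_forall fun Q h => absurd h hπ
    by_cases hs : ∃ x, ∀ y, π y = π x → y = x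
    · obtain ⟨x, hx⟩ := hs
      exact Eventually.of_forall fun Q _ => by
        simp [colourMean_single hr π hx, hη'0.le]
    push Not at hs
    have hne : ∃ n, ∃ h : n < l, π ⟨n, h⟩ ≠ ⟨n, h⟩ := by
      obtain ⟨y, hy, hy'⟩ := hs ⟨0, hl⟩
      by_contra hcon
      push Not at hcon
      exact hy' ((hcon y.1 y.2).symm.trans (hy.trans (hcon 0 hl)))
    obtain ⟨a, ⟨hal, hπa⟩, hbef⟩ : ∃ a, (∃ h : a < l, π ⟨a, h⟩ ≠ ⟨a, h⟩) ∧
        ∀ n (h : n < l), n < a → π ⟨n, h⟩ = ⟨n, h⟩ :=
      ⟨Nat.find hne, Nat.find_spec hne, fun n h hn => by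
        by_contra hne'
        exact Nat.find_min hne hn ⟨h, hne'⟩⟩
    have hle : π ⟨a, hal⟩ < ⟨a, hal⟩ :=
      lt_of_le_of_ne (le_of_eq_of_le (congrFun hπ _).symm (canon_spec π _).2) hπa
    obtain ⟨b, rfl⟩ : ∃ b, l = a + (b + 1) := ⟨l - a - 1, by omega⟩
    have hfix : ∀ x : Fin a, π (Fin.castAdd (b + 1) x) = Fin.castAdd (b + 1) x :=
      fun x => hbef x.1 _ x.2
    have hinj : Function.Injective (π ∘ Fin.castAdd (b + 1)) := fun x x' h => by
      simp only [Function.comp_apply, hfix] at h
      exact Fin.castAdd_injective _ _ h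
    have hmeet : ∀ x : Fin a, ∃ y, bl π y = π (Fin.castAdd (b + 1) x) := by
      intro x
      obtain ⟨y, hy, hy'⟩ := hs (Fin.castAdd (b + 1) x)
      revert hy hy'
      refine Fin.addCases (fun x' => ?_) (fun y' => ?_) y
      · intro hy hy'
        exact absurd (congrArg (Fin.castAdd (b + 1)) (hinj hy)) hy'
      · exact fun hy _ => ⟨y', hy⟩
    have hia : (π ⟨a, hal⟩).val < a := hle
    have hi : π (Fin.castAdd (b + 1) (⟨(π ⟨a, hal⟩).val, hia⟩ : Fin a)) =
        π (Fin.natAdd a 0) := by
      rw [hfix]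
      exact Fin.ext (by simp; rfl)
    have ha0 : 0 < a := lt_of_le_of_lt (Nat.zero_le _) hia
    refine (hφ.pattern_small π hinj hmeet _ hi hm (hd a ha0 (by omega))
      (div_pos hη'0 (by positivity : (0 : ℝ) < |colourMean r π| + 1))).mono fun Q hQ _ => ?_
    have h1 := hQ
    rw [le_div_iff₀ (by positivity)] at h1
    rw [norm_mul, Complex.norm_real, Real.norm_eq_abs]
    nlinarith [norm_nonneg (∑ k : Fin (a + (b + 1)) → Fin Q.n,
      if KP π k then φ (word Q.p m k) else 0)]
  filter_upwards [eventually_all.2 hpat] with Q hQ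
  have e : (avC fun c : Fin Q.n → Fin r => φ (pw l (fun _ => qOp Q c) m)) =
      ∑ π ∈ Finset.univ.filter (fun π : Fin l → Fin l => canon π = π),
        (colourMean r π : ℂ) * ∑ k : Fin l → Fin Q.n,
          if KP π k then φ (word Q.p m k) else 0 := by
    simp only [qOp, ← sum_word Q.p l (fun _ j => (qc (_ : Fin r) : ℂ)), map_sum, map_smul,
      smul_eq_mul]
    rw [avC_sum]
    simp only [avC_mul, ← Complex.ofReal_prod, avC_ofReal]
    rw [← Finset.sum_fiberwise_of_maps_to (g := canon)
      (t := Finset.univ.filter fun π : Fin l → Fin l => canon π = π)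
      (fun k _ => Finset.mem_filter.2 ⟨Finset.mem_univ (canon k), canon_canon k⟩)]
    refine Finset.sum_congr rfl fun π hπ => ?_
    rw [Finset.mul_sum, Finset.sum_filter]
    refine Finset.sum_congr rfl fun k _ => ?_
    have hiff : canon k = π ↔ KP π k :=
      ⟨fun h => h ▸ kp_canon k, canon_eq_of_kp (Finset.mem_filter.1 hπ).2⟩
    by_cases hk : KP π k
    · rw [if_pos hk, if_pos (hiff.2 hk), ← hiff.2 hk, ← colourMean_canon hr k]
      rfl
    · rw [if_neg hk, if_neg (hiff.not.2 hk), mul_zero]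
  rw [e]
  refine (norm_sum_le _ _).trans ((Finset.sum_le_sum fun π hπ =>
    hQ π (Finset.mem_filter.1 hπ).2).trans ?_)
  rw [Finset.sum_const, nsmul_eq_mul, hη', mul_div_assoc', div_le_iff₀ (by positivity)]
  have : ((Finset.univ.filter (fun π : Fin l → Fin l => canon π = π)).card : ℝ) ≤
      Fintype.card (Fin l → Fin l) := by exact_mod_cast Finset.card_le_univ _
  nlinarith

end Vale.Agent.P078.General.Single
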