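import Vale.Agent.P078.General.Defs

/-!
# Singular MASAs
-/

namespace Vale.Agent.P078.General.Single

universe u

variable {H : Type u} [NormedAddCommGroup H] [InnerProductSpace ℂ H] [CompleteSpace H]

/-- `A` is a MASA of `M` whose unitary normalisers in `M` lie in `A`. -/
def IsSingularMasa (M A : VonNeumannAlgebra H) : Prop :=
  IsMasa M A ∧ ∀ u ∈ M, star u * u = 1 → u * star u = 1 →
    (∀ a ∈ A, u * a * star u ∈ A) → (∀ a ∈ A, star u * a * u ∈ A) → u ∈ A

end Vale.Agent.P078.General.Single
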