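import Vale.Agent.P078.Single.Atom
import Vale.Agent.P078.Single.Defs

/-!
# In a singular MASA every element with zero expectation has diffuse conjugates
-/

namespace Vale.Agent.P078.General.Single

open scoped InnerProductSpace Topology ComplexOrder
open Filter

universe u

variable {H : Type u} [NormedAddCommGroup H] [InnerProductSpace ℂ H] [CompleteSpace H]
variable {M A : VonNeumannAlgebra H} {φ : (H →L[ℂ] H) →ₗ[ℂ] ℂ}

/-- No partial isometry of a singular MASA moves a projection to an orthogonal one. -/
theorem IsSingularMasa.no_move (hA : IsSingularMasa M A) {v e' : H →L[ℂ] H} (hv : v ∈ M)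
    (hvA : ∀ a ∈ A, v * a * star v ∈ A) (hvA' : ∀ a ∈ A, star v * a * v ∈ A)
    (he : e' ∈ A) (hep : IsStarProjection e') (hee : star v * v * e' = e')
    (horth : e' * (v * e' * star v) = 0) : e' = 0 := by
  have hes := hep.isSelfAdjoint.star_eq
  have hei := hep.isIdempotentElem.eq
  set w := v * e' with hw
  set g := v * e' * star v with hg
  have hgA : g ∈ A := hvA e' he
  have hgs : star g = g := by rw [hg, star_mul, star_mul, star_star, hes, mul_assoc]
  have hcm := fun {x y : H →L[ℂ] H} (hx : x ∈ A) (hy : y ∈ A) => (hA.1.comm x hx y hy).eq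
  have hge : g * e' = 0 := by rw [hcm hgA he, horth]
  have hws : star w = e' * star v := by rw [hw, star_mul, hes]
  have h1 : star w * w = e' := by
    calc star w * w = e' * (star v * v * e') := by
          rw [hws, hw]; simp only [mul_assoc]
      _ = e' := by rw [hee, hei]
  have h2 : w * star w = g := by
    rw [hws, hw, hg, mul_assoc v e' (e' * star v), ← mul_assoc e' e', hei, ← mul_assoc]
  have hwe : w * e' = w := by rw [hw, mul_assoc, hei]
  have hgw : g * w = w := by rw [← h2, mul_assoc, h1, hwe]
  have hew : e' * w = 0 := by rw [← hgw, ← mul_assoc, horth, zero_mul]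
  have hwg : w * g = 0 := by rw [← hwe, mul_assoc, horth, mul_zero]
  have hww : w * w = 0 := by
    conv_lhs => arg 2; rw [← hgw]
    rw [← mul_assoc, hwg, zero_mul]
  have hsww : star w * star w = 0 := by rw [← star_mul, hww, star_zero]
  have hew' : star w * e' = 0 := by rw [← hes, ← star_mul, hew, star_zero]
  have hwe' : e' * star w = star w := by rw [← hes, ← star_mul, hwe]
  have hgw' : g * star w = 0 := by rw [← hgs, ← star_mul, hwg, star_zero]
  have hwg' : star w * g = star w := by rw [← hgs, ← star_mul, hgw]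
  set c := 1 - e' - g with hc
  have hcA : c ∈ A := sub_mem (sub_mem (one_mem A) he) hgA
  have hcs : star c = c := by rw [hc, star_sub, star_sub, star_one, hes, hgs]
  have hwc : w * c = 0 := by rw [hc, mul_sub, mul_sub, mul_one, hwe, hwg]; simp
  have hcw : c * w = 0 := by rw [hc, sub_mul, sub_mul, one_mul, hew, hgw]; simp
  have hwc' : c * star w = 0 := by rw [← hcs, ← star_mul, hwc, star_zero]
  have hcw' : star w * c = 0 := by rw [← hcs, ← star_mul, hcw, star_zero]
  have hgi : g * g = g := by
    conv_lhs => arg 2; rw [← h2]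
    rw [← mul_assoc, hgw, h2]
  have hcc : c * c = c := by
    simp only [hc, sub_mul, mul_sub, one_mul, mul_one, hei, horth, hge, hgi]
    abel
  set u := w + star w + c with hu
  have huM : u ∈ M :=
    add_mem (add_mem (mul_mem hv (hA.1.le _ he)) (star_mem (mul_mem hv (hA.1.le _ he))))
      (hA.1.le _ hcA)
  have hus : star u = u := by rw [hu, star_add, star_add, star_star, hcs, add_comm (star w)]
  have huu : u * u = 1 := by
    simp only [hu, add_mul, mul_add, hww, hsww, h1, h2, hwc, hcw, hwc', hcw', hcc]
    rw [hc]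
    abel
  have hnorm : ∀ a ∈ A, u * a * u ∈ A := by
    intro a ha
    have z1 : w * a * w = 0 := by
      calc w * a * w = w * e' * a * w := by rw [hwe]
        _ = w * a * (e' * w) := by rw [mul_assoc w e', hcm he ha]; simp only [mul_assoc]
        _ = 0 := by rw [hew, mul_zero]
    have z2 : star w * a * star w = 0 := by
      calc star w * a * star w = star w * g * a * star w := by rw [hwg']
        _ = star w * a * (g * star w) := by rw [mul_assoc (star w) g, hcm hgA ha]; simp only [mul_assoc]
        _ = 0 := by rw [hgw', mul_zero]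
    have z3 : w * a * c = 0 := by
      calc w * a * c = w * (c * a) := by rw [mul_assoc, hcm ha hcA]
        _ = 0 := by rw [← mul_assoc, hwc, zero_mul]
    have z4 : c * a * w = 0 := by rw [hcm hcA ha, mul_assoc, hcw, mul_zero]
    have z5 : star w * a * c = 0 := by
      calc star w * a * c = star w * (c * a) := by rw [mul_assoc, hcm ha hcA]
        _ = 0 := by rw [← mul_assoc, hcw', zero_mul]
    have z6 : c * a * star w = 0 := by rw [hcm hcA ha, mul_assoc, hwc', mul_zero]
    have a1 : w * a * star w ∈ A := by
      rw [hws, hw, show v * e' * a * (e' * star v) = v * (e' * a * e') * star v by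
        simp only [mul_assoc]]
      exact hvA _ (mul_mem (mul_mem he ha) he)
    have a2 : star w * a * w ∈ A := by
      rw [hws, hw, show e' * star v * a * (v * e') = e' * (star v * a * v) * e' by
        simp only [mul_assoc]]
      exact mul_mem (mul_mem he (hvA' a ha)) he
    have e : u * a * u = w * a * star w + star w * a * w + c * a * c := by
      simp only [hu, add_mul, mul_add, z1, z2, z3, z4, z5, z6]
      abel
    rw [e]
    exact add_mem (add_mem a1 a2) (mul_mem (mul_mem hcA ha) hcA)
  have huA : u ∈ A := hA.2 u huM (by rw [hus, huu]) (by rw [hus, huu]) (by rw [hus]; exact hnorm)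
    (by rw [hus]; exact hnorm)
  have hw0 : w = 0 := by
    have e1 : g * u * e' = w := by
      simp only [hu, mul_add, add_mul, hgw, hgw', hwe, mul_assoc g c e']
      rw [hcm hcA he, ← mul_assoc, hge]
      simp
    rw [← e1, hcm hgA huA, mul_assoc, hge, mul_zero]
  rw [← h1, hw0, mul_zero]

/-- A partial isometry normalising a singular MASA lies in it. -/
theorem IsSingularMasa.mem_of_partial (hA : IsSingularMasa M A) {v : H →L[ℂ] H} (hv : v ∈ M)
    (hvA : ∀ a ∈ A, v * a * star v ∈ A) (hvA' : ∀ a ∈ A, star v * a * v ∈ A)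
    (hpi : v * (star v * v) = v) : v ∈ A := by
  have hcm := fun {x y : H →L[ℂ] H} (hx : x ∈ A) (hy : y ∈ A) => (hA.1.comm x hx y hy).eq
  set e := star v * v with he
  set f := v * star v with hf
  have heA : e ∈ A := by simpa [he] using hvA' 1 (one_mem A)
  have hfA : f ∈ A := by simpa [hf] using hvA 1 (one_mem A)
  have hes : star e = e := (IsSelfAdjoint.star_mul_self v).star_eq
  have hev : e * star v = star v := by
    conv_rhs => rw [← hpi, star_mul, hes]
  have hfv : f * v = v := by rw [hf, mul_assoc]; exact hpi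
  have hvf : star v * f = star v := by rw [hf, ← mul_assoc]; exact hev
  have hmul : ∀ a ∈ A, ∀ b ∈ A, v * a * star v * (v * b * star v) = v * (a * b) * star v := by
    intro a ha b hb
    calc v * a * star v * (v * b * star v) = v * (a * e) * b * star v := by
          simp only [he, mul_assoc]
      _ = v * (e * a) * b * star v := by rw [hcm ha heA]
      _ = (v * e) * (a * b) * star v := by simp only [mul_assoc]
      _ = _ := by rw [hpi]
  have hvs : ∀ a, IsSelfAdjoint a → star (v * a * star v) = v * a * star v := fun a ha => by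
    rw [star_mul, star_mul, star_star, ha.star_eq, mul_assoc]
  have hfix : ∀ a ∈ A, IsStarProjection a → a * e = a → v * a * star v = a := by
    intro a ha hap hae
    set ψ := v * a * star v with hψ
    have hψA : ψ ∈ A := hvA a ha
    have hψi : ψ * ψ = ψ := by rw [hψ, hmul a ha a ha, hap.isIdempotentElem.eq]
    have hψp : IsStarProjection ψ := ⟨hψi, hvs a hap.isSelfAdjoint⟩
    have hea : e * a = a := by rw [hcm heA ha, hae]
    -- first the part of `a` off its image
    have h1 : a * (1 - ψ) = 0 := by
      have hx : a * (1 - ψ) ∈ A := mul_mem ha (sub_mem (one_mem A) hψA)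
      have hxp : IsStarProjection (a * (1 - ψ)) :=
        hap.mul hψp.one_sub (hA.1.comm _ ha _ (sub_mem (one_mem A) hψA))
      refine hA.no_move hv hvA hvA' hx hxp (by rw [← mul_assoc, hea]) ?_
      have e1 : v * (a * (1 - ψ)) * star v = ψ * (v * (a * (1 - ψ)) * star v) := by
        rw [hψ, hmul a ha _ (mul_mem ha (sub_mem (one_mem A) (hvA a ha))), ← mul_assoc a a,
          hap.isIdempotentElem.eq]
      rw [e1, ← mul_assoc, mul_assoc a (1 - ψ) ψ, sub_mul, one_mul, hψi, sub_self, mul_zero,
        zero_mul]
    have haψ : a * ψ = a := by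
      rw [mul_sub, mul_one, sub_eq_zero] at h1
      exact h1.symm
    -- then the part of the image off `a`
    set x := ψ - a with hx
    have hxA : x ∈ A := sub_mem hψA ha
    have hψa : ψ * a = a := by rw [hcm hψA ha, haψ]
    have hxp : IsStarProjection x := hap.sub_of_mul_eq_left hψp haψ
    have hψf : f * ψ = ψ := by rw [hψ, ← mul_assoc, ← mul_assoc, hfv]
    have hfx : f * x = x := by
      rw [hx, mul_sub, hψf]
      congr 1
      rw [← hψa, ← mul_assoc, hψf]
    have hax : a * x = 0 := by rw [hx, mul_sub, haψ, hap.isIdempotentElem.eq, sub_self]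
    set p := star v * x * v with hp
    have hpA : p ∈ A := hvA' x hxA
    have hpψ : v * p * star v = x := by
      calc v * p * star v = f * x * f := by simp only [hp, hf, mul_assoc]
        _ = x * f := by rw [hfx]
        _ = x := by rw [hcm hxA hfA, hfx]
    have hpp : IsStarProjection p := by
      refine ⟨?_, ?_⟩
      · show p * p = p
        calc p * p = star v * (x * f * x) * v := by simp only [hp, hf, mul_assoc]
          _ = p := by rw [mul_assoc x, hfx, hxp.isIdempotentElem.eq]
      · show star p = p
        rw [hp, star_mul, star_mul, star_star, hxp.isSelfAdjoint.star_eq, mul_assoc]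
    have hpa : p * a = p := by
      calc p * a = star v * x * (v * a) := by simp only [hp, mul_assoc]
        _ = star v * x * (v * a * e) := by rw [mul_assoc v a e, hae]
        _ = star v * (x * ψ) * v := by simp only [hψ, he, mul_assoc]
        _ = star v * x * v := by rw [hx, sub_mul, hψi, haψ]
    have hp0 : p = 0 := by
      refine hA.no_move hv hvA hvA' hpA hpp ?_ ?_
      · show e * p = p
        rw [hp, ← mul_assoc, ← mul_assoc, hev]
      · rw [hpψ, ← hpa, mul_assoc, hax, mul_zero]
    have hx0 : x = 0 := by rw [← hpψ, hp0]; simp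
    exact sub_eq_zero.1 hx0
  have hef : f = e := by
    have hep : IsStarProjection e := ⟨by
      show e * e = e
      calc e * e = star v * (v * e) := by simp only [he, mul_assoc]
        _ = e := by rw [hpi], hes⟩
    have h := hfix e heA hep hep.isIdempotentElem.eq
    rwa [hpi] at h
  refine hA.1.max v hv fun a ha => commute_of_commute_proj A (fun g hg hgp => ?_) ha
  have hgeA : g * e ∈ A := mul_mem hg heA
  have hep : IsStarProjection e := ⟨by
    show e * e = e
    calc e * e = star v * (v * e) := by simp only [he, mul_assoc]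
      _ = e := by rw [hpi], hes⟩
  have h := hfix (g * e) hgeA (hgp.mul hep (hA.1.comm _ hg _ heA))
    (by rw [mul_assoc, hep.isIdempotentElem.eq])
  show g * v = v * g
  calc g * v = g * (f * v) := by rw [hfv]
    _ = g * e * v := by rw [hef, ← mul_assoc]
    _ = v * (g * e) * star v * v := by rw [h]
    _ = v * (g * e * e) := by simp only [he, mul_assoc]
    _ = v * (g * e) := by rw [mul_assoc, hep.isIdempotentElem.eq]
    _ = v * (e * g) := by rw [hcm hg heA]
    _ = v * g := by rw [← mul_assoc, hpi]

theorem cfc_memA (A : VonNeumannAlgebra H) {a : H →L[ℂ] H} (ha : a ∈ A) (f : ℝ → ℝ) :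
    cfc f a ∈ A :=
  mem_of_commute_commutant A fun y hy =>
    (Commute.cfc_real (VonNeumannAlgebra.mem_commutant_iff.1 hy a ha) f).symm

theorem cfc_inv_sqrt {a : H →L[ℂ] H} (ha : IsSelfAdjoint a) {τ : ℝ} (hτ : 0 < τ) :
    cfc (fun s : ℝ => max (s - τ) 0) a *
      (cfc (fun s : ℝ => (√(max s τ))⁻¹) a * a * cfc (fun s : ℝ => (√(max s τ))⁻¹) a - 1) = 0 := by
  have hc : Continuous fun s : ℝ => (√(max s τ))⁻¹ := Continuous.inv₀ (by fun_prop) fun s =>
    (Real.sqrt_pos.2 (lt_of_lt_of_le hτ (le_max_right s τ))).ne'
  have hid : cfc (fun s : ℝ => s) a = a := cfc_id' ℝ a ha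
  have e1 : cfc (fun s : ℝ => (√(max s τ))⁻¹) a * a =
      cfc (fun s : ℝ => (√(max s τ))⁻¹ * s) a := by
    conv_lhs => arg 2; rw [← hid]
    exact (cfc_mul _ _ a hc.continuousOn continuousOn_id).symm
  rw [e1, ← cfc_mul (fun s : ℝ => (√(max s τ))⁻¹ * s) (fun s : ℝ => (√(max s τ))⁻¹) a
      (hc.mul continuous_id).continuousOn hc.continuousOn, ← cfc_const_one ℝ a ha,
    ← cfc_sub (fun s : ℝ => (√(max s τ))⁻¹ * s * (√(max s τ))⁻¹) (fun _ => (1 : ℝ)) a
      ((hc.mul continuous_id).mul hc).continuousOn continuousOn_const,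
    ← cfc_mul (fun s : ℝ => max (s - τ) 0)
      (fun s : ℝ => (√(max s τ))⁻¹ * s * (√(max s τ))⁻¹ - 1) a (by fun_prop)
      (((hc.mul continuous_id).mul hc).sub continuous_const).continuousOn, ← cfc_const_zero ℝ a]
  refine cfc_congr fun s _ => ?_
  rcases le_total s τ with h | h
  · simp [max_eq_right (sub_nonpos.2 h)]
  · have hs : 0 < s := hτ.trans_le h
    have e : (√(max s τ))⁻¹ * s * (√(max s τ))⁻¹ = 1 := by
      rw [max_eq_left h]
      calc (√s)⁻¹ * s * (√s)⁻¹ = (√s * √s)⁻¹ * s := by rw [mul_inv]; ring
        _ = 1 := by rw [Real.mul_self_sqrt hs.le, inv_mul_cancel₀ hs.ne']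
    simp [e]

/-- No nonzero element with zero expectation intertwines a singular MASA into itself. -/
theorem IsCState.eq_zero_of_intertwiner (hφ : IsCState M A φ) (hA : IsSingularMasa M A)
    {S : H →L[ℂ] H} (hS : S ∈ M) (h0 : expE A φ S = 0) (h1 : ∀ e ∈ A, star S * e * S ∈ A)
    (h2 : ∀ e ∈ A, S * e * star S ∈ A) : S = 0 := by
  by_contra hS0
  set a := star S * S with ha
  have haA : a ∈ A := by simpa [ha] using h1 1 (one_mem A)
  have ha0 : 0 ≤ a := star_mul_self_nonneg S
  have hane : a ≠ 0 := fun h => hS0 (CStarRing.star_mul_self_eq_zero_iff S |>.1 h)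
  haveI : Nontrivial (H →L[ℂ] H) := nontrivial_of_ne a 0 hane
  set τ := ‖a‖ / 2 with hτ
  have hτ0 : 0 < τ := half_pos (norm_pos_iff.2 hane)
  set D := cfc (fun s : ℝ => max (s - τ) 0) a with hD
  have hD0 : 0 ≤ D := cfc_nonneg fun s _ => le_max_right _ _
  have hDA : D ∈ A := cfc_memA A haA _
  have hDne : D ≠ 0 := by
    intro h
    have := norm_apply_le_norm_cfc (fun s : ℝ => max (s - τ) 0) a
      (CStarAlgebra.norm_mem_spectrum_of_nonneg ha0)
    rw [← hD, h, norm_zero, Real.norm_of_nonneg (le_max_right _ _)] at this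
    linarith [le_max_left (‖a‖ - τ) 0]
  have hDs : IsSelfAdjoint D := IsSelfAdjoint.of_nonneg hD0
  set k := cut D 0 with hk
  have hkA : k ∈ A := cut_mem A hDA hDs 0
  have hkp : IsStarProjection k := isStarProjection_cut D 0
  have hker : ∀ v, D v = 0 → k v = v := fun v hv => by
    refine Submodule.starProjection_eq_self_iff.2 ?_
    show (shift D 0)⁺ v = 0
    rw [show shift D 0 = D by simp [shift], (CFC.posPart_eq_self D).2 hD0, hv]
  set e := 1 - k with he
  have heA : e ∈ A := sub_mem (one_mem A) hkA
  have hep : IsStarProjection e := hkp.one_sub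
  have hene : e ≠ 0 := by
    intro h
    refine hDne (ContinuousLinearMap.ext fun v => ?_)
    have hk1 : k = 1 := (sub_eq_zero.1 h).symm
    have := cut_mem_cutSpace D 0 v
    rw [← hk, hk1] at this
    have hm : (shift D 0)⁺ v = 0 := this
    rwa [show shift D 0 = D by simp [shift], (CFC.posPart_eq_self D).2 hD0] at hm
  set G := cfc (fun s : ℝ => (√(max s τ))⁻¹) a with hG
  have hGA : G ∈ A := cfc_memA A haA _
  have hGs : star G = G := (cfc_predicate _ a : IsSelfAdjoint G).star_eq
  have hcm := fun {x y : H →L[ℂ] H} (hx : x ∈ A) (hy : y ∈ A) => (hφ.masa.comm x hx y hy).eq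
  have hGG : e * (G * a * G) = e := by
    have hX : D * (G * a * G - 1) = 0 := cfc_inv_sqrt (IsSelfAdjoint.star_mul_self S) hτ0
    have hk' : k * (G * a * G - 1) = G * a * G - 1 := ContinuousLinearMap.ext fun v =>
      hker _ (congrArg (fun T : H →L[ℂ] H => T v) hX)
    have : e * (G * a * G - 1) = 0 := by rw [he, sub_mul, one_mul, hk', sub_self]
    rwa [mul_sub, mul_one, sub_eq_zero] at this
  set v := S * (G * e) with hv
  have hGeA : G * e ∈ A := mul_mem hGA heA
  have hGes : star (G * e) = G * e := by
    rw [star_mul, hGs, hep.isSelfAdjoint.star_eq, hcm heA hGA]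
  have hvv : star v * v = e := by
    calc star v * v = G * e * a * (G * e) := by simp only [hv, star_mul S, hGes, ha, mul_assoc]
      _ = e * (G * a * G) * e := by rw [hcm hGA heA]; simp only [mul_assoc]; rw [hcm hGA heA]
      _ = e := by rw [hGG, hep.isIdempotentElem.eq]
  have hve : v * (star v * v) = v := by
    rw [hvv, hv, mul_assoc, mul_assoc, hep.isIdempotentElem.eq]
  have hvA : ∀ b ∈ A, v * b * star v ∈ A := fun b hb => by
    rw [hv, star_mul, hGes, show S * (G * e) * b * (G * e * star S) =
      S * (G * e * b * (G * e)) * star S by simp only [mul_assoc]]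
    exact h2 _ (mul_mem (mul_mem hGeA hb) hGeA)
  have hvA' : ∀ b ∈ A, star v * b * v ∈ A := fun b hb => by
    rw [hv, star_mul, hGes, show G * e * star S * b * (S * (G * e)) =
      G * e * (star S * b * S) * (G * e) by simp only [mul_assoc]]
    exact mul_mem (mul_mem hGeA (h1 b hb)) hGeA
  have hvM : v ∈ M := mul_mem hS (hφ.masa.le _ hGeA)
  have hvmem := hA.mem_of_partial hvM hvA hvA' hve
  have hv0 : v = 0 := by
    rw [← hφ.expE_of_mem hvmem, hv, hφ.expE_mul_right hGeA hS, h0, zero_mul]
  exact hene (by rw [← hvv, hv0, mul_zero])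

/-- In a singular MASA the conjugates by elements with zero expectation are diffuse. -/
theorem IsCState.diffuse_of_singular (hφ : IsCState M A φ) (hA : IsSingularMasa M A)
    {W : H →L[ℂ] H} (hW : W ∈ M) (h0 : expE A φ W = 0) : Diffuse A φ W := by
  have : Nonempty (Part A (1 : H →L[ℂ] H)) := ⟨Part.triv (one_mem A) (IsStarProjection.one _)⟩
  by_contra hd
  obtain ⟨η, hη, hlow⟩ : ∃ η : ℝ, 0 < η ∧ ∀ P : Part A (1 : H →L[ℂ] H), η < ss A φ W P.p := by
    rw [Diffuse] at hd
    push Not at hd
    exact hd
  obtain ⟨S, hS, hSne, hS0, hSA, -⟩ :=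
    hφ.exists_intertwiner hW h0 (hη.trans_le (le_ciInf fun P => (hlow P).le))
  have hpos : 0 < ssInf A φ (star S) := by
    by_contra hle
    rw [not_lt] at hle
    refine hSne ?_
    have hΛ : ∀ f ∈ A, bE A φ (star S) f = star S * f * S := fun f hf => by
      rw [bE, star_star]
      exact hφ.expE_of_mem (hSA f hf)
    have hY : S * star S ∈ M := mul_mem hS (star_mem hS)
    have hss : ∀ Q : Part A (1 : H →L[ℂ] H),
        ss A φ (star S) Q.p = (φ (star S * pinch Q.p (S * star S) * S)).re := by
      intro Q
      simp only [ss, pinch, Finset.mul_sum, Finset.sum_mul, map_sum, Complex.re_sum]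
      refine Finset.sum_congr rfl fun j _ => ?_
      rw [hΛ _ (Q.isPart.mem j), sq, star_mul, star_mul, star_star,
        (Q.isPart.proj j).isSelfAdjoint.star_eq]
      simp only [mul_assoc]
    set E := expE A φ (S * star S) with hE
    have hEA : E ∈ A := hφ.expE_mem hY
    have hne := refF_neBot hφ.masa.comm
    have hlim : Tendsto (fun Q : Part A (1 : H →L[ℂ] H) => ss A φ (star S) Q.p) (refF A)
        (𝓝 (φ (star S * E * S)).re) := by
      set Z := fun Q : Part A (1 : H →L[ℂ] H) => star S * (pinch Q.p (S * star S) - E) * S with hZ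
      have hZM : ∀ Q, Z Q ∈ M := fun Q => mul_mem (mul_mem (star_mem hS)
        (sub_mem (hφ.pinch_memM Q hY) (hφ.masa.le _ hEA))) hS
      have hZ0 : Tendsto (fun Q => sq φ (Z Q)) (refF A) (𝓝 0) := by
        refine hφ.sq_tendsto_zero (c := ‖star S‖ * (‖S * star S‖ + ‖E‖) * ‖S‖) hZM
          (fun Q => norm_mul₃_le.trans ?_) fun v => ?_
        · gcongr
          exact (norm_sub_le _ _).trans (by linarith [Q.isPart.norm_pinch_le (S * star S)])
        · simp only [hZ, mul_apply_eq_comp, sub_apply]
          have := ((star S).continuous.tendsto _).comp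
            ((hφ.tendsto_pinch hY (S v)).sub (tendsto_const_nhds (x := E (S v))))
          simpa [hE, map_sub, Function.comp_def] using this
      have hφZ : Tendsto (fun Q => (φ (Z Q)).re) (refF A) (𝓝 0) := by
        refine squeeze_zero_norm (fun Q => ?_)
          (by simpa using (hZ0.sqrt.const_mul (√(sq φ (1 : H →L[ℂ] H)))))
        have h := (Complex.abs_re_le_norm _).trans (hφ.norm_le_sqrt (one_mem M) (hZM Q))
        simpa using h
      have := hφZ.add (tendsto_const_nhds (x := (φ (star S * E * S)).re))
      rw [zero_add] at this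
      refine this.congr fun Q => ?_
      rw [hss Q, hZ]
      simp [mul_sub, sub_mul]
    have hE0 : (φ (star S * E * S)).re ≤ 0 := by
      refine le_of_forall_pos_le_add fun κ hκ => ?_
      rw [zero_add]
      obtain ⟨P, hP⟩ := exists_lt_of_ciInf_lt (hle.trans_lt hκ)
      refine le_of_tendsto hlim ?_
      filter_upwards [eventually_refines P] with Q hQ
      exact ((hφ.ss_refine_le (star_mem hS) Q.isPart P.isPart hQ).trans_lt hP).le
    obtain ⟨s, hs, hsa, hss'⟩ := exists_sqrt A hEA
      (hφ.expE_nonneg hY (mul_star_self_nonneg S))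
    have hsS : s * S ∈ M := mul_mem (hφ.masa.le s hs) hS
    have hz : s * S = 0 := by
      refine hφ.faithful _ hsS (Complex.ext (le_antisymm ?_ (hφ.sq_nonneg' hsS)) (hφ.pos_im hsS))
      rw [show star (s * S) * (s * S) = star S * E * S by
        rw [star_mul, hsa.star_eq, ← hss']; simp only [mul_assoc]]
      exact hE0
    have hES : E * (S * star S) = 0 := by
      rw [← mul_assoc, ← hss', mul_assoc s s S, hz]
      simp
    have hEE : E * E = 0 := by
      rw [hE, ← hφ.expE_mul_left hEA hY, hES]
      exact hφ.expE_of_mem (zero_mem A)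
    have hEz : E = 0 := by
      rw [← CStarRing.star_mul_self_eq_zero_iff,
        (IsSelfAdjoint.of_nonneg (hφ.expE_nonneg hY (mul_star_self_nonneg S))).star_eq]
      exact hEE
    exact (CStarRing.mul_star_self_eq_zero_iff S).1
      (hφ.expE_eq_zero hY (mul_star_self_nonneg S) hEz)
  obtain ⟨T, hT, hTne, hT0, hTA, hTA'⟩ := hφ.exists_intertwiner (star_mem hS)
    (by rw [hφ.expE_star hS, hS0, star_zero]) hpos
  exact hTne (hφ.eq_zero_of_intertwiner hA hT hT0 hTA
    (hTA' fun e he => by rw [star_star]; exact hSA e he))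

end Vale.Agent.P078.General.Single
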