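import Vale.Agent.P078.Single.Norm
import Vale.Agent.P078.Single.Normaliser

/-!
# So-paving of singular MASAs in arbitrary von Neumann algebras
-/

namespace Vale.Agent.P078.General.Single

open scoped InnerProductSpace Topology ComplexOrder
open Filter

universe u

variable {H : Type u} [NormedAddCommGroup H] [InnerProductSpace ℂ H] [CompleteSpace H]
variable {M A : VonNeumannAlgebra H}

/-- `g` supports a centralised normal positive functional that is faithful below it. -/
def Supported (M A : VonNeumannAlgebra H) (g : H →L[ℂ] H) : Prop :=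
  ∃ φ : (H →L[ℂ] H) →ₗ[ℂ] ℂ, StronglyContinuous M φ ∧ (∀ y ∈ M, 0 ≤ φ (star y * y)) ∧
    (∀ a ∈ A, ∀ y ∈ M, φ (a * y) = φ (y * a)) ∧ (∀ y ∈ M, φ (g * y * g) = φ y) ∧
    ∀ y ∈ M, y * g = y → φ (star y * y) = 0 → y = 0

theorem null_mul {φ : (H →L[ℂ] H) →ₗ[ℂ] ℂ} (hpos : ∀ y ∈ M, 0 ≤ φ (star y * y))
    {p x : H →L[ℂ] H} (hp : p ∈ M) (hx : x ∈ M) (h0 : φ (star p * p) = 0) :
    φ (star p * x) = 0 ∧ φ (star x * p) = 0 := by
  set z := φ (star p * x)
  set z' := φ (star x * p)
  set s := φ (star x * x) with hs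
  have hsim : s.im = 0 := (Complex.le_def.1 (hpos x hx)).2.symm
  have key : ∀ c : ℂ, 0 ≤ c * z + starRingEnd ℂ c * z' + (Complex.normSq c : ℂ) * s := fun c => by
    have h := hpos _ (add_mem hp (smul_mem' M hx c))
    have e : star (p + c • x) * (p + c • x) = star p * p + c • (star p * x) +
        star c • (star x * p) + (star c * c) • (star x * x) := by
      rw [star_add, star_smul, add_mul, mul_add, mul_add, mul_smul_comm, smul_mul_assoc,
        smul_mul_smul_comm]
      abel
    rw [e] at h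
    simpa [map_add, map_smul, h0, Complex.normSq_eq_conj_mul_self] using h
  have hre : ∀ w : ℂ, (w * z + starRingEnd ℂ w * z').re = 0 ∧
      (w * z + starRingEnd ℂ w * z').im = 0 := by
    intro w
    have hk : ∀ t : ℝ, 0 ≤ t * (w * z + starRingEnd ℂ w * z').re +
        t ^ 2 * (Complex.normSq w * s.re) ∧ t * (w * z + starRingEnd ℂ w * z').im = 0 := by
      intro t
      obtain ⟨h1, h2⟩ := Complex.le_def.1 (key ((t : ℂ) * w))
      simp [Complex.normSq_mul, Complex.mul_re, Complex.mul_im, hsim] at h1 h2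
      constructor
      · simp [Complex.mul_re]; nlinarith
      · simp only [Complex.add_im, Complex.mul_im, Complex.conj_re, Complex.conj_im]; linarith
    refine ⟨?_, by simpa using (hk 1).2⟩
    set R := (w * z + starRingEnd ℂ w * z').re with hR
    set K := Complex.normSq w * s.re with hK
    have hK0 : 0 ≤ K := mul_nonneg (Complex.normSq_nonneg w) (Complex.le_def.1 (hpos x hx)).1
    have h := (hk (-R / (K + 1))).1
    have e : -R / (K + 1) * R + (-R / (K + 1)) ^ 2 * K = -R ^ 2 / (K + 1) ^ 2 := by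
      field_simp
      ring
    rw [e] at h
    have h' : 0 ≤ -R ^ 2 := by
      have hK1 : 0 < (K + 1) ^ 2 := by positivity
      rwa [le_div_iff₀ hK1, zero_mul] at h
    exact pow_eq_zero_iff two_ne_zero |>.1 (le_antisymm (neg_nonneg.1 h') (sq_nonneg R))
  obtain ⟨a1, a2⟩ := hre 1
  obtain ⟨b1, b2⟩ := hre Complex.I
  simp at a1 a2 b1 b2
  exact ⟨Complex.ext (by simp; linarith) (by simp; linarith),
    Complex.ext (by simp; linarith) (by simp; linarith)⟩

theorem exists_supported_below (hA : IsMasa M A) {φ : (H →L[ℂ] H) →ₗ[ℂ] ℂ}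
    (hcont : StronglyContinuous M φ) (hpos : ∀ y ∈ M, 0 ≤ φ (star y * y))
    (hcent : ∀ a ∈ A, ∀ y ∈ M, φ (a * y) = φ (y * a)) {z : H →L[ℂ] H} (hzA : z ∈ A)
    (hz : IsStarProjection z) (hsupp : ∀ y ∈ M, φ ((1 - z) * y * (1 - z)) = φ y)
    (hne : ∃ y ∈ M, φ y ≠ 0) :
    ∃ g ∈ A, IsStarProjection g ∧ g ≠ 0 ∧ g * z = 0 ∧ Supported M A g := by
  obtain ⟨n, hnM, hn, -, hmax, happ⟩ :=
    exists_max_family M (fun p => φ p = 0) 1 (IsStarProjection.one _)
  have hns := hn.isSelfAdjoint.star_eq
  have hni := hn.isIdempotentElem.eq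
  have hn0 : φ n = 0 := by
    rw [← norm_le_zero_iff]
    refine le_of_forall_pos_le_add fun δ hδ => ?_
    rw [zero_add]
    obtain ⟨F, η, hη, hF⟩ := hcont δ hδ
    obtain ⟨t, ht, hto, htn, htF⟩ := happ F η hη
    have hsum : IsStarProjection (∑ g ∈ t, g) :=
      isStarProjection_sum t (fun g => g) (fun g hg => (ht g hg).2.1) hto
    have hsn : (∑ g ∈ t, g) * n = ∑ g ∈ t, g := by
      rw [Finset.sum_mul]; exact Finset.sum_congr rfl htn
    have h := hF (n - ∑ g ∈ t, g) (sub_mem hnM (sum_mem fun g hg => (ht g hg).1))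
      (opNorm_proj_le_one (hsum.sub_of_mul_eq_left hn hsn))
      (fun v hv => by rw [sub_apply]; exact (htF v hv).le)
    rwa [map_sub, map_sum, Finset.sum_eq_zero fun g hg => (ht g hg).2.2, sub_zero] at h
  have hnn : φ (star n * n) = 0 := by rw [hns, hni, hn0]
  have hkill : ∀ x ∈ M, φ (n * x) = 0 ∧ φ (x * n) = 0 := fun x hx => by
    refine ⟨?_, ?_⟩
    · have := (null_mul hpos hnM hx hnn).1
      rwa [hns] at this
    · have := (null_mul hpos hnM (star_mem hx) hnn).2
      rwa [star_star] at this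
  -- positive null elements vanishing on `n` are zero
  have hzero : ∀ T ∈ M, 0 ≤ T → φ T = 0 → T * n = 0 → T = 0 := by
    intro T hTM hT0 hφT hTn
    have hTs : IsSelfAdjoint T := IsSelfAdjoint.of_nonneg hT0
    have hcut : ∀ ε : ℝ, 0 < ε → cut T ε = 1 := by
      intro ε hε
      set q := 1 - cut T ε with hq
      have hqp : IsStarProjection q := (isStarProjection_cut T ε).one_sub
      have hqM : q ∈ M := sub_mem (one_mem M) (cut_mem M hTM hTs ε)
      have hqn : q * n = 0 := by
        ext v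
        set w := q (n v)
        have hTw : T w = 0 := by
          have hc : Commute T q :=
            (Commute.one_right T).sub_right (commute_cut_self hTs ε)
          have e := congrArg (fun f : H →L[ℂ] H => f (n v)) hc.eq
          simp only [mul_apply_eq_comp] at e
          rw [e, show T (n v) = 0 from congrArg (fun f : H →L[ℂ] H => f v) hTn, map_zero]
        have hcw : cut T ε w = 0 := by
          have : cut T ε * q = 0 := by
            rw [hq, mul_sub, mul_one, (isStarProjection_cut T ε).isIdempotentElem.eq, sub_self]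
          exact congrArg (fun f : H →L[ℂ] H => f (n v)) this
        have h := le_re_inner_of_cut_eq_zero hTs hcw
        rw [hTw, inner_zero_left, Complex.zero_re] at h
        show w = 0
        have h2 : ‖w‖ ^ 2 ≤ 0 := by nlinarith [sq_nonneg ‖w‖]
        exact norm_eq_zero.1 (pow_eq_zero_iff two_ne_zero |>.1 (le_antisymm h2 (sq_nonneg _)))
      have hφq : φ q = 0 := by
        have hle : 0 ≤ T - (ε : ℂ) • q := by
          refine nonneg_of_re_inner (hTs.sub (by
            simp only [IsSelfAdjoint, star_smul, hqp.isSelfAdjoint.star_eq, Complex.star_def,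
              Complex.conj_ofReal])) fun u => ?_
          have h := norm_sub_cut_sq hTs hT0 (t := ε) u
          rw [sub_apply, inner_sub_left, smul_apply, inner_smul_left, Complex.conj_ofReal,
            Complex.sub_re, Complex.re_ofReal_mul, ← star_proj_apply_norm_sq hqp]
          have e : q u = u - cut T ε u := by simp [hq]
          rw [e]
          linarith
        obtain ⟨s, hs, hsa, hss⟩ :=
          exists_sqrt M (sub_mem hTM (smul_mem' M hqM _)) hle
        have h1 := hpos s hs
        rw [hsa.star_eq, hss, map_sub, map_smul, hφT, zero_sub, smul_eq_mul] at h1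
        have h2 := hpos q hqM
        rw [hqp.isSelfAdjoint.star_eq, hqp.isIdempotentElem.eq] at h2
        obtain ⟨a1, a2⟩ := Complex.le_def.1 h1
        obtain ⟨b1, b2⟩ := Complex.le_def.1 h2
        refine Complex.ext ?_ b2.symm
        simp only [Complex.zero_re, Complex.neg_re, Complex.re_ofReal_mul] at a1 b1 ⊢
        nlinarith
      have := hmax q hqM hqp (mul_one q) hφq hqn
      exact (sub_eq_zero.1 (hq ▸ this)).symm
    refine norm_le_zero_iff.1 (le_of_forall_pos_le_add fun ε hε => ?_)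
    rw [zero_add]
    refine norm_sa_le hTs hε.le (re_inner_nonneg_of_nonneg hT0) fun v => ?_
    refine re_inner_le_of_mem_cutSpace hTs ?_
    have := cut_mem_cutSpace T ε v
    rwa [hcut ε hε] at this
  -- null projections lie below `n`
  have hbelow : ∀ p ∈ M, IsStarProjection p → φ p = 0 → p * n = p := by
    intro p hpM hp hp0
    have hy : p * (1 - n) ∈ M := mul_mem hpM (sub_mem (one_mem M) hnM)
    have e : star (p * (1 - n)) * (p * (1 - n)) = (1 - n) * p * (1 - n) := by
      rw [star_mul, hp.isSelfAdjoint.star_eq, hn.one_sub.isSelfAdjoint.star_eq,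
        mul_assoc (1 - n), ← mul_assoc p p, hp.isIdempotentElem.eq, mul_assoc]
    have hT := hzero _ (mul_mem (star_mem hy) hy) (star_mul_self_nonneg _) (by
      rw [e]
      simp only [sub_mul, mul_sub, one_mul, mul_one, map_sub, hp0, (hkill p hpM).1,
        (hkill p hpM).2, (hkill _ (mul_mem hpM hnM)).1, mul_assoc, sub_zero]) (by
      rw [e, mul_assoc _ (1 - n) n,
        show (1 - n) * n = 0 by rw [sub_mul, one_mul, hni, sub_self], mul_zero])
    have := (CStarRing.star_mul_self_eq_zero_iff _).1 hT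
    rw [mul_sub, mul_one, sub_eq_zero] at this
    exact this.symm
  have hnA : n ∈ A := hA.max n hnM fun a ha => commute_of_commute_proj A (fun f hf hfp => by
    set u := 1 - (2 : ℂ) • f with hu
    have huA : u ∈ A := sub_mem (one_mem A) (smul_mem' A hf _)
    have hus : star u = u := by
      rw [hu, star_sub, star_one, star_smul, hfp.isSelfAdjoint.star_eq, Complex.star_def,
        Complex.conj_ofNat]
    have huu : u * u = 1 := by
      simp only [hu, sub_mul, mul_sub, one_mul, mul_one, smul_mul_smul_comm,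
        hfp.isIdempotentElem.eq]
      rw [show (2 : ℂ) * 2 = 2 + 2 by norm_num, add_smul]
      abel
    have huM := hA.le u huA
    have hp : IsStarProjection (u * n * u) := by
      refine ⟨?_, ?_⟩
      · show u * n * u * (u * n * u) = u * n * u
        calc u * n * u * (u * n * u) = u * n * (u * u) * n * u := by simp only [mul_assoc]
          _ = u * (n * n) * u := by rw [huu, mul_one]; simp only [mul_assoc]
          _ = _ := by rw [hni]
      · show star (u * n * u) = u * n * u
        rw [star_mul, star_mul, hus, hns, mul_assoc]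
    have hp0 : φ (u * n * u) = 0 := by
      rw [mul_assoc, hcent u huA _ (mul_mem hnM huM), mul_assoc, huu, mul_one, hn0]
    have h := hbelow _ (mul_mem (mul_mem huM hnM) huM) hp hp0
    have h1 : n * u * n = n * u := by
      have := congrArg (fun T => u * T) h
      simpa [← mul_assoc, huu] using this
    have h2 : n * u * n = u * n := by
      have := congrArg star h1
      simpa [star_mul, hus, hns, mul_assoc] using this
    have h3 : n * u = u * n := h1.symm.trans h2
    simp only [hu, mul_sub, sub_mul, mul_one, one_mul, mul_smul_comm, smul_mul_assoc,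
      sub_right_inj] at h3
    exact (smul_right_injective _ (two_ne_zero : (2 : ℂ) ≠ 0) h3).symm) ha
  have hzn : z * n = z := by
    refine hbelow z (hA.le z hzA) hz ?_
    rw [← hsupp z (hA.le z hzA), sub_mul, one_mul, hz.isIdempotentElem.eq, sub_self, zero_mul,
      map_zero]
  refine ⟨1 - n, sub_mem (one_mem A) hnA, hn.one_sub, ?_, ?_, φ, hcont, hpos, hcent, ?_, ?_⟩
  · intro h
    have hn1 : n = 1 := (sub_eq_zero.1 h).symm
    obtain ⟨y, hy, hy0⟩ := hne
    have := (hkill y hy).1
    rw [hn1, one_mul] at this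
    exact hy0 this
  · rw [sub_mul, one_mul, (hA.comm n hnA z hzA).eq, hzn, sub_self]
  · intro y hy
    simp only [sub_mul, mul_sub, one_mul, mul_one, map_sub, (hkill y hy).1, (hkill y hy).2,
      (hkill _ (mul_mem hy hnM)).1, mul_assoc, sub_zero]
  · intro y hy hyn h0
    refine (CStarRing.star_mul_self_eq_zero_iff y).1
      (hzero _ (mul_mem (star_mem hy) hy) (star_mul_self_nonneg y) h0 ?_)
    rw [mul_sub, mul_one, sub_eq_self] at hyn
    rw [mul_assoc, hyn, mul_zero]

/-- A corner of a singular MASA with a faithful centralised functional becomes a state. -/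
theorem exists_cstate_flatten (hA : IsSingularMasa M A) {e : H →L[ℂ] H} (he : e ∈ A)
    (hep : IsStarProjection e) (t : Finset (H →L[ℂ] H)) (ht : ∀ g ∈ t, g ∈ A ∧
      IsStarProjection g ∧ Supported M A g) (hte : ∀ g ∈ t, g * e = g) (hsum : ∑ g ∈ t, g = e) :
    ∃ φ : (H →L[ℂ] H) →ₗ[ℂ] ℂ, IsCState (flatten M e) (flatten A e) φ ∧
      IsSingularMasa (flatten M e) (flatten A e) := by
  classical
  have hmasa := isMasa_flatten hA.1 he hep
  choose ψ hψc hψp hψt hψs hψf using fun g : t => (ht g.1 g.2).2.2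
  obtain ⟨η, hη, hη'⟩ : ∃ η : H, (∀ y ∈ flatten M e, ∃ c : ℂ, y η = c • η) ∧
      ∀ y ∈ flatten M e, y η = 0 → ∀ v, e v = 0 → y v = 0 := by
    by_cases h1 : e = 1
    · exact ⟨0, fun y _ => ⟨0, by simp⟩, fun y _ _ v hv => by
        rw [h1, one_apply_eq_self] at hv; rw [hv, map_zero]⟩
    · obtain ⟨u₀, hu₀⟩ : ∃ v, (1 - e) v ≠ 0 := by
        by_contra h
        push Not at h
        exact h1 (sub_eq_zero.1 (ContinuousLinearMap.ext h : 1 - e = 0)).symm
      set η := ((‖(1 - e) u₀‖⁻¹ : ℝ) : ℂ) • (1 - e) u₀ with hηdef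
      have hη : e η = 0 := by
        rw [hηdef, map_smul, sub_apply, one_apply_eq_self, map_sub]
        rw [show e (e u₀) = e u₀ from
          congrArg (fun S : H →L[ℂ] H => S u₀) hep.isIdempotentElem.eq, sub_self, smul_zero]
      have hη1 : ‖η‖ = 1 := by
        rw [hηdef, norm_smul, Complex.norm_real, norm_inv, norm_norm,
          inv_mul_cancel₀ (norm_ne_zero_iff.2 hu₀)]
      refine ⟨η, fun y hy => ⟨_, flatten_apply_off hep hy hη hη1 hη⟩, fun y hy h0 v hv => ?_⟩
      rw [flatten_apply_off hep hy hη hη1 hv, h0, inner_zero_right, zero_smul]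
  let φ : (H →L[ℂ] H) →ₗ[ℂ] ℂ := (∑ g : t, ψ g) +
    { toFun := fun y => ⟪η, y η⟫_ℂ
      map_add' := fun y w => by simp [inner_add_right]
      map_smul' := fun c y => by simp [inner_smul_right] }
  have hφ : ∀ y, φ y = (∑ g : t, ψ g y) + ⟪η, y η⟫_ℂ := fun y => by
    simp [φ, LinearMap.sum_apply]
  have hM : ∀ y ∈ flatten M e, y ∈ M := fun y hy => ((mem_flatten hep).1 hy).1
  have hvec : ∀ y : H →L[ℂ] H, ⟪η, (star y * y) η⟫_ℂ = ((‖y η‖ ^ 2 : ℝ) : ℂ) := fun y => by
    rw [mul_apply_eq_comp, ContinuousLinearMap.star_eq_adjoint,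
      ContinuousLinearMap.adjoint_inner_right, inner_self_eq_norm_sq_to_K]
    norm_cast
  have hpos : ∀ y ∈ flatten M e, 0 ≤ (∑ g : t, ψ g (star y * y)) :=
    fun y hy => Finset.sum_nonneg fun g _ => hψp g y (hM y hy)
  refine ⟨φ, ⟨hmasa, ?_, ?_, ?_, ?_⟩, hmasa, ?_⟩
  · intro δ hδ
    set N : ℝ := Fintype.card t + 1 with hN
    choose F η' hη' hF using fun g : t => hψc g (δ / (2 * N)) (by positivity)
    obtain ⟨κ, hκ0, hκ⟩ := (eventually_mem_nhdsWithin.and ((eventually_all.2
      fun g : t => eventually_nhdsWithin_of_eventually_nhds (eventually_le_nhds (hη' g))).and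
      (eventually_nhdsWithin_of_eventually_nhds
        (eventually_le_nhds (show 0 < δ / (2 * (‖η‖ + 1)) by positivity))))).exists
        (f := 𝓝[>] (0 : ℝ))
    refine ⟨insert η (Finset.univ.biUnion F), κ, hκ0, fun y hy hy1 hyF => ?_⟩
    rw [hφ]
    refine (norm_add_le _ _).trans ?_
    have h1 : ‖∑ g : t, ψ g y‖ ≤ δ / 2 := by
      refine (norm_sum_le _ _).trans ((Finset.sum_le_sum fun g _ => hF g y (hM y hy) hy1
        fun v hv => (hyF v (Finset.mem_insert_of_mem (Finset.mem_biUnion.2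
          ⟨g, Finset.mem_univ g, hv⟩))).trans (hκ.1 g)).trans ?_)
      rw [Finset.sum_const, Finset.card_univ, nsmul_eq_mul, mul_div_assoc',
        div_le_div_iff₀ (by positivity) two_pos]
      nlinarith
    have h2 : ‖⟪η, y η⟫_ℂ‖ ≤ δ / 2 := by
      refine (norm_inner_le_norm η (y η)).trans ?_
      have := mul_le_mul_of_nonneg_left
        ((hyF η (Finset.mem_insert_self _ _)).trans hκ.2) (norm_nonneg η)
      refine this.trans ?_
      rw [mul_div_assoc', div_le_div_iff₀ (by positivity) two_pos]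
      nlinarith [norm_nonneg η]
    linarith
  · intro y hy
    rw [hφ, hvec]
    exact add_nonneg (hpos y hy) (Complex.zero_le_real.2 (sq_nonneg _))
  · intro a ha y hy
    rw [hφ, hφ]
    congr 1
    · exact Finset.sum_congr rfl fun g _ => hψt g a ((mem_flatten hep).1 ha).1 y (hM y hy)
    · obtain ⟨c, hc⟩ := hη a (hmasa.le a ha)
      obtain ⟨d, hd⟩ := hη y hy
      simp only [mul_apply_eq_comp, hc, hd, map_smul, smul_smul, mul_comm]
  · intro y hy h0
    rw [hφ, hvec] at h0
    have h1 := (add_eq_zero_iff_of_nonneg (hpos y hy) (Complex.zero_le_real.2 (sq_nonneg _))).1 h0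
    have hyη : y η = 0 := by
      have h2 : ‖y η‖ ^ 2 = 0 := Complex.ofReal_eq_zero.1 h1.2
      exact norm_eq_zero.1 (pow_eq_zero_iff two_ne_zero |>.1 h2)
    have hyg : ∀ g : t, y * g.1 = 0 := by
      intro g
      obtain ⟨hgA, hgp, -⟩ := ht g.1 g.2
      have hz := (Finset.sum_eq_zero_iff_of_nonneg fun g _ => hψp g y (hM y hy)).1 h1.1 g
        (Finset.mem_univ g)
      refine hψf g _ (mul_mem (hM y hy) (hA.1.le _ hgA))
        (by rw [mul_assoc, hgp.isIdempotentElem.eq]) ?_
      rw [← hψs g _ (mul_mem (star_mem (hM y hy)) (hM y hy))] at hz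
      rw [star_mul, hgp.isSelfAdjoint.star_eq]
      simpa only [mul_assoc] using hz
    have hye : y * e = 0 := by
      rw [← hsum, Finset.mul_sum]
      exact Finset.sum_eq_zero fun g hg => hyg ⟨g, hg⟩
    refine ContinuousLinearMap.ext fun v => ?_
    have h2 : e (v - e v) = 0 := by
      rw [map_sub, show e (e v) = e v from
        congrArg (fun S : H →L[ℂ] H => S v) hep.isIdempotentElem.eq, sub_self]
    have h3 := hη' y hy hyη _ h2
    rw [map_sub, show y (e v) = 0 from congrArg (fun S : H →L[ℂ] H => S v) hye, sub_zero] at h3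
    simpa using h3
  · intro u hu hu1 hu2 hn1 hn2
    obtain ⟨huM, hue, huT⟩ := (mem_flatten hep).1 hu
    obtain ⟨hsuM, hsue, hsuT⟩ := (mem_flatten hep).1 (star_mem hu)
    have key : ∀ w w' : H →L[ℂ] H, (∀ T, (1 - e) * T * (1 - e) = T → Commute T w) →
        w * w' = 1 → (∀ a ∈ flatten A e, w * a * w' ∈ flatten A e) →
        ∀ a ∈ A, w * a * w' ∈ A := by
      intro w w' hwT hww hwn a ha
      have haz : Commute a e := hA.1.comm a ha e he
      have ei := hep.isIdempotentElem.eq
      have ei' := hep.one_sub.isIdempotentElem.eq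
      have h1 : w * (e * a * e) * w' ∈ A := ((mem_flatten hep).1 (hwn _
        (corner_mem_flatten hep (mul_mem (mul_mem he ha) he)
          (by simp only [← mul_assoc, ei]; rw [mul_assoc, ei])))).1
      have hT : (1 - e) * ((1 - e) * a * (1 - e)) * (1 - e) = (1 - e) * a * (1 - e) := by
        simp only [← mul_assoc, ei']; rw [mul_assoc, ei']
      have h2 : w * ((1 - e) * a * (1 - e)) * w' = (1 - e) * a * (1 - e) := by
        rw [← (hwT _ hT).eq, mul_assoc, hww, mul_one]
      have e1 : a = e * a * e + (1 - e) * a * (1 - e) := by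
        simp only [sub_mul, mul_sub, one_mul, mul_one, ← haz.eq]
        rw [mul_assoc a e e, ei]
        abel
      rw [e1, mul_add, add_mul, h2]
      exact add_mem h1 (mul_mem (mul_mem (sub_mem (one_mem A) he) ha) (sub_mem (one_mem A) he))
    exact (mem_flatten hep).2 ⟨hA.2 u huM hu1 hu2 (key u (star u) huT hu2 hn1)
      (key (star u) u hsuT hu1 hn2), hue, huT⟩

/-- So-paving of a singular MASA, the pieces counted by the two regimes. -/
theorem soPavable_of_singular (hA : IsSingularMasa M A) {ε : ℝ} (hε : 0 < ε) {r₁ r₂ : ℕ}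
    (hr₁ : 0 < r₁) (hr₁ε : 15 / √(r₁ : ℝ) ≤ ε) (hr₂ : 3 / ε ≤ r₂) {x : H →L[ℂ] H} (hxM : x ∈ M)
    (hx : IsSelfAdjoint x) : SoPavable M A ε (r₁ + r₂) x := by
  refine soPavable_of_contractions (fun y hy hys hy1 F δ hδ => ?_) hxM hx
  classical
  have hr0 : 0 < r₂ := by
    have : (0 : ℝ) < r₂ := lt_of_lt_of_le (by positivity) hr₂
    exact_mod_cast this
  obtain ⟨z, hzA, hz, -, hmax, happ⟩ :=
    exists_max_family A (Supported M A) 1 (IsStarProjection.one _)
  have hno : NoCentralised M A (1 - z) := by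
    intro φ hc hp ht hs y hy
    by_contra hne
    obtain ⟨g, hgA, hgp, hg0, hgz, hg⟩ :=
      exists_supported_below hA.1 hc hp ht hzA hz hs ⟨y, hy, hne⟩
    exact hg0 (hmax g hgA hgp (mul_one g) hg hgz)
  obtain ⟨t, ht, hto, htz, htF⟩ := happ F (δ / 3) (by positivity)
  set e := ∑ g ∈ t, g with he
  have hep : IsStarProjection e :=
    isStarProjection_sum t (fun g => g) (fun g hg => (ht g hg).2.1) hto
  have heA : e ∈ A := sum_mem fun g hg => (ht g hg).1
  have heM := hA.1.le e heA
  have hez : e * z = e := by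
    rw [he, Finset.sum_mul]; exact Finset.sum_congr rfl htz
  have hte : ∀ g ∈ t, g * e = g := fun g hg => by
    rw [he, Finset.mul_sum, Finset.sum_eq_single g (fun b hb hne => hto g hg b hb hne.symm)
      fun h => absurd hg h]
    exact (ht g hg).2.1.isIdempotentElem.eq
  obtain ⟨φ, hφ, hA'⟩ := exists_cstate_flatten hA heA hep t ht hte rfl
  set y' := e * y * e with hy'
  have hy'M : y' ∈ flatten M e := corner_mem_flatten hep (mul_mem (mul_mem heM hy) heM)
    (by simp only [hy', ← mul_assoc, hep.isIdempotentElem.eq]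
        rw [mul_assoc, hep.isIdempotentElem.eq])
  have hy's : IsSelfAdjoint y' := by
    have := hys.conjugate e
    rwa [hep.isSelfAdjoint.star_eq] at this
  have hy'1 : ‖y'‖ ≤ 1 := by
    refine norm_mul₃_le.trans ?_
    calc ‖e‖ * ‖y‖ * ‖e‖ ≤ 1 * 1 * 1 := by gcongr <;> exact opNorm_proj_le_one hep
      _ = 1 := by norm_num
  set a := expE (flatten A e) φ y' with ha
  obtain ⟨haA, han, -⟩ := hφ.expE_spec hy'M
  have has : IsSelfAdjoint a := by rw [IsSelfAdjoint, ha, ← hφ.expE_star hy'M, hy's.star_eq]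
  have haM := hφ.masa.le _ haA
  obtain ⟨p, q, hp, hqM, hq, hqF, hn⟩ := hφ.exists_pave hr₁
    (fun m hm h0 => hφ.diffuse_of_singular hA' hm h0) (sub_mem hy'M haM) (hy's.sub has)
    ((norm_sub_le _ _).trans (by linarith [han.trans hy'1]))
    (by rw [hφ.expE_sub hy'M haM, hφ.expE_of_mem haA, sub_self])
    (F.image e) (δ := δ / 3) (by positivity)
  have hpinch : pinch p (y' - a) = pinch p y' - a := by
    rw [pinch_sub, hp.pinch_of_commute fun i => hφ.masa.comm _ (hp.mem i) a haA, mul_one]
  obtain ⟨haA', haz, -⟩ := (mem_flatten hep).1 haA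
  obtain ⟨hqM', hqz, -⟩ := (mem_flatten hep).1 hqM
  have hpz : ∀ i, Commute (p i) e := fun i =>
    hA.1.comm _ ((mem_flatten hep).1 (hp.mem i)).1 e heA
  have hp₁ : IsPart A e (fun i => p i * e) := by
    refine ⟨fun i => mul_mem ((mem_flatten hep).1 (hp.mem i)).1 heA,
      fun i => (hp.proj i).mul hep (hpz i), fun i j hij => ?_, ?_⟩
    · rw [mul_assoc, ← mul_assoc e, ← (hpz j).eq, ← mul_assoc, ← mul_assoc, hp.orth i j hij,
        zero_mul, zero_mul]
    · rw [← Finset.sum_mul, hp.sum_eq, one_mul]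
  have ha₁s : IsSelfAdjoint (a * e) := by
    rw [IsSelfAdjoint, star_mul, hep.isSelfAdjoint.star_eq, has.star_eq, haz.eq]
  have ha₁n : ‖a * e‖ ≤ 1 := (norm_mul_le _ _).trans
    (mul_le_one₀ (han.trans hy'1) (norm_nonneg _) (opNorm_proj_le_one hep))
  have hq₁ : IsStarProjection (q * e) := hq.mul hep hqz.symm
  have h1 : ‖q * e * (pinch (fun i => p i * e) y - a * e) * (q * e)‖ ≤ ε := by
    have e1 : pinch (fun i => p i * e) y = pinch p y' := by
      refine Finset.sum_congr rfl fun i _ => ?_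
      calc p i * e * y * (p i * e) = p i * e * y * (e * p i) := by rw [(hpz i).eq]
        _ = _ := by simp [hy', mul_assoc]
    have e3 : ∀ S, q * e * S * (q * e) = e * (q * S * q) * e := fun S => by
      rw [← hqz.eq]
      simp only [mul_assoc]
      congr 3
    have e4 : q * e * (a * e) * (q * e) = q * e * a * (q * e) := by
      have : e * (q * e) = q * e := by
        rw [← mul_assoc, hqz.eq, mul_assoc, hep.isIdempotentElem.eq]
      simp only [mul_assoc]
      rw [this]
    rw [e1, mul_sub (q * e), sub_mul _ _ (q * e), e4, ← sub_mul _ _ (q * e), ← mul_sub (q * e),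
      e3, ← hpinch]
    refine norm_mul₃_le.trans ?_
    calc ‖e‖ * ‖q * pinch p (y' - a) * q‖ * ‖e‖ ≤ 1 * ε * 1 := by
          gcongr
          exacts [opNorm_proj_le_one hep, hn.trans hr₁ε, opNorm_proj_le_one hep]
      _ = ε := by ring
  have hex := exists_thin_of_pinch hA.1 (sub_mem (one_mem A) hzA) hz.one_sub
    (exists_small_pinch_of_noCentralised hA.1 (sub_mem (one_mem A) hzA) hz.one_sub hno)
  obtain ⟨p₂, a₂, q₂, hp₂, ha₂A, ha₂s, ha₂z, ha₂n, hq₂M, hq₂, hq₂z, hq₂F, h2⟩ :=
    paving_of_thin hA.1 (sub_mem (one_mem A) hzA) hz.one_sub hex hy hys hy1 hε hr₂ F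
      (δ := δ / 3) (by positivity)
  obtain ⟨P, hP, hQ, hab, hPn⟩ := exists_join (x := y) hep hz heA hzA hez hr0
    hp₁ hp₂ hq₁ hq₂ (by rw [mul_assoc, hep.isIdempotentElem.eq]) hq₂z ha₁s ha₂s
    (by rw [mul_assoc, hep.isIdempotentElem.eq]) ha₂z hε.le h1 h2 zero_le_one ha₁n (ha₂n.trans hy1)
  refine ⟨P, a * e + a₂, q * e + q₂, hP, add_mem (mul_mem haA' heA) ha₂A, ha₁s.add ha₂s, hab,
    add_mem (mul_mem hqM' heM) hq₂M, hQ, fun v hv => ?_, hPn⟩
  have e1 : (1 - (q * e + q₂)) v = (1 - q) (e v) + ((z v - e v) + ((1 - z) v - q₂ v)) := by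
    simp only [sub_apply, add_apply, one_apply_eq_self, mul_apply_eq_comp]
    abel
  rw [e1]
  linarith [norm_add_le ((1 - q) (e v)) ((z v - e v) + ((1 - z) v - q₂ v)),
    norm_add_le (z v - e v) ((1 - z) v - q₂ v),
    hqF (e v) (Finset.mem_image_of_mem e hv), htF v hv, hq₂F v hv]

/-- One `C / ε²` bound for singular MASAs of all von Neumann algebras. -/
theorem exists_sq_bound_singular :
    ∃ C : ℝ, 0 < C ∧ ∀ ε : ℝ, 0 < ε → ε ≤ 1 → ∃ r : ℕ, 0 < r ∧ (r : ℝ) ≤ C / ε ^ 2 ∧
      ∀ (H : Type u) [NormedAddCommGroup H] [InnerProductSpace ℂ H] [CompleteSpace H]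
        (M A : VonNeumannAlgebra H), IsSingularMasa M A →
          ∀ x ∈ M, IsSelfAdjoint x → SoPavable M A ε r x := by
  refine ⟨230, by norm_num, fun ε hε hε1 => ?_⟩
  have hp : 0 < ε ^ 2 := by positivity
  have hsq : ε ^ 2 ≤ ε := by nlinarith
  set r₁ := ⌈225 / ε ^ 2⌉₊ with hr₁
  have hr₁0 : 0 < r₁ := Nat.ceil_pos.2 (by positivity)
  refine ⟨r₁ + ⌈3 / ε⌉₊, by omega, ?_, fun H _ _ _ M A hA x hx hxs =>
    soPavable_of_singular hA hε hr₁0 ?_ (Nat.le_ceil _) hx hxs⟩
  · have h1 : (r₁ : ℝ) ≤ 226 / ε ^ 2 := by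
      refine (Nat.ceil_lt_add_one (by positivity)).le.trans ?_
      rw [le_div_iff₀ hp, add_mul, div_mul_cancel₀ _ hp.ne', one_mul]
      nlinarith
    have h2 : (⌈3 / ε⌉₊ : ℝ) ≤ 4 / ε ^ 2 := by
      refine (Nat.ceil_lt_add_one (by positivity)).le.trans ?_
      rw [le_div_iff₀ hp, add_mul, one_mul, div_mul_eq_mul_div, pow_two, ← mul_assoc,
        mul_comm (3 : ℝ), mul_assoc, mul_div_assoc]
      field_simp
      nlinarith
    push_cast
    calc (r₁ : ℝ) + ⌈3 / ε⌉₊ ≤ 226 / ε ^ 2 + 4 / ε ^ 2 := add_le_add h1 h2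
      _ = 230 / ε ^ 2 := by ring
  · have h : 225 / ε ^ 2 ≤ (r₁ : ℝ) := Nat.le_ceil _
    rw [div_le_iff₀ (Real.sqrt_pos.2 (Nat.cast_pos.2 hr₁0))]
    rw [div_le_iff₀ hp] at h
    refine le_of_pow_le_pow_left₀ two_ne_zero (by positivity) ?_
    rw [mul_pow, Real.sq_sqrt (Nat.cast_nonneg _)]
    nlinarith

end Vale.Agent.P078.General.Single
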