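import Vale.Agent.P078.Single.Pattern

/-!
# Colourings with small pinchings

If all elements with zero expectation have diffuse conjugates, a random colouring into `r` classes
pinches such an element to norm `O(1/√r)` on a large projection.
-/

namespace Vale.Agent.P078.General.Single

open scoped InnerProductSpace Topology ComplexOrder
open Filter

universe u

variable {H : Type u} [NormedAddCommGroup H] [InnerProductSpace ℂ H] [CompleteSpace H]
variable {M A : VonNeumannAlgebra H} {φ : (H →L[ℂ] H) →ₗ[ℂ] ℂ} {r : ℕ}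

omit [CompleteSpace H] in
theorem pw_congr (l : ℕ) : ∀ (U : ℕ → H →L[ℂ] H) (m m' : ℕ → H →L[ℂ] H),
    (∀ x, x ≤ l → m x = m' x) → pw l U m = pw l U m' := by
  induction l with
  | zero => intro U m m' h; exact h 0 le_rfl
  | succ l ih =>
    intro U m m' h
    rw [pw, pw, h 0 (Nat.zero_le _), ih _ _ (fun x => m' (x + 1)) fun x hx => h (x + 1) (by omega)]

omit [CompleteSpace H] in
theorem pw_succ_right (l : ℕ) : ∀ (U m : ℕ → H →L[ℂ] H),
    pw (l + 1) U m = pw l U m * U l * m (l + 1) := by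
  induction l with
  | zero => intro U m; simp [pw]
  | succ l ih => intro U m; rw [pw, ih, pw]; simp only [mul_assoc]

/-- The projection of the `i`th colour. -/
noncomputable def colP (Q : Part A (1 : H →L[ℂ] H)) (c : Fin Q.n → Fin r) (i : Fin r) :
    H →L[ℂ] H :=
  ∑ j, if c j = i then Q.p j else 0

theorem isPart_colP (Q : Part A (1 : H →L[ℂ] H)) (c : Fin Q.n → Fin r) :
    IsPart A 1 (colP Q c) := by
  refine ⟨fun i => sum_mem fun j _ => ?_, fun i => ?_, fun i i' h => ?_, ?_⟩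
  · split_ifs
    exacts [Q.isPart.mem j, zero_mem A]
  · unfold colP
    rw [← Finset.sum_filter]
    exact isStarProjection_sum _ _ (fun j _ => Q.isPart.proj j) fun j _ j' _ h => Q.isPart.orth j j' h
  · simp only [colP, Finset.sum_mul, Finset.mul_sum]
    refine Finset.sum_eq_zero fun j _ => Finset.sum_eq_zero fun j' _ => ?_
    split_ifs with h1 h2
    · exact Q.isPart.orth j' j fun e => h (by rw [← h1, ← h2, e])
    all_goals simp
  · simp only [colP]
    rw [Finset.sum_comm]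
    simp [Q.isPart.sum_eq]

/-- `a = t (1 - t)` with `t = 1/r`. -/
noncomputable def ca (r : ℕ) : ℝ := (r : ℝ)⁻¹ * (1 - (r : ℝ)⁻¹)

/-- `b = 1 - 2 t`. -/
noncomputable def cb (r : ℕ) : ℝ := 1 - 2 * (r : ℝ)⁻¹

theorem coef_bounds (hr : 0 < r) : 0 ≤ ca r ∧ ca r ≤ (r : ℝ)⁻¹ ∧ |cb r| ≤ 1 ∧
    0 < (r : ℝ)⁻¹ ∧ (r : ℝ)⁻¹ ≤ 1 := by
  have h1 : (1 : ℝ) ≤ r := by exact_mod_cast hr
  have h0 : 0 < (r : ℝ)⁻¹ := by positivity
  have h2 : (r : ℝ)⁻¹ ≤ 1 := inv_le_one_of_one_le₀ h1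
  refine ⟨?_, ?_, ?_, h0, h2⟩ <;> simp only [ca, cb]
  · nlinarith
  · nlinarith
  · rw [abs_le]; constructor <;> linarith

section Q

variable (Q : Part A (1 : H →L[ℂ] H)) (c : Fin Q.n → Fin r)

theorem qOp_memA : qOp Q c ∈ A := sum_mem fun j _ => smul_mem' A (Q.isPart.mem j) _

theorem star_qOp : star (qOp Q c) = qOp Q c := by
  simp [qOp, star_sum, star_smul, fun j => (Q.isPart.proj j).isSelfAdjoint.star_eq]

theorem qOp_sq : qOp Q c * qOp Q c = (ca r : ℂ) • 1 + (cb r : ℂ) • qOp Q c := by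
  conv_rhs => rw [← Q.isPart.sum_eq, qOp, Finset.smul_sum, Finset.smul_sum,
    ← Finset.sum_add_distrib]
  rw [qOp, Finset.sum_mul]
  refine Finset.sum_congr rfl fun j _ => ?_
  rw [Finset.mul_sum, Finset.sum_eq_single j (fun j' _ h => by
    rw [smul_mul_smul_comm, Q.isPart.orth j j' h.symm, smul_zero]) (fun h => absurd (Finset.mem_univ j) h),
    smul_mul_smul_comm, (Q.isPart.proj j).isIdempotentElem.eq, smul_smul, ← add_smul]
  congr 1
  norm_cast
  simp only [qc, ca, cb]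
  split_ifs <;> ring

theorem norm_qOp_le (hr : 0 < r) : ‖qOp Q c‖ ≤ 1 := by
  refine norm_sum_coef_le Q.isPart fun j => ?_
  have h := coef_bounds hr
  rw [Complex.norm_real, Real.norm_eq_abs, qc, abs_le]
  split_ifs <;> constructor <;> linarith

theorem colP_zero (hr : 0 < r) :
    colP Q c ⟨0, hr⟩ = qOp Q c + (((r : ℝ)⁻¹ : ℝ) : ℂ) • 1 := by
  conv_rhs => rw [← Q.isPart.sum_eq, qOp, Finset.smul_sum, ← Finset.sum_add_distrib]
  refine Finset.sum_congr rfl fun j _ => ?_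
  rw [← add_smul]
  by_cases h : (c j).val = 0
  · have h' : c j = ⟨0, hr⟩ := Fin.ext h
    rw [if_pos h']
    simp [qc, h]
  · have h' : c j ≠ ⟨0, hr⟩ := fun e => h (by rw [e])
    rw [if_neg h']
    simp [qc, h]

end Q

/-- A random family of operators. -/
abbrev Fam (A : VonNeumannAlgebra H) (r : ℕ) :=
  (Q : Part A (1 : H →L[ℂ] H)) → (Fin Q.n → Fin r) → H →L[ℂ] H

/-- Combinations of `m₁ q ⋯ m_l q b` with centred `m_i`. -/
inductive InV (M A : VonNeumannAlgebra H) (φ : (H →L[ℂ] H) →ₗ[ℂ] ℂ) (r : ℕ) : Fam A r → Prop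
  | base {b : H →L[ℂ] H} : b ∈ M → InV M A φ r fun _ _ => b
  | step {m : H →L[ℂ] H} {f : Fam A r} : m ∈ M → expE A φ m = 0 → InV M A φ r f →
      InV M A φ r fun Q c => m * qOp Q c * f Q c
  | add {f g : Fam A r} : InV M A φ r f → InV M A φ r g → InV M A φ r fun Q c => f Q c + g Q c
  | smul {f : Fam A r} (s : ℂ) : InV M A φ r f → InV M A φ r fun Q c => s • f Q c

/-- `f + q g`. -/
def InW (M A : VonNeumannAlgebra H) (φ : (H →L[ℂ] H) →ₗ[ℂ] ℂ) (r : ℕ) (w : Fam A r) : Prop :=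
  ∃ f g : Fam A r, InV M A φ r f ∧ InV M A φ r g ∧ ∀ Q c, w Q c = f Q c + qOp Q c * g Q c

/-- Mean of `φ (f* q g)`. -/
noncomputable def orth (φ : (H →L[ℂ] H) →ₗ[ℂ] ℂ) (f g : Fam A r) (Q : Part A (1 : H →L[ℂ] H)) : ℂ :=
  avC fun c : Fin Q.n → Fin r => φ (star (f Q c) * qOp Q c * g Q c)

/-- Mean of `φ (f* f)`. -/
noncomputable def msq (φ : (H →L[ℂ] H) →ₗ[ℂ] ℂ) (f : Fam A r) (Q : Part A (1 : H →L[ℂ] H)) : ℝ :=
  av fun c : Fin Q.n → Fin r => sq φ (f Q c)

theorem av_add {α : Type*} [Fintype α] (f g : α → ℝ) : av (fun x => f x + g x) = av f + av g := by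
  simp [av, Finset.sum_add_distrib, add_div]

theorem avC_add {α : Type*} [Fintype α] (f g : α → ℂ) :
    avC (fun x => f x + g x) = avC f + avC g := by
  simp [avC, Finset.sum_add_distrib, add_div]

theorem avC_re {α : Type*} [Fintype α] (f : α → ℂ) : (avC f).re = av fun x => (f x).re := by
  simp only [avC, av, Complex.div_natCast_re, Complex.re_sum]

theorem step_arith {a b Y Nf Nqg Ng NF NG N1 Nw rF rf eFF eff egg efg : ℝ} (ha : 0 ≤ a)
    (ha1 : a ≤ 1) (hY : 0 ≤ Y) (hNf : 0 ≤ Nf) (hNqg : 0 ≤ Nqg)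
    (n1 : N1 ≤ 2 * (a * NF + b * rF) + 2 * (a ^ 2 * NG))
    (nF : NF ≤ 2 * (Y * (a * Nf + b * rf)) + 2 * (Y * Nqg))
    (nG : NG ≤ Y * Ng) (hF : b * rF ≤ eFF) (hf : b * rf ≤ eff) (hg : a * Ng ≤ Nqg + egg)
    (h1 : 0 ≤ eFF) (h2 : 0 ≤ eff) (h3 : 0 ≤ egg) (h4 : 0 ≤ efg)
    (hw : Nf + Nqg ≤ Nw + 2 * efg) :
    N1 ≤ 6 * (a * Y) * Nw + (2 + 16 * Y) * (eFF + eff + egg + efg) := by
  have haY : 0 ≤ a * Y := mul_nonneg ha hY
  have e1 : a * NF ≤ 2 * (a * Y) * (a * Nf + eff) + 2 * (a * Y) * Nqg := by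
    have := mul_le_mul_of_nonneg_left nF ha
    have := mul_le_mul_of_nonneg_left hf haY
    linarith
  have e2 : a ^ 2 * NG ≤ a * Y * (Nqg + egg) := by
    have := mul_le_mul_of_nonneg_left nG (sq_nonneg a)
    have := mul_le_mul_of_nonneg_left hg haY
    linarith
  have e3 : 6 * (a * Y) * (Nf + Nqg) ≤ 6 * (a * Y) * (Nw + 2 * efg) :=
    mul_le_mul_of_nonneg_left hw (by linarith)
  have e4 : a * Y * (a * Nf) ≤ a * Y * Nf :=
    mul_le_mul_of_nonneg_left (mul_le_of_le_one_left hNf ha1) haY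
  have e5 : a * Y * eff ≤ Y * eff := mul_le_mul_of_nonneg_right (mul_le_of_le_one_left hY ha1) h2
  have e6 : a * Y * egg ≤ Y * egg := mul_le_mul_of_nonneg_right (mul_le_of_le_one_left hY ha1) h3
  have e7 : a * Y * efg ≤ Y * efg := mul_le_mul_of_nonneg_right (mul_le_of_le_one_left hY ha1) h4
  nlinarith [mul_nonneg haY hNf, mul_nonneg hY h1, mul_nonneg hY h2, mul_nonneg hY h3,
    mul_nonneg hY h4]

theorem final_arith {a t Y Nw N1 N2 N3 N4 T η err : ℝ} (hat : a ≤ t) (ht : 0 ≤ t) (ht1 : t ≤ 1)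
    (hY : 0 ≤ Y) (hNw : 0 ≤ Nw) (n1 : N1 ≤ 6 * (a * Y) * Nw + (2 + 16 * Y) * err)
    (n2 : N2 ≤ t ^ 2 * (Y * Nw)) (n3 : N3 ≤ t ^ 2 * (Y * Nw)) (n4 : N4 ≤ t ^ 2 * (Y * Nw))
    (total : T ≤ 4 * N1 + 4 * N2 + (4 * N3 + 4 * N4)) (herr : err * (8 + 64 * Y) ≤ η) :
    T ≤ 36 * t * Y * Nw + η := by
  have hYw : 0 ≤ Y * Nw := mul_nonneg hY hNw
  have e1 := mul_le_mul_of_nonneg_right hat hYw
  have e2 := mul_le_mul_of_nonneg_right (show t ^ 2 ≤ t by nlinarith) hYw
  nlinarith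

namespace IsCState

theorem qOp_mem (hφ : IsCState M A φ) (Q : Part A (1 : H →L[ℂ] H)) (c : Fin Q.n → Fin r) :
    qOp Q c ∈ M := hφ.masa.le _ (qOp_memA Q c)

theorem inV_mem (hφ : IsCState M A φ) {f : Fam A r} (h : InV M A φ r f) :
    ∀ Q c, f Q c ∈ M := by
  induction h with
  | base hb => exact fun _ _ => hb
  | step hm _ _ ih => exact fun Q c => mul_mem (mul_mem hm (hφ.qOp_mem Q c)) (ih Q c)
  | add _ _ i1 i2 => exact fun Q c => add_mem (i1 Q c) (i2 Q c)
  | smul s _ ih => exact fun Q c => smul_mem' M (ih Q c) s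

theorem inW_mem (hφ : IsCState M A φ) {w : Fam A r} (h : InW M A φ r w) :
    ∀ Q c, w Q c ∈ M := by
  obtain ⟨f, g, hf, hg, e⟩ := h
  intro Q c
  rw [e]
  exact add_mem (hφ.inV_mem hf Q c) (mul_mem (hφ.qOp_mem Q c) (hφ.inV_mem hg Q c))

theorem word_q_small (hφ : IsCState M A φ) (hr : 0 < r)
    (hD : ∀ m ∈ M, expE A φ m = 0 → Diffuse A φ m) {g : Fam A r} (hg : InV M A φ r g) :
    ∀ (l : ℕ) (m : ℕ → H →L[ℂ] H), (∀ x, m x ∈ M) →
      (∀ x, 0 < x → x ≤ l → expE A φ (m x) = 0) →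
      Tendsto (fun Q => avC fun c : Fin Q.n → Fin r =>
        φ (pw l (fun _ => qOp Q c) m * qOp Q c * g Q c)) (refF A) (𝓝 0) := by
  induction hg with
  | @base b hb =>
    intro l m hm hm0
    refine Metric.tendsto_nhds.2 fun η hη => ?_
    set m' : ℕ → H →L[ℂ] H := fun x => if x ≤ l then m x else b with hm'
    filter_upwards [hφ.word_small (r := r) (l := l + 1) hr (by omega) (m := m')
      (fun x => by simp only [hm']; split_ifs; exacts [hm x, hb])
      (fun x h0 h1 => by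
        have hx : x ≤ l := by omega
        simp only [hm', if_pos hx]
        exact hD _ (hm x) (hm0 x h0 hx)) (half_pos hη)] with Q hQ
    rw [dist_zero_right]
    refine lt_of_le_of_lt (le_of_eq_of_le ?_ hQ) (half_lt_self hη)
    congr 2
    funext c
    rw [pw_succ_right, pw_congr l _ m' m fun x hx => if_pos hx]
    simp [hm']
  | @step m'' g hm'' h0 _ ih =>
    intro l m hm hm0
    set m' : ℕ → H →L[ℂ] H := fun x => if x ≤ l then m x else m'' with hm'
    refine (ih (l + 1) m' (fun x => by simp only [hm']; split_ifs; exacts [hm x, hm''])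
      (fun x hx0 hx => by
        simp only [hm']
        split_ifs with h
        exacts [hm0 x hx0 h, h0])).congr fun Q => ?_
    congr 1
    funext c
    rw [pw_succ_right, pw_congr l _ m' m fun x hx => if_pos hx]
    simp [hm', mul_assoc]
  | add _ _ i1 i2 =>
    intro l m hm hm0
    simpa [mul_add, avC_add] using (i1 l m hm hm0).add (i2 l m hm hm0)
  | smul s _ ih =>
    intro l m hm hm0
    have := (ih l m hm hm0).const_mul s
    rw [mul_zero] at this
    refine this.congr fun Q => ?_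
    simp [avC, ← Finset.mul_sum, mul_div_assoc]

theorem orth_small (hφ : IsCState M A φ) (hr : 0 < r)
    (hD : ∀ m ∈ M, expE A φ m = 0 → Diffuse A φ m) {f : Fam A r} (hf : InV M A φ r f) :
    ∀ g : Fam A r, InV M A φ r g → Tendsto (orth φ f g) (refF A) (𝓝 0) := by
  induction hf with
  | @base b hb =>
    intro g hg
    exact hφ.word_q_small hr hD hg 0 (fun _ => star b) (fun _ => star_mem hb)
      (fun x h0 h => absurd h (by omega))
  | @step m f hm h0 _ ih =>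
    intro g hg
    refine (ih _ (InV.step (star_mem hm) (by rw [hφ.expE_star hm, h0, star_zero]) hg)).congr
      fun Q => ?_
    unfold orth
    congr 1
    funext c
    simp only [star_mul, star_qOp, mul_assoc]
  | add _ _ i1 i2 =>
    intro g hg
    refine Tendsto.congr (fun Q => ?_) (by simpa using (i1 g hg).add (i2 g hg))
    simp [orth, add_mul, avC_add]
  | smul s _ ih =>
    intro g hg
    have := (ih g hg).const_mul (starRingEnd ℂ s)
    rw [mul_zero] at this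
    refine this.congr fun Q => ?_
    simp [orth, avC, ← Finset.mul_sum, mul_div_assoc]

theorem inV_mul_A (hφ : IsCState M A φ) {a : H →L[ℂ] H} (ha : a ∈ A) {f : Fam A r}
    (hf : InV M A φ r f) : InV M A φ r fun Q c => a * f Q c := by
  induction hf with
  | base hb => exact InV.base (mul_mem (hφ.masa.le a ha) hb)
  | @step m f hm h0 hf' _ =>
    have := InV.step (mul_mem (hφ.masa.le a ha) hm)
      (by rw [hφ.expE_mul_left ha hm, h0, mul_zero]) hf'
    simpa only [mul_assoc] using this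
  | add _ _ i1 i2 => simpa only [mul_add] using i1.add i2
  | smul s _ ih => simpa only [mul_smul_comm] using ih.smul s

theorem inW_add {w w' : Fam A r} (h : InW M A φ r w)
    (h' : InW M A φ r w') : InW M A φ r fun Q c => w Q c + w' Q c := by
  obtain ⟨f, g, hf, hg, e⟩ := h
  obtain ⟨f', g', hf', hg', e'⟩ := h'
  exact ⟨_, _, hf.add hf', hg.add hg', fun Q c => by simp only [e, e', mul_add]; abel⟩

theorem inW_smul {w : Fam A r} (h : InW M A φ r w) (s : ℂ) :
    InW M A φ r fun Q c => s • w Q c := by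
  obtain ⟨f, g, hf, hg, e⟩ := h
  exact ⟨_, _, hf.smul s, hg.smul s, fun Q c => by simp only [e, smul_add, mul_smul_comm]⟩

theorem inW_q {w : Fam A r} (h : InW M A φ r w) :
    InW M A φ r fun Q c => qOp Q c * w Q c := by
  obtain ⟨f, g, hf, hg, e⟩ := h
  refine ⟨_, _, hg.smul (ca r : ℂ), hf.add (hg.smul (cb r : ℂ)), fun Q c => ?_⟩
  simp only [e]
  rw [mul_add, ← mul_assoc, qOp_sq, add_mul, smul_mul_assoc, one_mul, mul_add, smul_mul_assoc,
    mul_smul_comm]
  abel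

theorem inW_left (hφ : IsCState M A φ) {f : Fam A r} (hf : InV M A φ r f) :
    ∀ y ∈ M, InW M A φ r fun Q c => y * f Q c := by
  induction hf with
  | @base b hb =>
    exact fun y hy => ⟨_, _, InV.base (mul_mem hy hb), InV.base (zero_mem M), fun Q c => by simp⟩
  | @step m f hm h0 hf' _ =>
    intro y hy
    have hym := mul_mem hy hm
    refine ⟨_, _, InV.step (sub_mem hym (hφ.expE_memM hym))
      (by rw [hφ.expE_sub hym (hφ.expE_memM hym), hφ.expE_of_mem (hφ.expE_mem hym), sub_self]) hf',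
      hφ.inV_mul_A (hφ.expE_mem hym) hf', fun Q c => ?_⟩
    rw [← mul_assoc (qOp Q c), (hφ.masa.comm _ (qOp_memA Q c) _ (hφ.expE_mem hym)).eq,
      sub_mul, sub_mul, sub_add_cancel]
    simp only [mul_assoc]
  | add _ _ i1 i2 => exact fun y hy => by simpa only [mul_add] using inW_add (i1 y hy) (i2 y hy)
  | smul s _ ih => exact fun y hy => by simpa only [mul_smul_comm] using inW_smul (ih y hy) s

theorem inW_mul (hφ : IsCState M A φ) {w : Fam A r} (h : InW M A φ r w) {y : H →L[ℂ] H}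
    (hy : y ∈ M) (h0 : expE A φ y = 0) : InW M A φ r fun Q c => y * w Q c := by
  obtain ⟨f, g, hf, hg, e⟩ := h
  have h1 : InW M A φ r fun Q c => y * qOp Q c * g Q c :=
    ⟨_, _, InV.step hy h0 hg, InV.base (zero_mem M), fun Q c => by simp⟩
  simpa only [e, mul_add, mul_assoc] using inW_add (hφ.inW_left hf y hy) h1

theorem msq_nonneg (hφ : IsCState M A φ) {f : Fam A r} (hf : ∀ Q c, f Q c ∈ M)
    (Q : Part A (1 : H →L[ℂ] H)) : 0 ≤ msq φ f Q :=
  av_nonneg fun c => hφ.sq_nonneg' (hf Q c)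

theorem msq_mul_le (hφ : IsCState M A φ) {x f : Fam A r} (hx : ∀ Q c, x Q c ∈ M)
    (hf : ∀ Q c, f Q c ∈ M) {C : ℝ} (hC : ∀ Q c, ‖x Q c‖ ^ 2 ≤ C)
    (Q : Part A (1 : H →L[ℂ] H)) : msq φ (fun Q c => x Q c * f Q c) Q ≤ C * msq φ f Q := by
  rw [msq, msq, mul_comm C, ← av_mul_const]
  refine av_mono fun c => (hφ.sq_mul_left (hx Q c) (hf Q c)).trans ?_
  rw [mul_comm (sq φ (f Q c))]
  exact mul_le_mul_of_nonneg_right (hC Q c) (hφ.sq_nonneg' (hf Q c))

theorem msq_add_le (hφ : IsCState M A φ) {f g : Fam A r} (hf : ∀ Q c, f Q c ∈ M)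
    (hg : ∀ Q c, g Q c ∈ M) (Q : Part A (1 : H →L[ℂ] H)) :
    msq φ (fun Q c => f Q c + g Q c) Q ≤ 2 * msq φ f Q + 2 * msq φ g Q := by
  rw [msq, msq, msq, mul_comm 2, mul_comm 2, ← av_mul_const, ← av_mul_const, ← av_add]
  exact av_mono fun c => by linarith [hφ.sq_add_le (hf Q c) (hg Q c)]

theorem msq_smul (φ : (H →L[ℂ] H) →ₗ[ℂ] ℂ) (s : ℂ) (f : Fam A r) (Q : Part A (1 : H →L[ℂ] H)) :
    msq φ (fun Q c => s • f Q c) Q = ‖s‖ ^ 2 * msq φ f Q := by
  rw [msq, msq, mul_comm, ← av_mul_const]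
  simp only [sq_smul, mul_comm]

theorem msq_q (hφ : IsCState M A φ) {f : Fam A r} (hf : ∀ Q c, f Q c ∈ M)
    (Q : Part A (1 : H →L[ℂ] H)) :
    msq φ (fun Q c => qOp Q c * f Q c) Q = ca r * msq φ f Q + cb r * (orth φ f f Q).re := by
  rw [msq, msq, orth, avC_re, mul_comm (ca r), mul_comm (cb r), ← av_mul_const, ← av_mul_const,
    ← av_add]
  congr 1
  funext c
  have e : star (qOp Q c * f Q c) * (qOp Q c * f Q c) =
      (ca r : ℂ) • (star (f Q c) * f Q c) + (cb r : ℂ) • (star (f Q c) * qOp Q c * f Q c) := by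
    rw [star_mul, star_qOp, show star (f Q c) * qOp Q c * (qOp Q c * f Q c) =
      star (f Q c) * (qOp Q c * qOp Q c) * f Q c by simp only [mul_assoc], qOp_sq, mul_add,
      add_mul, mul_smul_comm, mul_one, smul_mul_assoc, mul_smul_comm, smul_mul_assoc]
  simp only [sq, e, map_add, map_smul, Complex.add_re, smul_eq_mul, Complex.re_ofReal_mul]
  ring

theorem msq_split (hφ : IsCState M A φ) {f g : Fam A r} (hf : ∀ Q c, f Q c ∈ M)
    (hg : ∀ Q c, g Q c ∈ M) (Q : Part A (1 : H →L[ℂ] H)) :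
    msq φ (fun Q c => f Q c + qOp Q c * g Q c) Q =
      msq φ f Q + msq φ (fun Q c => qOp Q c * g Q c) Q + 2 * (orth φ f g Q).re := by
  rw [msq, msq, msq, orth, avC_re, mul_comm 2, ← av_mul_const, ← av_add, ← av_add]
  congr 1
  funext c
  have h := hφ.sq_add_smul (hf Q c) (mul_mem (hφ.qOp_mem Q c) (hg Q c)) 1
  simp only [one_smul, one_mul, map_one] at h
  rw [h, mul_assoc]
  ring

/-- The compression of `y` by a random colour. -/
theorem step_bound (hφ : IsCState M A φ) (hr : 0 < r)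
    (hD : ∀ m ∈ M, expE A φ m = 0 → Diffuse A φ m) {y : H →L[ℂ] H} (hy : y ∈ M)
    (h0 : expE A φ y = 0) {w : Fam A r} (hw : InW M A φ r w) :
    InW M A φ r (fun Q c => colP Q c ⟨0, hr⟩ * y * colP Q c ⟨0, hr⟩ * w Q c) ∧
      ∀ η : ℝ, 0 < η → ∀ᶠ Q in refF A,
        msq φ (fun Q c => colP Q c ⟨0, hr⟩ * y * colP Q c ⟨0, hr⟩ * w Q c) Q ≤
          36 * (r : ℝ)⁻¹ * ‖y‖ ^ 2 * msq φ w Q + η := by
  obtain ⟨ha0, hat, hb, ht0, ht1⟩ := coef_bounds hr
  set t : ℂ := (((r : ℝ)⁻¹ : ℝ) : ℂ) with ht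
  have htn : ‖t‖ = (r : ℝ)⁻¹ := by rw [ht, Complex.norm_real, Real.norm_of_nonneg ht0.le]
  set T1 : Fam A r := fun Q c => qOp Q c * (y * (qOp Q c * w Q c))
  set T2 : Fam A r := fun Q c => t • (qOp Q c * (y * w Q c))
  set T3 : Fam A r := fun Q c => t • (y * (qOp Q c * w Q c))
  set T4 : Fam A r := fun Q c => (t * t) • (y * w Q c)
  have hexp : (fun Q c => colP Q c ⟨0, hr⟩ * y * colP Q c ⟨0, hr⟩ * w Q c) =
      fun Q c => T1 Q c + T2 Q c + (T3 Q c + T4 Q c) := by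
    funext Q c
    rw [colP_zero]
    simp only [T1, T2, T3, T4, ← ht, add_mul, mul_add, smul_mul_assoc, mul_smul_comm, one_mul,
      mul_one, smul_smul, smul_add, mul_assoc]
    abel
  have i1 : InW M A φ r T1 := inW_q (hφ.inW_mul (inW_q hw) hy h0)
  have i2 : InW M A φ r T2 := inW_smul (inW_q (hφ.inW_mul hw hy h0)) t
  have i3 : InW M A φ r T3 := inW_smul (hφ.inW_mul (inW_q hw) hy h0) t
  have i4 : InW M A φ r T4 := inW_smul (hφ.inW_mul hw hy h0) (t * t)
  rw [hexp]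
  refine ⟨inW_add (inW_add i1 i2) (inW_add i3 i4), fun η hη => ?_⟩
  have mw := hφ.inW_mem hw
  obtain ⟨f, g, hf, hg, e⟩ := hw
  have mf := hφ.inV_mem hf
  have mg := hφ.inV_mem hg
  set F : Fam A r := fun Q c => y * qOp Q c * f Q c + (cb r : ℂ) • (y * qOp Q c * g Q c)
  have hF : InV M A φ r F := (InV.step hy h0 hf).add ((InV.step hy h0 hg).smul _)
  have mF := hφ.inV_mem hF
  set err : Part A (1 : H →L[ℂ] H) → ℝ := fun Q =>
    ‖orth φ F F Q‖ + ‖orth φ f f Q‖ + ‖orth φ g g Q‖ + ‖orth φ f g Q‖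
  have herr : Tendsto err (refF A) (𝓝 0) := by
    simpa using ((((hφ.orth_small hr hD hF _ hF).norm.add
      (hφ.orth_small hr hD hf _ hf).norm).add
      (hφ.orth_small hr hD hg _ hg).norm).add (hφ.orth_small hr hD hf _ hg).norm)
  have hY : 0 ≤ ‖y‖ ^ 2 := sq_nonneg _
  set K := 8 + 64 * ‖y‖ ^ 2
  have hK : 0 < K := by positivity
  filter_upwards [herr.eventually (eventually_le_nhds (div_pos hη hK))] with Q hQ
  rw [le_div_iff₀ hK] at hQ
  have hre : ∀ (u v : Fam A r), |(orth φ u v Q).re| ≤ ‖orth φ u v Q‖ := fun u v =>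
    Complex.abs_re_le_norm _
  have hqn : ∀ (Q' : Part A (1 : H →L[ℂ] H)) (c : Fin Q'.n → Fin r),
      ‖qOp Q' c‖ ^ 2 ≤ (1 : ℝ) := fun Q' c =>
    pow_le_one₀ (norm_nonneg _) (norm_qOp_le Q' c hr)
  have hqm : ∀ (Q' : Part A (1 : H →L[ℂ] H)) (c : Fin Q'.n → Fin r), qOp Q' c ∈ M := hφ.qOp_mem
  have hym : ∀ (Q' : Part A (1 : H →L[ℂ] H)) (_ : Fin Q'.n → Fin r), y ∈ M := fun _ _ => hy
  have hyn : ∀ (Q' : Part A (1 : H →L[ℂ] H)) (_ : Fin Q'.n → Fin r), ‖y‖ ^ 2 ≤ ‖y‖ ^ 2 :=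
    fun _ _ => le_rfl
  have hbb : ‖(cb r : ℂ)‖ ^ 2 ≤ 1 := by
    rw [Complex.norm_real, Real.norm_eq_abs]; exact pow_le_one₀ (abs_nonneg _) hb
  have Nw : msq φ w Q = msq φ f Q + msq φ (fun Q c => qOp Q c * g Q c) Q +
      2 * (orth φ f g Q).re := by
    rw [← hφ.msq_split mf mg Q]
    simp only [msq, e]
  have mqf : ∀ Q' c, qOp Q' c * f Q' c ∈ M := fun Q' c => mul_mem (hqm Q' c) (mf Q' c)
  have mqg : ∀ Q' c, qOp Q' c * g Q' c ∈ M := fun Q' c => mul_mem (hqm Q' c) (mg Q' c)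
  have mqw : ∀ Q' c, qOp Q' c * w Q' c ∈ M := fun Q' c => mul_mem (hqm Q' c) (mw Q' c)
  have myw : ∀ Q' c, y * w Q' c ∈ M := fun Q' c => mul_mem hy (mw Q' c)
  have nF : msq φ F Q ≤ 2 * (‖y‖ ^ 2 * msq φ (fun Q c => qOp Q c * f Q c) Q) +
      2 * (‖y‖ ^ 2 * msq φ (fun Q c => qOp Q c * g Q c) Q) := by
    refine (hφ.msq_add_le (fun Q c => mul_mem (mul_mem hy (hqm Q c)) (mf Q c))
      (fun Q c => smul_mem' M (mul_mem (mul_mem hy (hqm Q c)) (mg Q c)) _) Q).trans ?_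
    rw [msq_smul]
    refine add_le_add (mul_le_mul_of_nonneg_left ?_ zero_le_two)
      (mul_le_mul_of_nonneg_left ((mul_le_of_le_one_left (hφ.msq_nonneg
        (fun Q c => mul_mem (mul_mem hy (hqm Q c)) (mg Q c)) Q) hbb).trans ?_) zero_le_two)
    · simpa only [mul_assoc] using hφ.msq_mul_le hym mqf hyn Q
    · simpa only [mul_assoc] using hφ.msq_mul_le hym mqg hyn Q
  have nG : msq φ (fun Q c => qOp Q c * (y * g Q c)) Q ≤ ‖y‖ ^ 2 * msq φ g Q := by
    refine (hφ.msq_mul_le hqm (fun Q c => mul_mem hy (mg Q c)) hqn Q).trans ?_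
    rw [one_mul]
    exact hφ.msq_mul_le hym mg hyn Q
  have eT1 : T1 = fun Q c => qOp Q c * F Q c + (ca r : ℂ) • (qOp Q c * (y * g Q c)) := by
    funext Q c
    simp only [T1, F, e, mul_add, ← mul_assoc (qOp Q c) (qOp Q c) (g Q c), qOp_sq, add_mul,
      smul_mul_assoc, mul_smul_comm, one_mul, smul_add, mul_assoc]
    abel
  have n1 : msq φ T1 Q ≤ 2 * msq φ (fun Q c => qOp Q c * F Q c) Q +
      2 * (ca r ^ 2 * msq φ (fun Q c => qOp Q c * (y * g Q c)) Q) := by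
    rw [eT1]
    refine (hφ.msq_add_le (fun Q c => mul_mem (hqm Q c) (mF Q c))
      (fun Q c => smul_mem' M (mul_mem (hqm Q c) (mul_mem hy (mg Q c))) _) Q).trans (le_of_eq ?_)
    rw [msq_smul, Complex.norm_real, Real.norm_of_nonneg ha0]
  have n2 : msq φ T2 Q ≤ (r : ℝ)⁻¹ ^ 2 * (‖y‖ ^ 2 * msq φ w Q) := by
    rw [msq_smul, htn]
    refine mul_le_mul_of_nonneg_left ((hφ.msq_mul_le hqm myw hqn Q).trans ?_) (sq_nonneg _)
    rw [one_mul]
    exact hφ.msq_mul_le hym mw hyn Q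
  have n3 : msq φ T3 Q ≤ (r : ℝ)⁻¹ ^ 2 * (‖y‖ ^ 2 * msq φ w Q) := by
    rw [msq_smul, htn]
    refine mul_le_mul_of_nonneg_left ((hφ.msq_mul_le hym mqw hyn Q).trans ?_) (sq_nonneg _)
    refine mul_le_mul_of_nonneg_left ?_ hY
    simpa only [one_mul] using hφ.msq_mul_le hqm mw hqn Q
  have n4 : msq φ T4 Q ≤ (r : ℝ)⁻¹ ^ 2 * (‖y‖ ^ 2 * msq φ w Q) := by
    rw [msq_smul, norm_mul, htn]
    refine mul_le_mul ?_ (hφ.msq_mul_le hym mw hyn Q) (hφ.msq_nonneg myw Q) (sq_nonneg _)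
    exact pow_le_pow_left₀ (by positivity) (mul_le_of_le_one_left ht0.le ht1) 2
  have total : msq φ (fun Q c => T1 Q c + T2 Q c + (T3 Q c + T4 Q c)) Q ≤
      4 * msq φ T1 Q + 4 * msq φ T2 Q + (4 * msq φ T3 Q + 4 * msq φ T4 Q) := by
    have m1 := hφ.inW_mem i1
    have m2 := hφ.inW_mem i2
    have m3 := hφ.inW_mem i3
    have m4 := hφ.inW_mem i4
    linarith [hφ.msq_add_le (fun Q c => add_mem (m1 Q c) (m2 Q c))
      (fun Q c => add_mem (m3 Q c) (m4 Q c)) Q, hφ.msq_add_le m1 m2 Q, hφ.msq_add_le m3 m4 Q]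
  rw [hφ.msq_q mF] at n1
  rw [hφ.msq_q mf] at nF
  have hqg := hφ.msq_q mg Q
  have hNf := hφ.msq_nonneg mf Q
  have hNg := hφ.msq_nonneg mg Q
  have hNw := hφ.msq_nonneg mw Q
  have hNqg := hφ.msq_nonneg mqg Q
  have hprod : ∀ u v : Fam A r, cb r * (orth φ u v Q).re ≤ ‖orth φ u v Q‖ ∧
      -(cb r * (orth φ u v Q).re) ≤ ‖orth φ u v Q‖ := fun u v => by
    have h := (abs_mul _ _).trans_le
      (mul_le_mul hb (hre u v) (abs_nonneg _) zero_le_one)
    rw [one_mul, abs_le] at h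
    constructor <;> linarith
  obtain ⟨hFF, -⟩ := hprod F F
  obtain ⟨hff, -⟩ := hprod f f
  obtain ⟨-, hgg⟩ := hprod g g
  obtain ⟨hfg, -⟩ := abs_le.1 (hre f g)
  have n1' := step_arith ha0 (hat.trans ht1) hY hNf hNqg
    (eFF := ‖orth φ F F Q‖) (efg := ‖orth φ f g Q‖)
    n1 nF nG hFF hff (by linarith : ca r * msq φ g Q ≤
      msq φ (fun Q c => qOp Q c * g Q c) Q + ‖orth φ g g Q‖) (norm_nonneg _) (norm_nonneg _)
    (norm_nonneg _) (norm_nonneg _)
    (by linarith : msq φ f Q + msq φ (fun Q c => qOp Q c * g Q c) Q ≤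
      msq φ w Q + 2 * ‖orth φ f g Q‖)
  exact final_arith hat ht0.le ht1 hY hNw n1' n2 n3 n4 total hQ

theorem pow_bound (hφ : IsCState M A φ) (hr : 0 < r)
    (hD : ∀ m ∈ M, expE A φ m = 0 → Diffuse A φ m) {y : H →L[ℂ] H} (hy : y ∈ M)
    (h0 : expE A φ y = 0) (n : ℕ) :
    InW M A φ r (fun Q c => (colP Q c ⟨0, hr⟩ * y * colP Q c ⟨0, hr⟩) ^ n * colP Q c ⟨0, hr⟩) ∧
      ∀ η : ℝ, 0 < η → ∀ᶠ Q in refF A,
        msq φ (fun Q c => (colP Q c ⟨0, hr⟩ * y * colP Q c ⟨0, hr⟩) ^ n * colP Q c ⟨0, hr⟩) Q ≤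
          (36 * (r : ℝ)⁻¹ * ‖y‖ ^ 2) ^ n * ((r : ℝ)⁻¹ * (φ 1).re) + η := by
  obtain ⟨ha0, hat, hb, ht0, ht1⟩ := coef_bounds hr
  induction n with
  | zero =>
    simp only [pow_zero, one_mul]
    have hV1 : InV M A φ r (fun _ _ => (((r : ℝ)⁻¹ : ℝ) : ℂ) • (1 : H →L[ℂ] H)) :=
      (InV.base (one_mem M)).smul _
    have hone : InV M A φ r (fun _ _ => (1 : H →L[ℂ] H)) := InV.base (one_mem M)
    refine ⟨⟨_, _, hV1, hone, fun Q c => by simp only [colP_zero, mul_one, add_comm]⟩, fun η hη => ?_⟩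
    have hlim : Tendsto (fun Q => |(orth φ (fun (_ : Part A (1 : H →L[ℂ] H)) _ => (1 : H →L[ℂ] H))
        (fun _ _ => 1) Q (r := r)).re|) (refF A) (𝓝 0) := by
      have := ((Complex.continuous_re.tendsto _).comp (hφ.orth_small hr hD hone _ hone)).abs
      simpa using this
    filter_upwards [hlim.eventually (eventually_le_nhds hη)] with Q hQ
    haveI : Nonempty (Fin r) := ⟨⟨0, hr⟩⟩
    refine le_trans (le_of_eq ?_) (add_le_add le_rfl ((le_abs_self _).trans hQ))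
    rw [msq, orth, avC_re]
    have e : ∀ c : Fin Q.n → Fin r, sq φ (colP Q c ⟨0, hr⟩) =
        (r : ℝ)⁻¹ * (φ 1).re + (φ (star (1 : H →L[ℂ] H) * qOp Q c * 1)).re := by
      intro c
      have hp := (isPart_colP Q c).proj ⟨0, hr⟩
      rw [sq, hp.isSelfAdjoint.star_eq, hp.isIdempotentElem.eq, colP_zero, map_add, map_smul,
        star_one, one_mul, mul_one, Complex.add_re, smul_eq_mul, Complex.re_ofReal_mul]
      ring
    simp only [e, av_add, av_const]
  | succ n ih =>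
    obtain ⟨hW, hb'⟩ := ih
    obtain ⟨hW', hstep⟩ := hφ.step_bound hr hD hy h0 hW
    simp only [pow_succ' (_ : H →L[ℂ] H), mul_assoc] at hW' hstep ⊢
    refine ⟨hW', fun η hη => ?_⟩
    set K := 36 * ((r : ℝ)⁻¹ * ‖y‖ ^ 2) + 1 with hK
    have hK0 : 0 < K := by positivity
    filter_upwards [hstep (η / 2) (half_pos hη), hb' (η / (2 * K)) (by positivity)] with Q h1 h2
    refine h1.trans ?_
    simp only [mul_assoc] at h2
    have h3 : (K - 1) * (η / (2 * K)) ≤ η / 2 := by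
      rw [← mul_div_assoc, div_le_iff₀ (by positivity)]; nlinarith
    have h4 := mul_le_mul_of_nonneg_left h2
      (show (0 : ℝ) ≤ 36 * ((r : ℝ)⁻¹ * ‖y‖ ^ 2) by positivity)
    rw [hK, add_sub_cancel_right] at h3
    rw [hK] at h4
    rw [pow_succ' (36 * ((r : ℝ)⁻¹ * ‖y‖ ^ 2)) n]
    nlinarith [h3, h4]

theorem sq_sum_orth (hφ : IsCState M A φ) {ι : Type*} [Fintype ι] {Z : ι → H →L[ℂ] H}
    (h : ∀ i j, i ≠ j → star (Z i) * Z j = 0) : sq φ (∑ i, Z i) = ∑ i, sq φ (Z i) := by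
  simp only [sq, star_sum, Finset.sum_mul, Finset.mul_sum, map_sum, Complex.re_sum]
  exact Finset.sum_congr rfl fun i _ =>
    Finset.sum_eq_single i (fun j _ hj => by rw [h j i hj, map_zero, Complex.zero_re])
      fun hi => absurd (Finset.mem_univ i) hi

/-- A colouring with a small pinching on a large projection. -/
theorem exists_pave (hφ : IsCState M A φ) (hr : 0 < r)
    (hD : ∀ m ∈ M, expE A φ m = 0 → Diffuse A φ m) {y : H →L[ℂ] H} (hy : y ∈ M)
    (hys : IsSelfAdjoint y) (hy2 : ‖y‖ ≤ 2) (h0 : expE A φ y = 0) (F : Finset H) {δ : ℝ}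
    (hδ : 0 < δ) :
    ∃ (p : Fin r → H →L[ℂ] H) (q : H →L[ℂ] H), IsPart A 1 p ∧ q ∈ M ∧ IsStarProjection q ∧
      (∀ v ∈ F, ‖(1 - q) v‖ < δ) ∧ ‖q * pinch p y * q‖ ≤ 15 / √(r : ℝ) := by
  classical
  obtain ⟨ha0, hat, hb, ht0, ht1⟩ := coef_bounds hr
  have hr' : (0 : ℝ) < r := Nat.cast_pos.2 hr
  choose d hd0 hd using fun v : H => hφ.norm_apply_small v 1 hδ
  obtain ⟨d0, hd00, hd0F⟩ := (eventually_mem_nhdsWithin.and ((Filter.eventually_all_finset F).2
    fun v _ => eventually_nhdsWithin_of_eventually_nhds (eventually_le_nhds (half_pos (hd0 v))))).exists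
      (f := 𝓝[>] (0 : ℝ))
  replace hd00 : 0 < d0 := hd00
  have hφ1 : 0 ≤ (φ 1).re := by
    have := hφ.sq_nonneg' (one_mem M)
    simpa [sq] using this
  obtain ⟨m, hm⟩ := exists_pow_lt_of_lt_one
    (div_pos hd00 (show (0 : ℝ) < 2 * ((φ 1).re + 1) by positivity)) (show (16 / 25 : ℝ) < 1 by norm_num)
  set N := 2 ^ m with hN
  have hNm : m ≤ N := (Nat.lt_two_pow_self).le
  set τ := 15 / √(r : ℝ) with hτ
  have hτ0 : 0 < τ := by positivity
  have hτ2 : τ ^ 2 = 225 * (r : ℝ)⁻¹ := by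
    rw [hτ, div_pow, Real.sq_sqrt hr'.le, div_eq_mul_inv]; norm_num
  set P := fun (Q : Part A (1 : H →L[ℂ] H)) (c : Fin Q.n → Fin r) => colP Q c
  obtain ⟨n', hn'⟩ : ∃ n', N = n' + 1 :=
    ⟨N - 1, (Nat.sub_add_cancel (Nat.one_le_two_pow)).symm⟩
  haveI := refF_neBot hφ.masa.comm
  obtain ⟨Q, hQ⟩ := ((hφ.pow_bound hr hD hy h0 N).2 (d0 * (τ ^ 2) ^ N / (2 * r))
    (by positivity)).exists
  have hsym : ∀ i : Fin r, (av fun c : Fin Q.n → Fin r =>
      sq φ ((colP Q c i * y * colP Q c i) ^ N)) =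
      av fun c : Fin Q.n → Fin r =>
        sq φ ((colP Q c ⟨0, hr⟩ * y * colP Q c ⟨0, hr⟩) ^ N * colP Q c ⟨0, hr⟩) := by
    intro i
    have e1 : ∀ c : Fin Q.n → Fin r, colP Q c i =
        colP Q (fun j => Equiv.swap i ⟨0, hr⟩ (c j)) ⟨0, hr⟩ := fun c => by
      refine Finset.sum_congr rfl fun j _ => ?_
      simp only [Equiv.swap_apply_eq_iff, Equiv.swap_apply_right]
    have e2 : ∀ c : Fin Q.n → Fin r,
        (colP Q c ⟨0, hr⟩ * y * colP Q c ⟨0, hr⟩) ^ N * colP Q c ⟨0, hr⟩ =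
          (colP Q c ⟨0, hr⟩ * y * colP Q c ⟨0, hr⟩) ^ N := fun c => by
      rw [hn', pow_succ, mul_assoc, mul_assoc _ (colP Q c ⟨0, hr⟩) (colP Q c ⟨0, hr⟩),
        ((isPart_colP Q c).proj _).isIdempotentElem.eq]
    simp only [e2, e1, av]
    congr 1
    exact (Equiv.piCongrRight fun _ : Fin Q.n => Equiv.swap i (⟨0, hr⟩ : Fin r)).sum_comp
      (fun c => sq φ ((colP Q c ⟨0, hr⟩ * y * colP Q c ⟨0, hr⟩) ^ N))
  have hS : ∀ c : Fin Q.n → Fin r, sq φ (pinch (colP Q c) y ^ N) =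
      ∑ i, sq φ ((colP Q c i * y * colP Q c i) ^ N) := by
    intro c
    have hp := isPart_colP Q c
    set X := fun i => colP Q c i * y * colP Q c i with hX
    have hXX : ∀ i j, i ≠ j → X i * X j = 0 := fun i j h => by
      calc X i * X j = colP Q c i * y * (colP Q c i * colP Q c j) * y * colP Q c j := by
            simp only [hX, mul_assoc]
        _ = 0 := by rw [hp.orth i j h]; simp
    have hpow : ∀ k, (∑ i, X i) ^ (k + 1) = ∑ i, X i ^ (k + 1) := fun k => by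
      induction k with
      | zero => simp
      | succ k ih =>
        rw [pow_succ, ih, Finset.sum_mul]
        refine Finset.sum_congr rfl fun i _ => ?_
        rw [Finset.mul_sum, Finset.sum_eq_single i (fun j _ hj => by
          rw [pow_succ (X i), mul_assoc, hXX i j hj.symm, mul_zero])
          (fun h => absurd (Finset.mem_univ i) h), ← pow_succ]
    have hXs : ∀ i, star (X i) = X i := fun i => by
      simp only [hX, star_mul, (hp.proj i).isSelfAdjoint.star_eq, hys.star_eq, mul_assoc]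
    rw [show pinch (colP Q c) y = ∑ i, X i from rfl, hn', hpow]
    refine hφ.sq_sum_orth fun i j h => ?_
    rw [star_pow, hXs, pow_succ, pow_succ' (X j), mul_assoc, ← mul_assoc (X i), hXX i j h,
      zero_mul, mul_zero]
  have hav : (av fun c : Fin Q.n → Fin r => sq φ (pinch (colP Q c) y ^ N)) ≤
      d0 * (τ ^ 2) ^ N := by
    simp only [hS, av_mul_sum, hsym, Finset.sum_const, Finset.card_univ, Fintype.card_fin,
      nsmul_eq_mul]
    refine (mul_le_mul_of_nonneg_left hQ hr'.le).trans ?_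
    have h1 : (36 * (r : ℝ)⁻¹ * ‖y‖ ^ 2) ^ N ≤ (16 / 25) ^ m * (τ ^ 2) ^ N := by
      calc (36 * (r : ℝ)⁻¹ * ‖y‖ ^ 2) ^ N ≤ (16 / 25 * τ ^ 2) ^ N := by
            refine pow_le_pow_left₀ (by positivity) ?_ N
            rw [hτ2]
            nlinarith [mul_le_mul_of_nonneg_left (pow_le_pow_left₀ (norm_nonneg y) hy2 2) ht0.le]
        _ = (16 / 25) ^ N * (τ ^ 2) ^ N := mul_pow _ _ _
        _ ≤ _ := mul_le_mul_of_nonneg_right
              (pow_le_pow_of_le_one (by norm_num) (by norm_num) hNm) (by positivity)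
    have h2 : (16 / 25 : ℝ) ^ m * (φ 1).re ≤ d0 / 2 := by
      rw [lt_div_iff₀ (by positivity)] at hm
      nlinarith [show (0 : ℝ) ≤ (16 / 25 : ℝ) ^ m by positivity]
    have e : (r : ℝ) * ((36 * (r : ℝ)⁻¹ * ‖y‖ ^ 2) ^ N * ((r : ℝ)⁻¹ * (φ 1).re) +
        d0 * (τ ^ 2) ^ N / (2 * r)) = (36 * (r : ℝ)⁻¹ * ‖y‖ ^ 2) ^ N * (φ 1).re +
          d0 * (τ ^ 2) ^ N / 2 := by field_simp
    rw [e]
    nlinarith [mul_le_mul_of_nonneg_right h1 hφ1,
      mul_le_mul_of_nonneg_right h2 (show (0 : ℝ) ≤ (τ ^ 2) ^ N by positivity)]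
  haveI : Nonempty (Fin r) := ⟨⟨0, hr⟩⟩
  obtain ⟨c, hc⟩ : ∃ c : Fin Q.n → Fin r, sq φ (pinch (colP Q c) y ^ N) ≤ d0 * (τ ^ 2) ^ N := by
    by_contra h
    push Not at h
    refine absurd hav (not_le.2 ?_)
    rw [← av_const (α := Fin Q.n → Fin r) (d0 * (τ ^ 2) ^ N)]
    exact div_lt_div_of_pos_right (Finset.sum_lt_sum_of_nonempty Finset.univ_nonempty fun c _ => h c)
      (Nat.cast_pos.2 Fintype.card_pos)
  have hp := isPart_colP Q c
  set S := pinch (colP Q c) y with hSdef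
  have hSM : S ∈ M := hp.pinch_mem hφ.masa.le hy
  have hSs : IsSelfAdjoint S := by
    rw [IsSelfAdjoint, hSdef, hp.star_pinch, hys.star_eq]
  set T := star (S ^ N) * S ^ N with hT
  have hTM : T ∈ M := mul_mem (star_mem (pow_mem hSM N)) (pow_mem hSM N)
  have hTs : IsSelfAdjoint T := IsSelfAdjoint.star_mul_self _
  have hT0 : 0 ≤ T := star_mul_self_nonneg _
  set q := cut T ((τ ^ 2) ^ N) with hqdef
  have hq := isStarProjection_cut T ((τ ^ 2) ^ N)
  have hqM : q ∈ M := cut_mem M hTM hTs _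
  refine ⟨colP Q c, q, hp, hqM, hq, fun v hv => ?_, ?_⟩
  · have hq1 : IsStarProjection (1 - q) := hq.one_sub
    have hle : 0 ≤ T - (((τ ^ 2) ^ N : ℝ) : ℂ) • (1 - q) := by
      refine nonneg_of_re_inner (hTs.sub (by
        simp only [IsSelfAdjoint, star_smul, hq1.isSelfAdjoint.star_eq, Complex.star_def,
          Complex.conj_ofReal])) fun u => ?_
      have h := norm_sub_cut_sq hTs hT0 (t := (τ ^ 2) ^ N) u
      rw [sub_apply, inner_sub_left, smul_apply, inner_smul_left, Complex.conj_ofReal,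
        Complex.sub_re, Complex.re_ofReal_mul]
      have e := star_proj_apply_norm_sq hq1 u
      simp only [sub_apply, one_apply_eq_self] at e ⊢
      rw [← e]
      rw [← hqdef] at h
      linarith
    have h1 := (Complex.le_def.1 (hφ.map_nonneg
      (sub_mem hTM (smul_mem' M (sub_mem (one_mem M) hqM) _)) hle)).1
    simp only [map_sub, map_smul, Complex.zero_re, Complex.sub_re, smul_eq_mul,
      Complex.re_ofReal_mul] at h1
    have h2 : sq φ (1 - q) ≤ d0 := by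
      rw [sq, hq1.isSelfAdjoint.star_eq, hq1.isIdempotentElem.eq, map_sub, Complex.sub_re]
      refine le_of_mul_le_mul_left ?_ (show 0 < (τ ^ 2) ^ N by positivity)
      have h3 : (φ T).re = sq φ (S ^ N) := rfl
      linarith
    exact hd v (1 - q) (sub_mem (one_mem M) hqM) (opNorm_proj_le_one hq1)
      (lt_of_le_of_lt (h2.trans (hd0F v hv)) (half_lt_self (hd0 v)))
  · have hcS : Commute S T := by
      rw [hT, star_pow, hSs.star_eq]
      exact ((Commute.refl S).pow_right N).mul_right ((Commute.refl S).pow_right N)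
    have hcq : Commute S q := commute_cut hTs hcS _
    have e1 : q * S * q = q * S := by
      rw [mul_assoc, hcq.eq, ← mul_assoc, hq.isIdempotentElem.eq]
    have hsa : IsSelfAdjoint (q * S * q) := by
      have := hSs.conjugate q
      rwa [hq.isSelfAdjoint.star_eq] at this
    have hpw := hsa.nnnorm_pow_two_pow (m + 1)
    rw [← NNReal.coe_inj] at hpw
    simp only [coe_nnnorm, NNReal.coe_pow] at hpw
    have e2 : (q * S * q) ^ 2 ^ (m + 1) = q * T * q := by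
      rw [e1, hcq.symm.mul_pow, hq.isIdempotentElem.pow_eq (pow_ne_zero _ two_ne_zero),
        mul_assoc q T q, (commute_cut_self hTs _).eq, ← mul_assoc, hq.isIdempotentElem.eq, hT,
        star_pow, hSs.star_eq, ← pow_add]
      congr 2
      rw [hN, pow_succ]; omega
    rw [e2] at hpw
    have h3 : ‖q * T * q‖ ≤ (τ ^ 2) ^ N := by
      refine norm_sa_le (by
        have := hTs.conjugate q
        rwa [hq.isSelfAdjoint.star_eq] at this) (by positivity) (fun u => ?_) fun u => ?_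
      · simp only [mul_apply_eq_comp]
        rw [inner_sa hq.isSelfAdjoint]
        exact re_inner_nonneg_of_nonneg hT0 _
      · simp only [mul_apply_eq_comp]
        rw [inner_sa hq.isSelfAdjoint]
        refine (re_inner_le_of_mem_cutSpace hTs (cut_mem_cutSpace T _ u)).trans ?_
        exact mul_le_mul_of_nonneg_left
          (pow_le_pow_left₀ (norm_nonneg _) (norm_proj_le hq u) 2) (by positivity)
    rw [hpw, ← pow_mul, hN, ← pow_succ'] at h3
    exact le_of_pow_le_pow_left₀ (pow_ne_zero _ two_ne_zero) hτ0.le h3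

end IsCState

end Vale.Agent.P078.General.Single
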