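import Mathlib

/-!
# Random coefficients representing an exact coincidence pattern

`π : Fin (a + b) → Fin (a + b)` names the block of each position; `KP π k` says that the coincidences
of `k` are exactly `π`. Random labels and signs give coefficients `lc` of the first `a` positions and
bounded coefficients `uc` of each later position whose mean product is `(1/N) ^ #blocks · [KP π k]`.
-/

namespace Vale.Agent.P078.General.Single

open Finset

/-- Uniform mean. -/
noncomputable def av {α : Type*} [Fintype α] (f : α → ℝ) : ℝ :=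
  (∑ x, f x) / (Fintype.card α)

theorem av_nonneg {α : Type*} [Fintype α] {f : α → ℝ} (h : ∀ x, 0 ≤ f x) : 0 ≤ av f :=
  div_nonneg (Finset.sum_nonneg fun x _ => h x) (Nat.cast_nonneg _)

theorem av_le_one {α : Type*} [Fintype α] {f : α → ℝ} (h : ∀ x, f x ≤ 1) : av f ≤ 1 :=
  div_le_one_of_le₀ ((Finset.sum_le_sum fun x _ => h x).trans (by simp)) (Nat.cast_nonneg _)

theorem av_const {α : Type*} [Fintype α] [Nonempty α] (c : ℝ) : av (fun _ : α => c) = c := by
  simp [av]

/-- Independence. -/
theorem av_prod {α β : Type*} [Fintype α] [DecidableEq α] [Fintype β] (f : α → β → ℝ) :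
    av (fun g : α → β => ∏ x, f x (g x)) = ∏ x, av (f x) := by
  simp [av, Finset.prod_div_distrib, Fintype.prod_sum]

/-- `±1`. -/
def sgn (x : Bool) : ℝ := if x then 1 else -1

theorem abs_sgn (x : Bool) : |sgn x| = 1 := by cases x <;> simp [sgn]

theorem sgn_mul_self (x : Bool) : sgn x * sgn x = 1 := by cases x <;> simp [sgn]

theorem av_sgn_mul {ν : ℕ} (x y : Fin ν) :
    av (fun ζ : Fin ν → Bool => sgn (ζ x) * sgn (ζ y)) = if x = y then 1 else 0 := by
  split_ifs with h
  · subst h
    simp only [sgn_mul_self]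
    exact av_const 1
  · have hprod : ∀ ζ : Fin ν → Bool, sgn (ζ x) * sgn (ζ y) =
        ∏ c, if c = x ∨ c = y then sgn (ζ c) else 1 := fun ζ => by
      rw [← Finset.prod_filter]
      have : univ.filter (fun c => c = x ∨ c = y) = {x, y} := by ext c; simp
      rw [this, Finset.prod_pair h]
    simp only [hprod]
    rw [av_prod fun c v => if c = x ∨ c = y then sgn v else 1]
    exact Finset.prod_eq_zero (Finset.mem_univ x) (by simp [av, sgn])

/-- The coincidences of `k` are exactly those of `π`. -/
def KP {l : ℕ} {α : Type*} (π : Fin l → Fin l) (k : Fin l → α) : Prop :=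
  ∀ x y, π x = π y ↔ k x = k y

/-- The label indicators have mean `(1/N) ^ #blocks · [exact]`. -/
theorem av_label {l ν : ℕ} (hl : 0 < l) (π : Fin l → Fin l) (k : Fin l → Fin ν)
    (hc : ∀ x y, π x = π y → k x = k y) [Decidable (KP π k)] :
    av (fun h : Fin ν → Fin l => ∏ x, if h (k x) = π x then (1 : ℝ) else 0) =
      if KP π k then ((l : ℝ)⁻¹) ^ (univ.image π).card else 0 := by
  classical
  have hfib : ∀ h : Fin ν → Fin l, (∏ x, if h (k x) = π x then (1 : ℝ) else 0) =
      ∏ c, ∏ x ∈ univ.filter (fun x => k x = c), if h c = π x then (1 : ℝ) else 0 := fun h => by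
    rw [← Finset.prod_fiberwise univ k fun x => if h (k x) = π x then (1 : ℝ) else 0]
    exact Finset.prod_congr rfl fun c _ => Finset.prod_congr rfl fun x hx => by
      rw [(Finset.mem_filter.1 hx).2]
  simp only [hfib]
  rw [av_prod fun c v => ∏ x ∈ univ.filter (fun x => k x = c), if v = π x then (1 : ℝ) else 0]
  split_ifs with hk
  · have hone : ∀ c : Fin ν, av (fun v : Fin l => ∏ x ∈ univ.filter (fun x => k x = c),
        if v = π x then (1 : ℝ) else 0) = if c ∈ univ.image k then (l : ℝ)⁻¹ else 1 := by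
      intro c
      split_ifs with hcm
      · obtain ⟨x0, -, hx0⟩ := Finset.mem_image.1 hcm
        have e : ∀ v : Fin l, (∏ x ∈ univ.filter (fun x => k x = c),
            if v = π x then (1 : ℝ) else 0) = if v = π x0 then 1 else 0 := fun v => by
          split_ifs with hv
          · refine Finset.prod_eq_one fun x hx => if_pos ?_
            rw [hv, (hk x0 x).2 (hx0.trans (Finset.mem_filter.1 hx).2.symm)]
          · exact Finset.prod_eq_zero (i := x0) (by simp [hx0]) (if_neg hv)
        simp [av, e]
      · have e : univ.filter (fun x => k x = c) = ∅ := by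
          refine Finset.filter_eq_empty_iff.2 fun x _ hx => hcm ?_
          exact Finset.mem_image.2 ⟨x, Finset.mem_univ x, hx⟩
        rw [e]
        simp only [Finset.prod_empty]
        have : Nonempty (Fin l) := ⟨⟨0, hl⟩⟩
        exact av_const 1
    simp only [hone, Finset.prod_ite_mem, Finset.univ_inter, Finset.prod_const]
    congr 1
    refine Finset.card_bij' (fun c hc => π (Finset.mem_image.1 hc).choose)
      (fun β hβ => k (Finset.mem_image.1 hβ).choose) ?_ ?_ ?_ ?_
    · exact fun c hc => Finset.mem_image.2 ⟨_, Finset.mem_univ _, rfl⟩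
    · exact fun β hβ => Finset.mem_image.2 ⟨_, Finset.mem_univ _, rfl⟩
    · intro c hc
      have h1 : π (Finset.mem_image.1 hc).choose ∈ univ.image π :=
        Finset.mem_image.2 ⟨_, Finset.mem_univ _, rfl⟩
      exact ((hk _ _).1 (Finset.mem_image.1 h1).choose_spec.2).trans
        (Finset.mem_image.1 hc).choose_spec.2
    · intro β hβ
      have h1 : k (Finset.mem_image.1 hβ).choose ∈ univ.image k :=
        Finset.mem_image.2 ⟨_, Finset.mem_univ _, rfl⟩
      exact ((hk _ _).2 (Finset.mem_image.1 h1).choose_spec.2).trans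
        (Finset.mem_image.1 hβ).choose_spec.2
  · obtain ⟨x, y, hxy⟩ : ∃ x y, ¬(π x = π y ↔ k x = k y) := by
      simpa [KP] using hk
    have hne : π x ≠ π y ∧ k x = k y :=
      ⟨fun e => hxy ⟨fun _ => hc x y e, fun _ => e⟩,
        by_contra fun e => hxy ⟨hc x y, fun e' => absurd e' e⟩⟩
    refine Finset.prod_eq_zero (Finset.mem_univ (k x)) ?_
    have e : ∀ v : Fin l, (∏ z ∈ univ.filter (fun z => k z = k x),
        if v = π z then (1 : ℝ) else 0) = 0 := fun v => by
      rcases eq_or_ne v (π x) with hv | hv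
      · exact Finset.prod_eq_zero (i := y) (by simp [hne.2]) (if_neg fun e => hne.1 (hv.symm.trans e))
      · exact Finset.prod_eq_zero (i := x) (by simp) (if_neg hv)
    simp [av, e]

section Split

variable {a b ν : ℕ}

/-- The block of a late position. -/
def bl (π : Fin (a + b) → Fin (a + b)) (y : Fin b) : Fin (a + b) := π (Fin.natAdd a y)

/-- The chosen late position of its block. -/
noncomputable def rep (π : Fin (a + b) → Fin (a + b)) (y : Fin b) : Fin b :=
  haveI : Nonempty (Fin b) := ⟨y⟩
  Function.invFun (bl π) (bl π y)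

theorem bl_rep (π : Fin (a + b) → Fin (a + b)) (y : Fin b) : bl π (rep π y) = bl π y :=
  haveI : Nonempty (Fin b) := ⟨y⟩
  Function.invFun_eq ⟨y, rfl⟩

theorem rep_congr (π : Fin (a + b) → Fin (a + b)) {y z : Fin b} (h : bl π y = bl π z) :
    rep π y = rep π z := by
  simp only [rep, h]

open Classical in
/-- The sign carried by a chosen late position for the early part. -/
noncomputable def sigPart (π : Fin (a + b) → Fin (a + b)) (σ : Fin (a + b) → Fin ν → Bool)
    (β : Fin (a + b)) (c : Fin ν) : ℝ :=
  if ∃ x : Fin a, π (Fin.castAdd b x) = β then sgn (σ β c) else 1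

/-- Coefficient of the early positions. -/
noncomputable def lc (π : Fin (a + b) → Fin (a + b)) (h : Fin ν → Fin (a + b))
    (σ : Fin (a + b) → Fin ν → Bool) (t : Fin a → Fin ν) : ℝ :=
  ∏ x, (if h (t x) = π (Fin.castAdd b x) then 1 else 0) * sgn (σ (π (Fin.castAdd b x)) (t x))

/-- Coefficient of one late position. -/
noncomputable def uc (π : Fin (a + b) → Fin (a + b)) (h : Fin ν → Fin (a + b))
    (σ : Fin (a + b) → Fin ν → Bool) (z : Fin b → Fin ν → Bool) (y : Fin b) (c : Fin ν) : ℝ :=
  (if h c = bl π y then 1 else 0) *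
    if rep π y = y then
      sigPart π σ (bl π y) c * ∏ y' ∈ univ.filter (fun y' => rep π y' = y ∧ y' ≠ y), sgn (z y' c)
    else sgn (z y c)

theorem abs_uc_le (π : Fin (a + b) → Fin (a + b)) (h : Fin ν → Fin (a + b))
    (σ : Fin (a + b) → Fin ν → Bool) (z : Fin b → Fin ν → Bool) (y : Fin b) (c : Fin ν) :
    |uc π h σ z y c| ≤ 1 := by
  unfold uc sigPart
  split_ifs <;> simp [abs_mul, Finset.abs_prod, abs_sgn]

/-- The mean of the early coefficient times the late ones. -/
theorem av_lc_uc (hab : 0 < a + b) (π : Fin (a + b) → Fin (a + b)) (hinj : Function.Injective (π ∘ Fin.castAdd b))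
    (hmeet : ∀ x : Fin a, ∃ y, bl π y = π (Fin.castAdd b x)) (k : Fin (a + b) → Fin ν)
    [Decidable (KP π k)] :
    av (fun h => av fun σ => av fun z =>
      lc π h σ (fun x => k (Fin.castAdd b x)) * ∏ y, uc π h σ z y (k (Fin.natAdd a y))) =
      if KP π k then (((a + b : ℕ) : ℝ)⁻¹) ^ (univ.image π).card else 0 := by
  classical
  set t : Fin a → Fin ν := fun x => k (Fin.castAdd b x)
  set s : Fin b → Fin ν := fun y => k (Fin.natAdd a y)
  set G : (Fin ν → Fin (a + b)) → ℝ := fun h =>
    (∏ x, if h (t x) = π (Fin.castAdd b x) then (1 : ℝ) else 0) *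
      ∏ y, if h (s y) = bl π y then (1 : ℝ) else 0 with hG
  set S : (Fin (a + b) → Fin ν → Bool) → ℝ := fun σ => (∏ x, sgn (σ (π (Fin.castAdd b x)) (t x))) *
    ∏ y ∈ univ.filter (fun y => rep π y = y), sigPart π σ (bl π y) (s y)
  have hrr : ∀ y, rep π (rep π y) = rep π y := fun y => rep_congr π (bl_rep π y)
  have hz : ∀ z : Fin b → Fin ν → Bool,
      (∏ y ∈ univ.filter (fun y => rep π y = y),
        ∏ y' ∈ univ.filter (fun y' => rep π y' = y ∧ y' ≠ y), sgn (z y' (s y))) *
      (∏ y ∈ univ.filter (fun y => ¬rep π y = y), sgn (z y (s y))) =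
      ∏ y, if rep π y = y then 1 else sgn (z y (s (rep π y))) * sgn (z y (s y)) := by
    intro z
    have h1 : (∏ y ∈ univ.filter (fun y => rep π y = y),
        ∏ y' ∈ univ.filter (fun y' => rep π y' = y ∧ y' ≠ y), sgn (z y' (s y))) =
        ∏ y' ∈ univ.filter (fun y' => ¬rep π y' = y'), sgn (z y' (s (rep π y'))) := by
      symm
      rw [← Finset.prod_fiberwise_of_maps_to (t := univ.filter (fun y => rep π y = y))
        (g := rep π) (fun y' _ => by simp [hrr])]
      refine Finset.prod_congr rfl fun y hy => Finset.prod_congr ?_ fun y' hy' => ?_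
      · ext y'
        simp only [Finset.mem_filter, Finset.mem_univ, true_and]
        constructor
        · rintro ⟨h1, h2⟩
          exact ⟨h2, fun h3 => h1 (h2.trans h3.symm)⟩
        · rintro ⟨h1, h2⟩
          exact ⟨fun h3 => h2 (h3.symm.trans h1), h1⟩
      · rw [(Finset.mem_filter.1 hy').2.1]
    rw [h1, ← Finset.prod_mul_distrib, Finset.prod_ite, Finset.prod_const_one, one_mul]
  have hfac : ∀ h σ z, lc π h σ t * ∏ y, uc π h σ z y (s y) = G h * (S σ *
      ∏ y, if rep π y = y then 1 else sgn (z y (s (rep π y))) * sgn (z y (s y))) := by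
    intro h σ z
    rw [← hz]
    have e : (∏ y, if rep π y = y then sigPart π σ (bl π y) (s y) *
        ∏ y' ∈ univ.filter (fun y' => rep π y' = y ∧ y' ≠ y), sgn (z y' (s y))
        else sgn (z y (s y))) = (∏ y ∈ univ.filter (fun y => rep π y = y),
          sigPart π σ (bl π y) (s y)) * (∏ y ∈ univ.filter (fun y => rep π y = y),
          ∏ y' ∈ univ.filter (fun y' => rep π y' = y ∧ y' ≠ y), sgn (z y' (s y))) *
        ∏ y ∈ univ.filter (fun y => ¬rep π y = y), sgn (z y (s y)) := by
      rw [← Finset.prod_mul_distrib]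
      exact Finset.prod_ite _ _
    simp only [lc, uc, hG, S, Finset.prod_mul_distrib, e]
    ring
  have havz : av (fun z : Fin b → Fin ν → Bool =>
      ∏ y, if rep π y = y then 1 else sgn (z y (s (rep π y))) * sgn (z y (s y))) =
      ∏ y, if s (rep π y) = s y then 1 else 0 := by
    refine (av_prod (fun (y : Fin b) (ζ : Fin ν → Bool) =>
      if rep π y = y then 1 else sgn (ζ (s (rep π y))) * sgn (ζ (s y)))).trans ?_
    refine Finset.prod_congr rfl fun y _ => ?_
    split_ifs with h1 h2 h2
    · exact av_const 1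
    · exact absurd (by rw [h1]) h2
    · rw [av_sgn_mul, if_pos h2]
    · rw [av_sgn_mul, if_neg h2]
  have havs : av S = ∏ x, if t x = s (rep π (hmeet x).choose) then 1 else 0 := by
    have hS : ∀ σ, S σ = ∏ x, sgn (σ (π (Fin.castAdd b x)) (t x)) *
        sgn (σ (π (Fin.castAdd b x)) (s (rep π (hmeet x).choose))) := by
      intro σ
      simp only [S, Finset.prod_mul_distrib]
      congr 1
      symm
      calc ∏ x, sgn (σ (π (Fin.castAdd b x)) (s (rep π (hmeet x).choose)))
          = ∏ y ∈ (univ.image fun x => rep π (hmeet x).choose), sigPart π σ (bl π y) (s y) := by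
            rw [Finset.prod_image]
            · refine Finset.prod_congr rfl fun x _ => ?_
              rw [bl_rep, (hmeet x).choose_spec, sigPart, if_pos ⟨x, rfl⟩]
            · intro x _ x' _ e
              have e' := congrArg (bl π) e
              simp only [bl_rep] at e'
              rw [(hmeet x).choose_spec, (hmeet x').choose_spec] at e'
              exact hinj e'
        _ = _ := by
            refine Finset.prod_subset (fun y hy => ?_) fun y hy hy' => ?_
            · obtain ⟨x, -, rfl⟩ := Finset.mem_image.1 hy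
              simp [hrr]
            · rw [sigPart, if_neg]
              rintro ⟨x, hx⟩
              refine hy' (Finset.mem_image.2 ⟨x, Finset.mem_univ x, ?_⟩)
              rw [rep_congr π (((hmeet x).choose_spec).trans hx)]
              exact (Finset.mem_filter.1 hy).2
    rw [funext hS]
    obtain ⟨u, hu⟩ : ∃ u : Fin a → Fin ν, ∀ x, s (rep π (hmeet x).choose) = u x := ⟨_, fun x => rfl⟩
    simp only [hu]
    have hre : ∀ σ : Fin (a + b) → Fin ν → Bool, (∏ x, sgn (σ (π (Fin.castAdd b x)) (t x)) *
        sgn (σ (π (Fin.castAdd b x)) (u x))) =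
        ∏ β, ∏ x ∈ univ.filter (fun x => π (Fin.castAdd b x) = β),
          sgn (σ β (t x)) * sgn (σ β (u x)) := fun σ => by
      rw [← Finset.prod_fiberwise univ (fun x => π (Fin.castAdd b x))]
      exact Finset.prod_congr rfl fun β _ => Finset.prod_congr rfl fun x hx => by
        rw [(Finset.mem_filter.1 hx).2]
    simp only [hre]
    refine (av_prod (fun (β : Fin (a + b)) (ζ : Fin ν → Bool) =>
      ∏ x ∈ univ.filter (fun x => π (Fin.castAdd b x) = β),
      sgn (ζ (t x)) * sgn (ζ (u x)))).trans ?_
    rw [← Finset.prod_fiberwise univ (fun x => π (Fin.castAdd b x))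
      (fun x => if t x = u x then (1 : ℝ) else 0)]
    refine Finset.prod_congr rfl fun β _ => ?_
    rcases (univ.filter (fun x => π (Fin.castAdd b x) = β)).eq_empty_or_nonempty with e | ⟨x, hx⟩
    · simp only [e, Finset.prod_empty]
      exact av_const 1
    · have e : univ.filter (fun x => π (Fin.castAdd b x) = β) = {x} := by
        refine Finset.eq_singleton_iff_unique_mem.2 ⟨hx, fun x' hx' => hinj ?_⟩
        exact (Finset.mem_filter.1 hx').2.trans (Finset.mem_filter.1 hx).2.symm
      simp only [e, Finset.prod_singleton, av_sgn_mul]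
  have hmul : ∀ {α : Type} [Fintype α] (c : ℝ) (f : α → ℝ), av (fun x => c * f x) = c * av f := by
    intro α _ c f
    simp [av, ← Finset.mul_sum, mul_div_assoc]
  have hmul' : ∀ {α : Type} [Fintype α] (c : ℝ) (f : α → ℝ), av (fun x => f x * c) = av f * c := by
    intro α _ c f
    simp [av, ← Finset.sum_mul, div_mul_eq_mul_div]
  show av (fun h => av fun σ => av fun z => lc π h σ t * ∏ y, uc π h σ z y (s y)) = _
  simp only [hfac, hmul, hmul', havz, havs]
  by_cases hc : ∀ x y, π x = π y → k x = k y
  · have e1 : (∏ y, if s (rep π y) = s y then (1 : ℝ) else 0) = 1 :=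
      Finset.prod_eq_one fun y _ => if_pos (hc _ _ (bl_rep π y))
    have e2 : (∏ x, if t x = s (rep π (hmeet x).choose) then (1 : ℝ) else 0) = 1 :=
      Finset.prod_eq_one fun x _ => if_pos
        (hc _ _ ((hmeet x).choose_spec.symm.trans (bl_rep π _).symm))
    rw [e1, e2, mul_one, mul_one]
    rw [show G = fun h : Fin ν → Fin (a + b) => ∏ p, if h (k p) = π p then (1 : ℝ) else 0 from
      funext fun h => (Fin.prod_univ_add fun p => if h (k p) = π p then (1 : ℝ) else 0).symm]
    exact av_label hab π k hc
  · rw [if_neg fun h => hc fun x y e => (h x y).1 e]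
    have : (∀ x, t x = s (rep π (hmeet x).choose)) → (∀ y, s (rep π y) = s y) → False := by
      intro h1 h2
      apply hc
      have key : ∀ p, ∃ y, bl π y = π p ∧ s y = k p := by
        intro p
        refine Fin.addCases (fun x => ?_) (fun y => ?_) p
        · exact ⟨rep π (hmeet x).choose, (bl_rep π _).trans (hmeet x).choose_spec, (h1 x).symm⟩
        · exact ⟨y, rfl, rfl⟩
      intro x y e
      obtain ⟨y1, hb1, hs1⟩ := key x
      obtain ⟨y2, hb2, hs2⟩ := key y
      rw [← hs1, ← hs2, ← h2 y1, ← h2 y2, rep_congr π (hb1.trans (e.trans hb2.symm))]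
    by_cases h1 : ∀ x, t x = s (rep π (hmeet x).choose)
    · obtain ⟨y, hy⟩ := not_forall.1 (this h1)
      rw [Finset.prod_eq_zero (f := fun y => if s (rep π y) = s y then (1 : ℝ) else 0)
        (Finset.mem_univ y) (if_neg hy)]
      simp
    · obtain ⟨x, hx⟩ := not_forall.1 h1
      rw [Finset.prod_eq_zero (f := fun x => if t x = s (rep π (hmeet x).choose) then (1 : ℝ) else 0)
        (Finset.mem_univ x) (if_neg hx)]
      simp

/-- The second moment of the early coefficient is diagonal. -/
theorem av_lc_lc (π : Fin (a + b) → Fin (a + b)) (hinj : Function.Injective (π ∘ Fin.castAdd b))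
    (t t' : Fin a → Fin ν) :
    ∃ c : ℝ, 0 ≤ c ∧ c ≤ 1 ∧
      av (fun h => av fun σ => lc π h σ t * lc π h σ t') = if t = t' then c else 0 := by
  classical
  have hsig : av (fun σ : Fin (a + b) → Fin ν → Bool =>
      ∏ x, sgn (σ (π (Fin.castAdd b x)) (t x)) * sgn (σ (π (Fin.castAdd b x)) (t' x))) =
      if t = t' then 1 else 0 := by
    have hre : ∀ σ : Fin (a + b) → Fin ν → Bool, (∏ x, sgn (σ (π (Fin.castAdd b x)) (t x)) *
        sgn (σ (π (Fin.castAdd b x)) (t' x))) =
        ∏ β, ∏ x ∈ univ.filter (fun x => π (Fin.castAdd b x) = β),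
          sgn (σ β (t x)) * sgn (σ β (t' x)) := fun σ => by
      rw [← Finset.prod_fiberwise univ (fun x => π (Fin.castAdd b x))]
      exact Finset.prod_congr rfl fun β _ => Finset.prod_congr rfl fun x hx => by
        rw [(Finset.mem_filter.1 hx).2]
    simp only [hre]
    refine (av_prod (fun (β : Fin (a + b)) (ζ : Fin ν → Bool) =>
      ∏ x ∈ univ.filter (fun x => π (Fin.castAdd b x) = β),
      sgn (ζ (t x)) * sgn (ζ (t' x)))).trans ?_
    have e : ∀ β, av (fun ζ : Fin ν → Bool => ∏ x ∈ univ.filter (fun x => π (Fin.castAdd b x) = β),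
        sgn (ζ (t x)) * sgn (ζ (t' x))) =
        ∏ x ∈ univ.filter (fun x => π (Fin.castAdd b x) = β), if t x = t' x then (1 : ℝ) else 0 := by
      intro β
      rcases (univ.filter (fun x => π (Fin.castAdd b x) = β)).eq_empty_or_nonempty with e | ⟨x, hx⟩
      · simp only [e, Finset.prod_empty]
        exact av_const 1
      · have e : univ.filter (fun x => π (Fin.castAdd b x) = β) = {x} := by
          refine Finset.eq_singleton_iff_unique_mem.2 ⟨hx, fun x' hx' => hinj ?_⟩
          exact (Finset.mem_filter.1 hx').2.trans (Finset.mem_filter.1 hx).2.symm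
        simp only [e, Finset.prod_singleton, av_sgn_mul]
    simp only [e]
    rw [Finset.prod_fiberwise univ (fun x => π (Fin.castAdd b x))
      (fun x => if t x = t' x then (1 : ℝ) else 0)]
    rcases eq_or_ne t t' with rfl | hne
    · simp
    · obtain ⟨x, hx⟩ := Function.ne_iff.1 hne
      rw [if_neg hne, Finset.prod_eq_zero (Finset.mem_univ x) (if_neg hx)]
  set g : (Fin ν → Fin (a + b)) → ℝ := fun h =>
    (∏ x, if h (t x) = π (Fin.castAdd b x) then (1 : ℝ) else 0) *
      ∏ x, if h (t' x) = π (Fin.castAdd b x) then (1 : ℝ) else 0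
  have hg : ∀ h, 0 ≤ g h ∧ g h ≤ 1 := by
    intro h
    have hb : ∀ u : Fin a → Fin ν, 0 ≤ (∏ x, if h (u x) = π (Fin.castAdd b x) then (1 : ℝ) else 0) ∧
        (∏ x, if h (u x) = π (Fin.castAdd b x) then (1 : ℝ) else 0) ≤ 1 := fun u =>
      ⟨Finset.prod_nonneg fun x _ => by split_ifs <;> norm_num,
        Finset.prod_le_one (fun x _ => by split_ifs <;> norm_num) fun x _ => by split_ifs <;> norm_num⟩
    exact ⟨mul_nonneg (hb t).1 (hb t').1, mul_le_one₀ (hb t).2 (hb t').1 (hb t').2⟩
  refine ⟨av g, av_nonneg fun h => (hg h).1, av_le_one fun h => (hg h).2, ?_⟩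
  have e : ∀ h σ, lc π h σ t * lc π h σ t' = g h *
      ∏ x, sgn (σ (π (Fin.castAdd b x)) (t x)) * sgn (σ (π (Fin.castAdd b x)) (t' x)) := by
    intro h σ
    simp only [lc, g, Finset.prod_mul_distrib]
    ring
  simp only [e]
  have e2 : ∀ h, av (fun σ : Fin (a + b) → Fin ν → Bool => g h *
      ∏ x, sgn (σ (π (Fin.castAdd b x)) (t x)) * sgn (σ (π (Fin.castAdd b x)) (t' x))) =
      g h * if t = t' then 1 else 0 := by
    intro h
    rw [← hsig]
    simp [av, ← Finset.mul_sum, mul_div_assoc]
  simp only [e2]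
  split_ifs <;> simp [av]

end Split

end Vale.Agent.P078.General.Single
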