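import Vale.Agent.P078.Single.Exp
import Vale.Agent.P078.Single.Comb

/-!
# Pattern sums of words in a fine partition tend to zero

For gaps `m` with diffuse conjugates the sums `∑ φ (m₀ p (k 0) m₁ ⋯ m_l)` over all `k` with a given
coincidence pattern without singletons tend to zero along refining partitions.
-/

namespace Vale.Agent.P078.General.Single

open scoped InnerProductSpace Topology ComplexOrder
open Filter

universe u

variable {H : Type u} [NormedAddCommGroup H] [InnerProductSpace ℂ H] [CompleteSpace H]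
variable {M A : VonNeumannAlgebra H} {φ : (H →L[ℂ] H) →ₗ[ℂ] ℂ}

/-- The expectations of the conjugated pieces of fine partitions have small square sums. -/
def Diffuse (A : VonNeumannAlgebra H) (φ : (H →L[ℂ] H) →ₗ[ℂ] ℂ) (g : H →L[ℂ] H) : Prop :=
  ∀ η : ℝ, 0 < η → ∃ P : Part A (1 : H →L[ℂ] H),
    ∑ i, sq φ (expE A φ (g * P.p i * star g)) ≤ η

section Words

variable {ν : ℕ}

/-- `m₀ p (k 0) m₁ ⋯ p (k (l-1)) m_l`. -/
noncomputable def word (p : Fin ν → H →L[ℂ] H) (m : ℕ → H →L[ℂ] H) {l : ℕ} (k : Fin l → Fin ν) :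
    H →L[ℂ] H :=
  (List.ofFn fun x : Fin l => m x * p (k x)).prod * m l

omit [CompleteSpace H] in
theorem word_zero (p : Fin ν → H →L[ℂ] H) (m : ℕ → H →L[ℂ] H) (k : Fin 0 → Fin ν) :
    word p m k = m 0 := by simp [word]

omit [CompleteSpace H] in
theorem word_succ (p : Fin ν → H →L[ℂ] H) (m : ℕ → H →L[ℂ] H) {l : ℕ} (k : Fin (l + 1) → Fin ν) :
    word p m k = m 0 * p (k 0) * word p (fun x => m (x + 1)) (Fin.tail k) := by
  simp [word, List.ofFn_succ, Fin.tail, mul_assoc]

omit [CompleteSpace H] in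
theorem word_split (p : Fin ν → H →L[ℂ] H) (m : ℕ → H →L[ℂ] H) {a b : ℕ}
    (k : Fin (a + (b + 1)) → Fin ν) :
    word p m k = word p m (fun x => k (Fin.castAdd (b + 1) x)) *
      (p (k (Fin.natAdd a 0)) *
        word p (fun x => m (a + (x + 1))) (fun y : Fin b => k (Fin.natAdd a y.succ))) := by
  simp only [word]
  rw [List.ofFn_add, List.prod_append, List.ofFn_succ (n := b), List.prod_cons]
  simp [mul_assoc]
  rfl

/-- `m₀ U₀ m₁ ⋯ U_(l-1) m_l`. -/
noncomputable def pw : ℕ → (ℕ → H →L[ℂ] H) → (ℕ → H →L[ℂ] H) → H →L[ℂ] H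
  | 0, _, m => m 0
  | l + 1, U, m => m 0 * U 0 * pw l (fun x => U (x + 1)) (fun x => m (x + 1))

omit [CompleteSpace H] in
theorem sum_word (p : Fin ν → H →L[ℂ] H) (l : ℕ) : ∀ (c : ℕ → Fin ν → ℂ) (m : ℕ → H →L[ℂ] H),
    ∑ k : Fin l → Fin ν, (∏ x : Fin l, c x (k x)) • word p m k =
      pw l (fun x => ∑ j, c x j • p j) m := by
  induction l with
  | zero => intro c m; simp [word_zero, pw]
  | succ l ih =>
    intro c m
    rw [← (Fin.consEquiv fun _ => Fin ν).sum_comp, Fintype.sum_prod_type]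
    simp only [pw, ← ih (fun x => c (x + 1)) fun x => m (x + 1), Finset.mul_sum, Finset.sum_mul]
    rw [Finset.sum_comm]
    refine Finset.sum_congr rfl fun t _ => Finset.sum_congr rfl fun j _ => ?_
    simp [Fin.prod_univ_succ, word_succ, Fin.consEquiv, smul_smul, mul_comm]

omit [CompleteSpace H] in
theorem norm_pw_le (l : ℕ) : ∀ (U m : ℕ → H →L[ℂ] H), (∀ x, ‖U x‖ ≤ 1) →
    ‖pw l U m‖ ≤ ∏ x ∈ Finset.range (l + 1), ‖m x‖ := by
  induction l with
  | zero => intro U m _; simp [pw]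
  | succ l ih =>
    intro U m hU
    rw [Finset.prod_range_succ', mul_comm, pw]
    refine (norm_mul_le _ _).trans (mul_le_mul ?_ (ih _ _ fun x => hU (x + 1)) (norm_nonneg _)
      (norm_nonneg _))
    refine (norm_mul_le _ _).trans ?_
    exact mul_le_of_le_one_right (norm_nonneg _) (hU 0)

theorem pw_mem (M : VonNeumannAlgebra H) (l : ℕ) : ∀ (U m : ℕ → H →L[ℂ] H),
    (∀ x, U x ∈ M) → (∀ x, m x ∈ M) → pw l U m ∈ M := by
  induction l with
  | zero => intro U m _ hm; exact hm 0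
  | succ l ih =>
    intro U m hU hm
    exact mul_mem (mul_mem (hm 0) (hU 0)) (ih _ _ (fun x => hU (x + 1)) fun x => hm (x + 1))

theorem word_mem (M : VonNeumannAlgebra H) {p : Fin ν → H →L[ℂ] H} (hp : ∀ j, p j ∈ M) :
    ∀ {l : ℕ} (m : ℕ → H →L[ℂ] H), (∀ x, m x ∈ M) → ∀ k : Fin l → Fin ν, word p m k ∈ M := by
  intro l
  induction l with
  | zero => intro m hm k; rw [word_zero]; exact hm 0
  | succ l ih =>
    intro m hm k
    rw [word_succ]
    exact mul_mem (mul_mem (hm 0) (hp _)) (ih _ (fun x => hm (x + 1)) _)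

theorem norm_sum_coef_le {ι : Type*} [Fintype ι] {e : H →L[ℂ] H} {p : ι → H →L[ℂ] H}
    (hp : IsPart A e p) {c : ι → ℂ} (hc : ∀ j, ‖c j‖ ≤ 1) : ‖∑ j, c j • p j‖ ≤ 1 := by
  refine ContinuousLinearMap.opNorm_le_bound _ zero_le_one fun v => ?_
  rw [one_mul]
  refine le_of_pow_le_pow_left₀ two_ne_zero (norm_nonneg _) ?_
  have e1 : (∑ j, c j • p j) v = ∑ j, p j (c j • v) := by simp [sum_apply]
  rw [e1, hp.norm_sq_sum_apply]
  refine le_trans (Finset.sum_le_sum fun j _ => ?_) (hp.sum_norm_sq_le v)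
  rw [map_smul, norm_smul]
  exact pow_le_pow_left₀ (by positivity) (mul_le_of_le_one_left (norm_nonneg _) (hc j)) 2

end Words

namespace IsCState

theorem sq_pinch_le (hφ : IsCState M A φ) (Q : Part A (1 : H →L[ℂ] H)) {y : H →L[ℂ] H}
    (hy : y ∈ M) : sq φ (pinch Q.p y) ≤ sq φ y := by
  have h := hφ.sq_pinch_sub (Part.refines_triv (one_mem A) (IsStarProjection.one _) Q) hy
  have h0 := hφ.sq_nonneg' (sub_mem (hφ.pinch_memM (Part.triv (one_mem A) (IsStarProjection.one _)) hy)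
    (hφ.pinch_memM Q hy))
  have e : pinch (Part.triv (one_mem A) (IsStarProjection.one _)).p y = y := by
    show ∑ _i : Fin 1, (1 : H →L[ℂ] H) * y * 1 = y
    simp
  rw [e] at h h0
  linarith

theorem sum_sq_mul_part (hφ : IsCState M A φ) (Q : Part A (1 : H →L[ℂ] H)) {X : H →L[ℂ] H}
    (hX : X ∈ M) : ∑ j, sq φ (X * Q.p j) = sq φ X := by
  rw [sq, ← hφ.map_pinch Q (mul_mem (star_mem hX) hX), pinch, map_sum, Complex.re_sum]
  refine Finset.sum_congr rfl fun j _ => ?_
  simp only [sq, star_mul, (Q.isPart.proj j).isSelfAdjoint.star_eq, mul_assoc]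

theorem two_re_le (hφ : IsCState M A φ) {a b : H →L[ℂ] H} (ha : a ∈ M) (hb : b ∈ M) {lam : ℝ}
    (hl : 0 < lam) : 2 * (φ (star a * b)).re ≤ lam * sq φ a + sq φ b / lam := by
  have h := hφ.sq_nonneg' (add_mem ha (smul_mem' M hb ((-1 / lam : ℝ) : ℂ)))
  rw [hφ.sq_add_smul ha hb, Complex.normSq_ofReal, Complex.re_ofReal_mul] at h
  have e : lam * (sq φ a + 2 * (-1 / lam * (φ (star a * b)).re) + -1 / lam * (-1 / lam) * sq φ b) =
      lam * sq φ a - 2 * (φ (star a * b)).re + sq φ b / lam := by field_simp; ring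
  nlinarith [mul_nonneg hl.le h, e]

theorem sq_add_le (hφ : IsCState M A φ) {a b : H →L[ℂ] H} (ha : a ∈ M) (hb : b ∈ M) :
    sq φ (a + b) ≤ 2 * sq φ a + 2 * sq φ b := by
  have h := hφ.sq_add_smul ha hb 1
  have h' := hφ.sq_nonneg' (add_mem ha (smul_mem' M hb (-1)))
  rw [hφ.sq_add_smul ha hb] at h'
  simp at h h'
  linarith

/-- Smallness of the square sum of a row bounded family survives right multiplication. -/
theorem conj_small (hφ : IsCState M A φ) {m : H →L[ℂ] H} (hm : m ∈ M) {C : ℝ} (hC : 0 ≤ C)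
    {η : ℝ} (hη : 0 < η) :
    ∃ δ : ℝ, 0 < δ ∧ ∀ (κ : Type) [Fintype κ] (U : κ → H →L[ℂ] H), (∀ i, U i ∈ M) →
      (∀ v, ∑ i, ‖U i v‖ ^ 2 ≤ C * ‖v‖ ^ 2) → ∑ i, sq φ (U i) < δ →
        ∑ i, sq φ (U i * m) ≤ η := by
  obtain ⟨F, η', hη', hF⟩ := hφ.small_of_vectors (c := ‖m‖ * C * ‖m‖) (by positivity) hη
  set K := ‖m‖ * (C + 1) + 1 with hK
  have hK0 : 0 < K := by positivity
  choose d hd0 hd using fun u : H => hφ.norm_apply_small (m u) (C + 1) (div_pos hη' hK0)
  obtain ⟨δ, hδ0, hδ⟩ := (eventually_mem_nhdsWithin.and ((Filter.eventually_all_finset F).2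
    fun u _ => eventually_nhdsWithin_of_eventually_nhds (eventually_le_nhds (hd0 u)))).exists
      (f := 𝓝[>] (0 : ℝ))
  refine ⟨δ, hδ0, fun κ _ U hU hrow hsum => ?_⟩
  set G := ∑ i, star (U i) * U i with hG
  have hGM : G ∈ M := sum_mem fun i _ => mul_mem (star_mem (hU i)) (hU i)
  have hq : ∀ v, (⟪G v, v⟫_ℂ).re = ∑ i, ‖U i v‖ ^ 2 := by
    intro v
    rw [hG, sum_apply, sum_inner, Complex.re_sum]
    refine Finset.sum_congr rfl fun i _ => ?_
    rw [mul_apply_eq_comp, ContinuousLinearMap.star_eq_adjoint,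
      ContinuousLinearMap.adjoint_inner_left]
    exact inner_self_eq_norm_sq (𝕜 := ℂ) (U i v)
  have hGsa : IsSelfAdjoint G := isSelfAdjoint_sum _ fun i _ => IsSelfAdjoint.star_mul_self _
  have h0 : ∀ v, 0 ≤ (⟪G v, v⟫_ℂ).re := fun v => by rw [hq]; positivity
  have hGn : ‖G‖ ≤ C := norm_sa_le hGsa hC h0 fun v => (hq v).le.trans (hrow v)
  obtain ⟨s, hs, hsa, hss⟩ := exists_sqrt M hGM (nonneg_of_re_inner hGsa h0)
  have hsn : ‖s‖ ≤ C + 1 := by
    have e : ‖G‖ = ‖s‖ * ‖s‖ := by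
      rw [← hss, ← CStarRing.norm_star_mul_self, hsa.star_eq]
    nlinarith [norm_nonneg s]
  have hsq : sq φ s < δ := by
    refine lt_of_eq_of_lt ?_ hsum
    rw [sq, hsa.star_eq, hss, hG, map_sum, Complex.re_sum]
    rfl
  have hy : ∀ u ∈ F, ‖(star m * G * m) u‖ ≤ η' := by
    intro u hu
    have h1 := hd u s hs hsn (hsq.trans_le (hδ u hu))
    have e : (star m * G * m) u = star m (s (s (m u))) := by rw [← hss]; simp
    rw [e]
    refine ((star m).le_opNorm _).trans ?_
    rw [norm_star]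
    have h2 : ‖s (s (m u))‖ ≤ (C + 1) * (η' / K) := (s.le_opNorm _).trans
      (mul_le_mul hsn h1.le (norm_nonneg _) (by linarith))
    refine (mul_le_mul_of_nonneg_left h2 (norm_nonneg _)).trans ?_
    rw [← mul_assoc, ← mul_div_assoc, div_le_iff₀ hK0]
    nlinarith
  have h3 := hF _ (mul_mem (mul_mem (star_mem hm) hGM) hm) (by
    refine (norm_mul_le _ _).trans (mul_le_mul_of_nonneg_right ?_ (norm_nonneg _))
    refine (norm_mul_le _ _).trans ?_
    rw [norm_star]
    exact mul_le_mul_of_nonneg_left hGn (norm_nonneg _)) hy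
  refine le_trans (le_of_eq ?_) ((Complex.re_le_norm _).trans h3)
  rw [hG, Finset.mul_sum, Finset.sum_mul, map_sum, Complex.re_sum]
  exact Finset.sum_congr rfl fun i _ => by simp [sq, mul_assoc]

theorem row_pinch {κ : Type*} [Fintype κ] (Q : Part A (1 : H →L[ℂ] H)) {W : κ → H →L[ℂ] H}
    {C : ℝ} (hC : 0 ≤ C) (h : ∀ v, ∑ i, ‖W i v‖ ^ 2 ≤ C * ‖v‖ ^ 2) (v : H) :
    ∑ i, ‖pinch Q.p (W i) v‖ ^ 2 ≤ C * ‖v‖ ^ 2 := by
  simp only [Q.isPart.norm_pinch_apply_sq]
  rw [Finset.sum_comm]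
  refine (Finset.sum_le_sum fun j _ => ?_).trans
    (le_of_eq_of_le (Finset.mul_sum _ _ _).symm (mul_le_mul_of_nonneg_left
      (Q.isPart.sum_norm_sq_le v) hC))
  refine (Finset.sum_le_sum fun i _ => ?_).trans (h (Q.p j v))
  exact pow_le_pow_left₀ (norm_nonneg _) (norm_proj_le (Q.isPart.proj j) _) 2

theorem row_conj {κ : Type*} [Fintype κ] (a b : H →L[ℂ] H) {W : κ → H →L[ℂ] H} {C : ℝ}
    (hC : 0 ≤ C) (h : ∀ v, ∑ i, ‖W i v‖ ^ 2 ≤ C * ‖v‖ ^ 2) (v : H) :
    ∑ i, ‖(a * W i * b) v‖ ^ 2 ≤ ‖a‖ ^ 2 * C * ‖b‖ ^ 2 * ‖v‖ ^ 2 := by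
  calc ∑ i, ‖(a * W i * b) v‖ ^ 2 ≤ ∑ i, ‖a‖ ^ 2 * ‖W i (b v)‖ ^ 2 :=
        Finset.sum_le_sum fun i _ => by
          rw [← mul_pow]
          exact pow_le_pow_left₀ (norm_nonneg _) (a.le_opNorm _) 2
    _ ≤ ‖a‖ ^ 2 * (C * ‖b v‖ ^ 2) := by
        rw [← Finset.mul_sum]; exact mul_le_mul_of_nonneg_left (h _) (sq_nonneg _)
    _ ≤ ‖a‖ ^ 2 * (C * (‖b‖ * ‖v‖) ^ 2) := by gcongr; exact b.le_opNorm v
    _ = _ := by ring

/-- The pinched iterated conjugations of the pieces of a partition. -/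
theorem exists_coarse (hφ : IsCState M A φ) (n : ℕ) : ∀ (m : ℕ → H →L[ℂ] H),
    (∀ x, m x ∈ M) → Diffuse A φ (m n) → ∃ C : ℝ, 0 ≤ C ∧
      (∀ (Q P : Part A (1 : H →L[ℂ] H)) (v : H), ∑ i, ‖pinch Q.p
        (∑ t : Fin n → Fin Q.n, word Q.p m t * P.p i * star (word Q.p m t)) v‖ ^ 2 ≤ C * ‖v‖ ^ 2) ∧
      ∀ η : ℝ, 0 < η → ∃ P : Part A (1 : H →L[ℂ] H), ∀ᶠ Q in refF A, ∑ i, sq φ (pinch Q.p
        (∑ t : Fin n → Fin Q.n, word Q.p m t * P.p i * star (word Q.p m t))) ≤ η := by
  induction n with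
  | zero =>
    intro m hm hd
    have e : ∀ (Q P : Part A (1 : H →L[ℂ] H)) i,
        (∑ t : Fin 0 → Fin Q.n, word Q.p m t * P.p i * star (word Q.p m t)) =
          m 0 * P.p i * star (m 0) := fun Q P i => by simp [word_zero]
    simp only [e]
    refine ⟨‖m 0‖ ^ 2 * 1 * ‖star (m 0)‖ ^ 2, by positivity, fun Q P v =>
      row_pinch Q (by positivity) (row_conj _ _ zero_le_one fun v => by
        rw [one_mul]; exact P.isPart.sum_norm_sq_le v) v, fun η hη => ?_⟩
    obtain ⟨P, hP⟩ := hd (η / 4) (by positivity)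
    refine ⟨P, ?_⟩
    have hb : ∀ i, m 0 * P.p i * star (m 0) ∈ M := fun i =>
      mul_mem (mul_mem (hm 0) (hφ.masa.le _ (P.isPart.mem i))) (star_mem (hm 0))
    have hlim : Tendsto (fun Q : Part A (1 : H →L[ℂ] H) => ∑ i, sq φ
        (pinch Q.p (m 0 * P.p i * star (m 0)) - expE A φ (m 0 * P.p i * star (m 0))))
        (refF A) (𝓝 0) := by
      have := tendsto_finsetSum Finset.univ fun i _ => (hφ.expE_spec (hb i)).2.2
      rwa [Finset.sum_const_zero] at this
    filter_upwards [hlim.eventually (eventually_le_nhds (by positivity : (0 : ℝ) < η / 4))] with Q hQ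
    refine (Finset.sum_le_sum fun i _ => ?_).trans
      ((Finset.sum_add_distrib (f := fun i => 2 * sq φ (pinch Q.p (m 0 * P.p i * star (m 0)) -
        expE A φ (m 0 * P.p i * star (m 0))))
        (g := fun i => 2 * sq φ (expE A φ (m 0 * P.p i * star (m 0))))).trans_le ?_)
    · have := hφ.sq_add_le (sub_mem (hφ.pinch_memM Q (hb i)) (hφ.expE_memM (hb i)))
        (hφ.expE_memM (hb i))
      rwa [sub_add_cancel] at this
    · rw [← Finset.mul_sum, ← Finset.mul_sum]
      linarith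
  | succ n ih =>
    intro m hm hd
    obtain ⟨C, hC, hrow, hsmall⟩ := ih (fun x => m (x + 1)) (fun x => hm (x + 1)) hd
    have e : ∀ (Q P : Part A (1 : H →L[ℂ] H)) i,
        (∑ t : Fin (n + 1) → Fin Q.n, word Q.p m t * P.p i * star (word Q.p m t)) =
          m 0 * pinch Q.p (∑ t : Fin n → Fin Q.n, word Q.p (fun x => m (x + 1)) t * P.p i *
            star (word Q.p (fun x => m (x + 1)) t)) * star (m 0) := by
      intro Q P i
      rw [← (Fin.consEquiv fun _ => Fin Q.n).sum_comp, Fintype.sum_prod_type, pinch,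
        Finset.mul_sum, Finset.sum_mul]
      refine Finset.sum_congr rfl fun j _ => ?_
      simp only [Finset.mul_sum, Finset.sum_mul]
      refine Finset.sum_congr rfl fun t _ => ?_
      simp [word_succ, Fin.consEquiv, mul_assoc, (Q.isPart.proj j).isSelfAdjoint.star_eq]
    simp only [e]
    refine ⟨‖m 0‖ ^ 2 * C * ‖star (m 0)‖ ^ 2, by positivity, fun Q P v =>
      row_pinch Q (by positivity) (row_conj _ _ hC (hrow Q P)) v, fun η hη => ?_⟩
    obtain ⟨δ, hδ, hconj⟩ := hφ.conj_small (star_mem (hm 0)) hC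
      (div_pos hη (by positivity : (0 : ℝ) < ‖m 0‖ ^ 2 + 1))
    obtain ⟨P, hP⟩ := hsmall (δ / 2) (half_pos hδ)
    refine ⟨P, hP.mono fun Q hQ => ?_⟩
    set U := fun i => pinch Q.p (∑ t : Fin n → Fin Q.n, word Q.p (fun x => m (x + 1)) t * P.p i *
            star (word Q.p (fun x => m (x + 1)) t)) with hU
    have hp : ∀ j, Q.p j ∈ M := fun j => hφ.masa.le _ (Q.isPart.mem j)
    have hUM : ∀ i, U i ∈ M := fun i => hφ.pinch_memM Q (sum_mem fun t _ =>
      mul_mem (mul_mem (word_mem M hp _ (fun x => hm (x + 1)) t) (hφ.masa.le _ (P.isPart.mem i)))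
        (star_mem (word_mem M hp _ (fun x => hm (x + 1)) t)))
    have h1 := hconj _ U hUM (hrow Q P) (lt_of_le_of_lt hQ (half_lt_self hδ))
    rw [le_div_iff₀ (by positivity)] at h1
    calc ∑ i, sq φ (pinch Q.p (m 0 * U i * star (m 0)))
        ≤ ∑ i, ‖m 0‖ ^ 2 * sq φ (U i * star (m 0)) := Finset.sum_le_sum fun i _ => by
          refine (hφ.sq_pinch_le Q (mul_mem (mul_mem (hm 0) (hUM i)) (star_mem (hm 0)))).trans ?_
          rw [mul_assoc]
          exact hφ.sq_mul_left (hm 0) (mul_mem (hUM i) (star_mem (hm 0)))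
      _ ≤ η := by
        rw [← Finset.mul_sum]
        have h2 : 0 ≤ ∑ i, sq φ (U i * star (m 0)) :=
          Finset.sum_nonneg fun i _ => hφ.sq_nonneg' (mul_mem (hUM i) (star_mem (hm 0)))
        nlinarith

theorem row_word (a : ℕ) : ∀ (m : ℕ → H →L[ℂ] H), ∃ C : ℝ, 0 ≤ C ∧
    ∀ (Q : Part A (1 : H →L[ℂ] H)) (v : H),
      ∑ t : Fin a → Fin Q.n, ‖star (word Q.p m t) v‖ ^ 2 ≤ C * ‖v‖ ^ 2 := by
  induction a with
  | zero =>
    intro m
    refine ⟨‖star (m 0)‖ ^ 2, by positivity, fun Q v => ?_⟩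
    simp only [word_zero, Finset.univ_unique, Finset.sum_singleton, ← mul_pow]
    exact pow_le_pow_left₀ (norm_nonneg _) ((star (m 0)).le_opNorm v) 2
  | succ a ih =>
    intro m
    obtain ⟨C, hC, h⟩ := ih fun x => m (x + 1)
    refine ⟨C * ‖star (m 0)‖ ^ 2, by positivity, fun Q v => ?_⟩
    rw [← (Fin.consEquiv fun _ => Fin Q.n).sum_comp, Fintype.sum_prod_type]
    have e : ∀ j (t : Fin a → Fin Q.n),
        star (word Q.p m (Fin.consEquiv (fun _ => Fin Q.n) (j, t))) v =
          star (word Q.p (fun x => m (x + 1)) t) (Q.p j (star (m 0) v)) := fun j t => by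
      simp [word_succ, Fin.consEquiv, (Q.isPart.proj j).isSelfAdjoint.star_eq]
    simp only [e]
    calc ∑ j, ∑ t : Fin a → Fin Q.n,
          ‖star (word Q.p (fun x => m (x + 1)) t) (Q.p j (star (m 0) v))‖ ^ 2
        ≤ ∑ j, C * ‖Q.p j (star (m 0) v)‖ ^ 2 := Finset.sum_le_sum fun j _ => h Q _
      _ ≤ C * ‖star (m 0) v‖ ^ 2 := by
        rw [← Finset.mul_sum]
        exact mul_le_mul_of_nonneg_left (Q.isPart.sum_norm_sq_le _) hC
      _ ≤ C * (‖star (m 0)‖ * ‖v‖) ^ 2 := by gcongr; exact (star (m 0)).le_opNorm v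
      _ = _ := by ring

/-- The second moment of the early part. -/
theorem sum_sq_small (hφ : IsCState M A φ) (a : ℕ) : ∀ (m : ℕ → H →L[ℂ] H),
    (∀ x, m x ∈ M) → Diffuse A φ (m a) → ∀ (i : Fin a) (η : ℝ), 0 < η → ∀ᶠ Q in refF A,
      ∑ t : Fin a → Fin Q.n, sq φ (Q.p (t i) * star (word Q.p m t)) ≤ η := by
  induction a with
  | zero => intro m _ _ i; exact i.elim0
  | succ a ih =>
    intro m hm hd i η hη
    obtain ⟨C, hC, hrow⟩ := row_word (A := A) a fun x => m (x + 1)
    obtain ⟨δ, hδ, hconj⟩ := hφ.conj_small (star_mem (hm 0)) hC hη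
    have key : ∀ᶠ Q in refF A, ∑ w : Fin Q.n × (Fin a → Fin Q.n),
        sq φ (Q.p (Fin.consEquiv (fun _ => Fin Q.n) w i) *
          star (word Q.p (fun x => m (x + 1)) w.2) * Q.p w.1) < δ := by
      induction i using Fin.cases with
      | zero =>
        obtain ⟨-, -, -, hco⟩ := hφ.exists_coarse a (fun x => m (x + 1)) (fun x => hm (x + 1)) hd
        set B := (φ 1).re + 1 with hB
        have hB0 : 0 < B := by
          have := hφ.sq_nonneg' (one_mem M)
          simp [sq] at this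
          positivity
        set lam := δ / (2 * B) with hlam
        have hl : 0 < lam := by positivity
        obtain ⟨P, hP⟩ := hco (lam * δ / 2) (by positivity)
        filter_upwards [hP, eventually_refines P] with Q hQ hQP
        have hp : ∀ j, Q.p j ∈ M := fun j => hφ.masa.le _ (Q.isPart.mem j)
        have hf : ∀ K, P.p K ∈ M := fun K => hφ.masa.le _ (P.isPart.mem K)
        set Y := fun t : Fin a → Fin Q.n => star (word Q.p (fun x => m (x + 1)) t) with hY
        have hYM : ∀ t, Y t ∈ M := fun t => star_mem (word_mem M hp _ (fun x => hm (x + 1)) t)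
        set Z := fun K => ∑ t : Fin a → Fin Q.n, word Q.p (fun x => m (x + 1)) t * P.p K *
          star (word Q.p (fun x => m (x + 1)) t) with hZ
        have hZM : ∀ K, Z K ∈ M := fun K => sum_mem fun t _ =>
          mul_mem (mul_mem (word_mem M hp _ (fun x => hm (x + 1)) t) (hf K))
            (star_mem (word_mem M hp _ (fun x => hm (x + 1)) t))
        have h1 : ∀ j t, sq φ (Q.p j * Y t * Q.p j) ≤
            ∑ K, sq φ (P.p K * Y t * P.p K * Q.p j) := by
          intro j t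
          have h0 : ∀ K, 0 ≤ sq φ (P.p K * Y t * P.p K * Q.p j) := fun K =>
            hφ.sq_nonneg' (mul_mem (mul_mem (mul_mem (hf K) (hYM t)) (hf K)) (hp j))
          by_cases hj : Q.p j = 0
          · refine le_trans ?_ (Finset.sum_nonneg fun K _ => h0 K)
            simp [hj, sq]
          · obtain ⟨K, hK⟩ := Part.exists_parent hQP j hj
            have hK' : P.p K * Q.p j = Q.p j := by
              rw [← (hφ.masa.comm _ (Q.isPart.mem j) _ (P.isPart.mem K)).eq, hK]
            refine le_trans ?_ (Finset.single_le_sum (fun K _ => h0 K) (Finset.mem_univ K))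
            have e : Q.p j * Y t * Q.p j = Q.p j * (P.p K * Y t * P.p K * Q.p j) := by
              conv_rhs => rw [show Q.p j * (P.p K * Y t * P.p K * Q.p j) =
                (Q.p j * P.p K) * Y t * (P.p K * Q.p j) by simp only [mul_assoc], hK, hK']
            rw [e]
            refine (hφ.sq_mul_left (hp j)
              (mul_mem (mul_mem (mul_mem (hf K) (hYM t)) (hf K)) (hp j))).trans
              (mul_le_of_le_one_left (h0 K) ?_)
            exact pow_le_one₀ (norm_nonneg _) (opNorm_proj_le_one (Q.isPart.proj j))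
        have h2 : ∀ K, ∑ t, sq φ (P.p K * Y t * P.p K) =
            (φ (star (P.p K) * pinch Q.p (Z K))).re := by
          intro K
          have hc : ∀ j, Commute (Q.p j) (P.p K) :=
            fun j => hφ.masa.comm _ (Q.isPart.mem j) _ (P.isPart.mem K)
          rw [(P.isPart.proj K).isSelfAdjoint.star_eq, ← pinch_mul_left hc,
            hφ.map_pinch Q (mul_mem (hf K) (hZM K)), hZ, Finset.mul_sum, map_sum, Complex.re_sum]
          refine Finset.sum_congr rfl fun t _ => ?_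
          have hi := (P.isPart.proj K).isIdempotentElem.eq
          have hs := (P.isPart.proj K).isSelfAdjoint.star_eq
          have e : star (P.p K * Y t * P.p K) * (P.p K * Y t * P.p K) =
              P.p K * (star (Y t) * P.p K * Y t * P.p K) := by
            simp only [star_mul, hs, mul_assoc]
            rw [← mul_assoc (P.p K) (P.p K) (Y t * P.p K), hi]
          rw [sq, e, hφ.central _ (P.isPart.mem K) _ (mul_mem (mul_mem (mul_mem
            (star_mem (hYM t)) (hf K)) (hYM t)) (hf K)),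
            mul_assoc (star (Y t) * P.p K * Y t), hi,
            ← hφ.central _ (P.isPart.mem K) _ (mul_mem (mul_mem (star_mem (hYM t)) (hf K)) (hYM t))]
          simp [hY]
        have h3 : ∀ K, (φ (star (P.p K) * pinch Q.p (Z K))).re ≤
            (lam * sq φ (P.p K) + sq φ (pinch Q.p (Z K)) / lam) / 2 := fun K => by
          linarith [hφ.two_re_le (hf K) (hφ.pinch_memM Q (hZM K)) hl]
        have h4 : ∑ K, sq φ (P.p K) ≤ B := by
          have := hφ.sum_sq_mul_part P (one_mem M)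
          simp only [one_mul] at this
          rw [this, sq, star_one, one_mul]
          linarith
        rw [Fintype.sum_prod_type]
        calc ∑ j, ∑ t, sq φ (Q.p (Fin.consEquiv (fun _ => Fin Q.n) (j, t) 0) * Y t * Q.p j)
            = ∑ j, ∑ t, sq φ (Q.p j * Y t * Q.p j) := by simp
          _ ≤ ∑ j, ∑ t, ∑ K, sq φ (P.p K * Y t * P.p K * Q.p j) :=
              Finset.sum_le_sum fun j _ => Finset.sum_le_sum fun t _ => h1 j t
          _ = ∑ K, ∑ t, sq φ (P.p K * Y t * P.p K) := by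
              rw [Finset.sum_comm, Finset.sum_congr rfl fun t _ => Finset.sum_comm, Finset.sum_comm]
              exact Finset.sum_congr rfl fun K _ => Finset.sum_congr rfl fun t _ =>
                hφ.sum_sq_mul_part Q (mul_mem (mul_mem (hf K) (hYM t)) (hf K))
          _ ≤ ∑ K, (lam * sq φ (P.p K) + sq φ (pinch Q.p (Z K)) / lam) / 2 :=
              Finset.sum_le_sum fun K _ => (h2 K).trans_le (h3 K)
          _ < δ := by
              rw [← Finset.sum_div, Finset.sum_add_distrib, ← Finset.mul_sum, ← Finset.sum_div]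
              have e1 : (∑ K, sq φ (pinch Q.p (Z K))) / lam ≤ δ / 2 := by
                rw [div_le_iff₀ hl]; linarith
              have e2 : lam * (2 * B) = δ := by rw [hlam]; field_simp
              nlinarith [mul_le_mul_of_nonneg_left h4 hl.le]
      | succ i =>
        filter_upwards [ih (fun x => m (x + 1)) (fun x => hm (x + 1)) hd i (δ / 2) (half_pos hδ)]
          with Q hQ
        rw [Fintype.sum_prod_type, Finset.sum_comm]
        refine lt_of_le_of_lt (le_of_eq_of_le ?_ hQ) (half_lt_self hδ)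
        refine Finset.sum_congr rfl fun t _ => ?_
        simpa using hφ.sum_sq_mul_part Q (X := Q.p (t i) * star (word Q.p (fun x => m (x + 1)) t))
          (mul_mem (hφ.masa.le _ (Q.isPart.mem _)) (star_mem (word_mem M
            (fun j => hφ.masa.le _ (Q.isPart.mem j)) _ (fun x => hm (x + 1)) t)))
    filter_upwards [key] with Q hQ
    have hp : ∀ j, Q.p j ∈ M := fun j => hφ.masa.le _ (Q.isPart.mem j)
    refine le_of_eq_of_le ?_ (hconj _ (fun w : Fin Q.n × (Fin a → Fin Q.n) =>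
      Q.p (Fin.consEquiv (fun _ => Fin Q.n) w i) * star (word Q.p (fun x => m (x + 1)) w.2) *
        Q.p w.1) (fun w => mul_mem (mul_mem (hp _)
          (star_mem (word_mem M hp _ (fun x => hm (x + 1)) _))) (hp _)) (fun v => ?_) hQ)
    · rw [← (Fin.consEquiv fun _ => Fin Q.n).sum_comp]
      refine Finset.sum_congr rfl fun w _ => ?_
      simp [word_succ, Fin.consEquiv, mul_assoc, (Q.isPart.proj w.1).isSelfAdjoint.star_eq]
    · rw [Fintype.sum_prod_type]
      calc ∑ j, ∑ t : Fin a → Fin Q.n, ‖(Q.p (Fin.consEquiv (fun _ => Fin Q.n) (j, t) i) *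
              star (word Q.p (fun x => m (x + 1)) t) * Q.p j) v‖ ^ 2
          ≤ ∑ j, ∑ t : Fin a → Fin Q.n,
              ‖star (word Q.p (fun x => m (x + 1)) t) (Q.p j v)‖ ^ 2 :=
            Finset.sum_le_sum fun j _ => Finset.sum_le_sum fun t _ => pow_le_pow_left₀
              (norm_nonneg _) (norm_proj_le (Q.isPart.proj _) _) 2
        _ ≤ ∑ j, C * ‖Q.p j v‖ ^ 2 := Finset.sum_le_sum fun j _ => hrow Q _
        _ ≤ C * ‖v‖ ^ 2 := by
            rw [← Finset.mul_sum]
            exact mul_le_mul_of_nonneg_left (Q.isPart.sum_norm_sq_le v) hC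

end IsCState

end Vale.Agent.P078.General.Single
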