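import Vale.Agent.P078.Single.Tree

/-!
# A minimising tree for the square sums of conjugated cells and its large part
-/

namespace Vale.Agent.P078.General.Single

open scoped InnerProductSpace Topology ComplexOrder
open Filter

universe u

variable {H : Type u} [NormedAddCommGroup H] [InnerProductSpace ℂ H] [CompleteSpace H]
variable {M A : VonNeumannAlgebra H} {φ : (H →L[ℂ] H) →ₗ[ℂ] ℂ}

/-- `E (W f W*)`. -/
noncomputable def bE (A : VonNeumannAlgebra H) (φ : (H →L[ℂ] H) →ₗ[ℂ] ℂ) (W f : H →L[ℂ] H) :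
    H →L[ℂ] H :=
  expE A φ (W * f * star W)

/-- The square sum of a family. -/
noncomputable def ss (A : VonNeumannAlgebra H) (φ : (H →L[ℂ] H) →ₗ[ℂ] ℂ) (W : H →L[ℂ] H)
    {ι : Type*} [Fintype ι] (p : ι → H →L[ℂ] H) : ℝ :=
  ∑ i, sq φ (bE A φ W (p i))

/-- The cells generated by a sequence of projections. -/
noncomputable def cell (g : ℕ → H →L[ℂ] H) : ∀ n, (Fin n → Bool) → H →L[ℂ] H
  | 0, _ => 1
  | n + 1, s => cell g n (Fin.tail s) * (if s 0 then g n else 1 - g n)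

omit [CompleteSpace H] in
theorem cell_cons (g : ℕ → H →L[ℂ] H) (n : ℕ) (d : Bool) (s : Fin n → Bool) :
    cell g (n + 1) (Fin.cons d s) = cell g n s * (if d then g n else 1 - g n) := by
  simp [cell]

theorem isTree_cell {g : ℕ → H →L[ℂ] H} (hc : ∀ a ∈ A, ∀ b ∈ A, Commute a b)
    (hg : ∀ n, g n ∈ A) (hgp : ∀ n, IsStarProjection (g n)) : IsTree A (cell g) := by
  have hd : ∀ n (d : Bool), (if d then g n else 1 - g n) ∈ A ∧
      IsStarProjection (if d then g n else 1 - g n) := fun n d => by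
    cases d
    · exact ⟨sub_mem (one_mem A) (hg n), (hgp n).one_sub⟩
    · exact ⟨hg n, hgp n⟩
  have hmp : ∀ n s, cell g n s ∈ A ∧ IsStarProjection (cell g n s) := by
    intro n
    induction n with
    | zero => exact fun s => ⟨one_mem A, IsStarProjection.one _⟩
    | succ n ih =>
      intro s
      exact ⟨mul_mem (ih _).1 (hd n _).1,
        (ih _).2.mul (hd n (s 0)).2 (hc _ (ih _).1 _ (hd n _).1)⟩
  refine ⟨fun n s => (hmp n s).1, fun n s => (hmp n s).2, fun n s => ?_⟩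
  simp [cell_cons, mul_sub]

theorem cell_mul_g {g : ℕ → H →L[ℂ] H} (hc : ∀ a ∈ A, ∀ b ∈ A, Commute a b)
    (hg : ∀ n, g n ∈ A) (hgp : ∀ n, IsStarProjection (g n)) {j : ℕ} :
    ∀ {n : ℕ}, j < n → ∀ s, cell g n s * g j = cell g n s ∨ cell g n s * g j = 0 := by
  intro n
  induction n with
  | zero => intro h; omega
  | succ n ih =>
    intro h s
    obtain ⟨d, s, rfl⟩ : ∃ d s', s = Fin.cons d s' := ⟨s 0, Fin.tail s, (Fin.cons_self_tail s).symm⟩
    rw [cell_cons]
    rcases Nat.lt_succ_iff_lt_or_eq.1 h with h | rfl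
    · have hd : (if d then g n else 1 - g n) ∈ A := by
        cases d
        exacts [sub_mem (one_mem A) (hg n), hg n]
      rw [mul_assoc, (hc _ hd _ (hg j)).eq, ← mul_assoc]
      rcases ih h s with e | e
      · exact Or.inl (by rw [e])
      · exact Or.inr (by rw [e, zero_mul])
    · cases d
      · exact Or.inr (by simp [mul_assoc, sub_mul, (hgp j).isIdempotentElem.eq])
      · exact Or.inl (by simp [mul_assoc, (hgp j).isIdempotentElem.eq])

theorem isPart_inter (hc : ∀ a ∈ A, ∀ b ∈ A, Commute a b) {ι κ : Type*} [Fintype ι] [Fintype κ]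
    {p : ι → H →L[ℂ] H} {f : κ → H →L[ℂ] H} (hp : IsPart A 1 p) (hf : IsPart A 1 f) :
    IsPart A 1 fun w : ι × κ => p w.1 * f w.2 := by
  refine ⟨fun w => mul_mem (hp.mem _) (hf.mem _),
    fun w => (hp.proj _).mul (hf.proj _) (hc _ (hp.mem _) _ (hf.mem _)), fun w w' h => ?_, ?_⟩
  · rw [mul_assoc, ← mul_assoc (f w.2), (hc _ (hf.mem w.2) _ (hp.mem w'.1)).eq, mul_assoc (p w'.1),
      ← mul_assoc]
    rcases eq_or_ne w.1 w'.1 with e | e
    · have : w.2 ≠ w'.2 := fun e2 => h (Prod.ext e e2)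
      rw [hf.orth _ _ this, mul_zero]
    · rw [hp.orth _ _ e, zero_mul]
  · rw [Fintype.sum_prod_type, ← Fintype.sum_mul_sum, hp.sum_eq, hf.sum_eq, mul_one]

namespace IsCState

theorem bE_memA (hφ : IsCState M A φ) {W f : H →L[ℂ] H} (hW : W ∈ M) (hf : f ∈ A) :
    bE A φ W f ∈ A :=
  hφ.expE_mem (mul_mem (mul_mem hW (hφ.masa.le f hf)) (star_mem hW))

theorem expE_nonneg (hφ : IsCState M A φ) {x : H →L[ℂ] H} (hx : x ∈ M) (h0 : 0 ≤ x) :
    0 ≤ expE A φ x := by
  have := refF_neBot hφ.masa.comm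
  have hsa : IsSelfAdjoint (expE A φ x) := by
    rw [IsSelfAdjoint, ← hφ.expE_star hx, (IsSelfAdjoint.of_nonneg h0).star_eq]
  refine nonneg_of_re_inner hsa fun v => ge_of_tendsto
    ((Complex.continuous_re.tendsto _).comp ((hφ.tendsto_pinch hx v).inner tendsto_const_nhds))
    (.of_forall fun Q => ?_)
  simp only [Function.comp_apply, pinch, sum_apply, mul_apply_eq_comp, sum_inner, Complex.re_sum]
  refine Finset.sum_nonneg fun j _ => ?_
  rw [inner_sa (Q.isPart.proj j).isSelfAdjoint]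
  exact re_inner_nonneg_of_nonneg h0 _

theorem bE_nonneg (hφ : IsCState M A φ) {W f : H →L[ℂ] H} (hW : W ∈ M) (hf : f ∈ A)
    (hfp : IsStarProjection f) : 0 ≤ bE A φ W f := by
  refine hφ.expE_nonneg (mul_mem (mul_mem hW (hφ.masa.le f hf)) (star_mem hW)) ?_
  have e : W * f * star W = star (f * star W) * (f * star W) := by
    rw [star_mul, star_star, hfp.isSelfAdjoint.star_eq, mul_assoc W f (f * star W),
      ← mul_assoc f f, hfp.isIdempotentElem.eq]
    simp only [mul_assoc]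
  rw [e]
  exact star_mul_self_nonneg _

theorem bE_add (hφ : IsCState M A φ) {W f f' : H →L[ℂ] H} (hW : W ∈ M) (hf : f ∈ A) (hf' : f' ∈ A) :
    bE A φ W (f + f') = bE A φ W f + bE A φ W f' := by
  rw [bE, mul_add, add_mul, hφ.expE_add (mul_mem (mul_mem hW (hφ.masa.le f hf)) (star_mem hW))
    (mul_mem (mul_mem hW (hφ.masa.le f' hf')) (star_mem hW))]
  rfl

theorem map_mul_nonneg (hφ : IsCState M A φ) {a b : H →L[ℂ] H} (ha : a ∈ A) (hb : b ∈ A)
    (ha0 : 0 ≤ a) (hb0 : 0 ≤ b) : 0 ≤ (φ (a * b)).re := by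
  obtain ⟨s, hs, hsa, rfl⟩ := exists_sqrt A ha ha0
  obtain ⟨t, ht, hta, rfl⟩ := exists_sqrt A hb hb0
  have hc : Commute s t := hφ.masa.comm s hs t ht
  have e : s * s * (t * t) = star (s * t) * (s * t) := by
    rw [star_mul, hsa.star_eq, hta.star_eq, ← hc.eq, hc.mul_mul_mul_comm]
  rw [e]
  exact hφ.sq_nonneg' (mul_mem (hφ.masa.le s hs) (hφ.masa.le t ht))

theorem sq_eq_map (φ : (H →L[ℂ] H) →ₗ[ℂ] ℂ) {a : H →L[ℂ] H} (ha : IsSelfAdjoint a) :
    sq φ a = (φ (a * a)).re := by rw [sq, ha.star_eq]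

theorem ss_inter_le (hφ : IsCState M A φ) {W : H →L[ℂ] H} (hW : W ∈ M) {ι κ : Type*} [Fintype ι]
    [Fintype κ] {p : ι → H →L[ℂ] H} {f : κ → H →L[ℂ] H} (hp : IsPart A 1 p) (hf : IsPart A 1 f) :
    ss A φ W (fun w : ι × κ => p w.1 * f w.2) ≤ ss A φ W f := by
  classical
  rw [ss, ss, Fintype.sum_prod_type, Finset.sum_comm]
  refine Finset.sum_le_sum fun k _ => ?_
  have hm : ∀ i, p i * f k ∈ A := fun i => mul_mem (hp.mem i) (hf.mem k)
  have hb : ∀ i, 0 ≤ bE A φ W (p i * f k) := fun i =>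
    hφ.bE_nonneg hW (hm i) ((hp.proj i).mul (hf.proj k) (hφ.masa.comm _ (hp.mem i) _ (hf.mem k)))
  have hsum : ∀ s : Finset ι, bE A φ W (∑ i ∈ s, p i * f k) = ∑ i ∈ s, bE A φ W (p i * f k) := by
    intro s
    induction s using Finset.induction_on with
    | empty =>
      simp only [Finset.sum_empty, bE, mul_zero, zero_mul]
      exact hφ.expE_of_mem (zero_mem A)
    | insert i s hi ih =>
      rw [Finset.sum_insert hi, Finset.sum_insert hi,
        hφ.bE_add hW (hm i) (sum_mem fun j _ => hm j), ih]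
  have e : bE A φ W (f k) = ∑ i, bE A φ W (p i * f k) := by
    rw [← hsum, ← Finset.sum_mul, hp.sum_eq, one_mul]
  rw [e, sq_eq_map φ (isSelfAdjoint_sum _ fun i _ => IsSelfAdjoint.of_nonneg (hb i)),
    Finset.sum_mul_sum, map_sum, Complex.re_sum]
  refine Finset.sum_le_sum fun i _ => ?_
  rw [sq_eq_map φ (IsSelfAdjoint.of_nonneg (hb i)), map_sum, Complex.re_sum]
  exact Finset.single_le_sum (f := fun j => (φ (bE A φ W (p i * f k) * bE A φ W (p j * f k))).re)
    (fun j _ => hφ.map_mul_nonneg (hφ.bE_memA hW (hm i)) (hφ.bE_memA hW (hm j)) (hb i) (hb j))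
    (Finset.mem_univ i)

theorem ss_nonneg (hφ : IsCState M A φ) {W : H →L[ℂ] H} (hW : W ∈ M) {ι : Type*} [Fintype ι]
    {p : ι → H →L[ℂ] H} (hp : IsPart A 1 p) : 0 ≤ ss A φ W p :=
  Finset.sum_nonneg fun i _ => hφ.sq_nonneg' (hφ.masa.le _ (hφ.bE_memA hW (hp.mem i)))

theorem ss_refine_le (hφ : IsCState M A φ) {W : H →L[ℂ] H} (hW : W ∈ M) {ι κ : Type*} [Fintype ι]
    [Fintype κ] {p : ι → H →L[ℂ] H} {f : κ → H →L[ℂ] H} (hp : IsPart A 1 p) (hf : IsPart A 1 f)
    (h : ∀ i k, p i * f k = p i ∨ p i * f k = 0) : ss A φ W p ≤ ss A φ W f := by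
  refine le_trans (le_of_eq ?_) (hφ.ss_inter_le hW hp hf)
  rw [ss, ss, Fintype.sum_prod_type]
  refine Finset.sum_congr rfl fun i _ => ?_
  have z : bE A φ W (0 : H →L[ℂ] H) = 0 := by
    simp only [bE, mul_zero, zero_mul]
    exact hφ.expE_of_mem (zero_mem A)
  have zs : sq φ (0 : H →L[ℂ] H) = 0 := by simp [sq]
  by_cases hi : p i = 0
  · simp [hi, z, zs]
  obtain ⟨k, hk⟩ : ∃ k, p i * f k = p i := by
    by_contra hne
    push Not at hne
    refine hi ?_
    rw [← mul_one (p i), ← hf.sum_eq, Finset.mul_sum]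
    exact Finset.sum_eq_zero fun k _ => (h i k).resolve_left (hne k)
  rw [Finset.sum_eq_single k, hk]
  · intro k' _ hne
    rw [← hk, mul_assoc, hf.orth k k' hne.symm, mul_zero, z, zs]
  · exact fun h => absurd (Finset.mem_univ k) h

/-- The infimum of the square sums. -/
noncomputable def ssInf (A : VonNeumannAlgebra H) (φ : (H →L[ℂ] H) →ₗ[ℂ] ℂ) (W : H →L[ℂ] H) : ℝ :=
  ⨅ P : Part A (1 : H →L[ℂ] H), ss A φ W P.p

theorem ssInf_le (hφ : IsCState M A φ) {W : H →L[ℂ] H} (hW : W ∈ M) {ι : Type*} [Fintype ι]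
    {p : ι → H →L[ℂ] H} (hp : IsPart A 1 p) : ssInf A φ W ≤ ss A φ W p := by
  classical
  have hbd : BddBelow (Set.range fun P : Part A (1 : H →L[ℂ] H) => ss A φ W P.p) :=
    ⟨0, by rintro _ ⟨P, rfl⟩; exact hφ.ss_nonneg hW P.isPart⟩
  let e := (Fintype.equivFin ι).symm
  let P : Part A (1 : H →L[ℂ] H) := ⟨Fintype.card ι, fun j => p (e j),
    ⟨fun j => hp.mem _, fun j => hp.proj _, fun i j h => hp.orth _ _ (e.injective.ne h),
      (e.sum_comp p).trans hp.sum_eq⟩⟩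
  refine (ciInf_le hbd P).trans (le_of_eq ?_)
  exact e.sum_comp fun i => sq φ (bE A φ W (p i))

theorem exists_tree (hφ : IsCState M A φ) {W : H →L[ℂ] H} (hW : W ∈ M) :
    ∃ u, IsTree A u ∧ u 0 Fin.elim0 = (1 : H →L[ℂ] H) ∧
      Tendsto (fun n => ss A φ W (u n)) atTop (𝓝 (ssInf A φ W)) := by
  classical
  have : Nonempty (Part A (1 : H →L[ℂ] H)) := ⟨Part.triv (one_mem A) (IsStarProjection.one _)⟩
  choose P hP using fun k : ℕ => exists_lt_of_ciInf_lt
    (lt_add_of_pos_right (ssInf A φ W) (show (0 : ℝ) < 1 / ((k : ℝ) + 1) by positivity))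
  let g : ℕ → H →L[ℂ] H := fun j =>
    if h : (Nat.unpair j).2 < (P (Nat.unpair j).1).n then (P (Nat.unpair j).1).p ⟨_, h⟩ else 0
  have hg : ∀ j, g j ∈ A ∧ IsStarProjection (g j) := fun j => by
    simp only [g]
    split_ifs with h
    exacts [⟨(P _).isPart.mem _, (P _).isPart.proj _⟩, ⟨zero_mem A, IsStarProjection.zero _⟩]
  have hu := isTree_cell hφ.masa.comm (fun j => (hg j).1) fun j => (hg j).2
  have hpart : ∀ n, IsPart A (1 : H →L[ℂ] H) (cell g n) := fun n => hu.isPart hφ.masa.comm n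
  refine ⟨cell g, hu, rfl, Metric.tendsto_atTop.2 fun η hη => ?_⟩
  obtain ⟨k, hk⟩ := exists_nat_one_div_lt hη
  refine ⟨Finset.univ.sup fun i : Fin (P k).n => Nat.pair k i.1 + 1, fun n hn => ?_⟩
  have h1 : ss A φ W (cell g n) ≤ ss A φ W (P k).p := by
    refine hφ.ss_refine_le hW (hpart n) (P k).isPart fun s i => ?_
    have hlt : Nat.pair k i.1 < n := lt_of_lt_of_le (Nat.lt_succ_self _)
      (le_trans (Finset.le_sup (f := fun i : Fin (P k).n => Nat.pair k i.1 + 1) (Finset.mem_univ i)) hn)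
    have hgi : g (Nat.pair k i.1) = (P k).p i := by
      simp only [g]
      generalize hz : Nat.unpair (Nat.pair k i.1) = z
      rw [Nat.unpair_pair] at hz
      subst hz
      rw [dif_pos i.2]
    rw [← hgi]
    exact cell_mul_g hφ.masa.comm (fun j => (hg j).1) (fun j => (hg j).2) hlt s
  rw [Real.dist_eq, abs_of_nonneg (sub_nonneg.2 (hφ.ssInf_le hW (hpart n)))]
  linarith [hP k]

end IsCState

end Vale.Agent.P078.General.Single
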