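import Vale.Agent.P078.General.Approx
import Vale.Agent.P078.Single.Defs

/-!
# The classes of inclusions in the statement of the result
-/

namespace Vale.Agent.P078.General.Single

universe u

variable {H : Type u} [NormedAddCommGroup H] [InnerProductSpace ℂ H] [CompleteSpace H]

/-- A MASA of an algebra with a trace family. -/
def HasTrace (M A : VonNeumannAlgebra H) : Prop :=
  IsMasa M A ∧ ∃ (ι : Type u) (ξ : ι → H), IsTraceFamily M ξ

/-- A MASA whose centralised part carries a trace family. -/
def HasTraceOn (M A : VonNeumannAlgebra H) : Prop :=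
  IsMasa M A ∧ ∃ (z : H →L[ℂ] H) (ι : Type u) (ξ : ι → H), z ∈ A ∧ IsStarProjection z ∧
    IsTraceFamilyOn M z ξ ∧ NoCentralised M A (1 - z)

/-- A MASA with centralised separating vector states, approximable by semifinite algebras. -/
def HasApprox (M A : VonNeumannAlgebra H) : Prop :=
  IsMasa M A ∧ ∃ (ι : Type u) (η : ι → H),
    IsCentralisedSeparating M A η ∧ ApproxSemifinite M A

/-- One bound `r ≤ C / ε ^ 2` so-paves all selfadjoint elements for all inclusions in `P`. -/
def SqBound
    (P : ∀ (H : Type u) [NormedAddCommGroup H] [InnerProductSpace ℂ H] [CompleteSpace H],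
      VonNeumannAlgebra H → VonNeumannAlgebra H → Prop) : Prop :=
  ∃ C : ℝ, 0 < C ∧ ∀ ε : ℝ, 0 < ε → ε ≤ 1 → ∃ r : ℕ, 0 < r ∧ (r : ℝ) ≤ C / ε ^ 2 ∧
    ∀ (H : Type u) [NormedAddCommGroup H] [InnerProductSpace ℂ H] [CompleteSpace H]
      (M A : VonNeumannAlgebra H), P H M A → ∀ x ∈ M, IsSelfAdjoint x → SoPavable M A ε r x

end Vale.Agent.P078.General.Single
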