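import Vale.Agent.P078.Single.State

/-!
# The expectation onto a MASA with a centralised state, as the strong limit of pinchings
-/

namespace Vale.Agent.P078.General.Single

open scoped InnerProductSpace Topology ComplexOrder
open Filter

universe u

variable {H : Type u} [NormedAddCommGroup H] [InnerProductSpace ℂ H] [CompleteSpace H]
variable {M A : VonNeumannAlgebra H} {φ : (H →L[ℂ] H) →ₗ[ℂ] ℂ}

/-- Refinement of partitions of one. -/
noncomputable def refF (A : VonNeumannAlgebra H) : Filter (Part A (1 : H →L[ℂ] H)) :=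
  ⨅ P, 𝓟 {Q | Part.Refines Q P}

/-- The partition `f, 1 - f`. -/
def twoPart {f : H →L[ℂ] H} (hf : f ∈ A) (hfp : IsStarProjection f) : Part A (1 : H →L[ℂ] H) where
  n := 2
  p := ![f, 1 - f]
  isPart := by
    refine ⟨fun i => ?_, fun i => ?_, fun i j hij => ?_, ?_⟩
    · fin_cases i
      · exact hf
      · exact sub_mem (one_mem A) hf
    · fin_cases i
      · exact hfp
      · exact hfp.one_sub
    · fin_cases i <;> fin_cases j
      · exact absurd rfl hij
      · simp [mul_sub, hfp.isIdempotentElem.eq]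
      · simp [sub_mul, hfp.isIdempotentElem.eq]
      · exact absurd rfl hij
    · simp [Fin.sum_univ_two]

theorem eventually_refines (P : Part A (1 : H →L[ℂ] H)) :
    ∀ᶠ Q in refF A, Part.Refines Q P :=
  mem_iInf_of_mem P (mem_principal_self _)

theorem refF_neBot (hc : ∀ a ∈ A, ∀ b ∈ A, Commute a b) : (refF A).NeBot := by
  have : Nonempty (Part A (1 : H →L[ℂ] H)) := ⟨Part.triv (one_mem A) (IsStarProjection.one _)⟩
  refine iInf_neBot_of_directed' (fun P Q => ⟨Part.inf hc P Q, ?_, ?_⟩) fun P => ?_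
  · exact le_principal_iff.2 fun R hR => Part.refines_trans hR (Part.inf_refines_left hc P Q)
  · exact le_principal_iff.2 fun R hR => Part.refines_trans hR (Part.inf_refines_right hc P Q)
  · exact principal_neBot_iff.2 ⟨P, Part.refines_refl P⟩

omit [CompleteSpace H] in
theorem pinch_add {ι : Type*} [Fintype ι] (p : ι → H →L[ℂ] H) (x y : H →L[ℂ] H) :
    pinch p (x + y) = pinch p x + pinch p y := by
  simp [pinch, mul_add, add_mul, Finset.sum_add_distrib]

omit [CompleteSpace H] in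
theorem pinch_smul {ι : Type*} [Fintype ι] (p : ι → H →L[ℂ] H) (c : ℂ) (x : H →L[ℂ] H) :
    pinch p (c • x) = c • pinch p x := by
  simp [pinch, Finset.smul_sum]

omit [CompleteSpace H] in
theorem pinch_mul_left {ι : Type*} [Fintype ι] {p : ι → H →L[ℂ] H} {a : H →L[ℂ] H}
    (h : ∀ i, Commute (p i) a) (x : H →L[ℂ] H) : pinch p (a * x) = a * pinch p x := by
  rw [pinch, pinch, Finset.mul_sum]
  exact Finset.sum_congr rfl fun i _ => by
    calc p i * (a * x) * p i = (p i * a) * x * p i := by simp only [mul_assoc]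
      _ = (a * p i) * x * p i := by rw [(h i).eq]
      _ = _ := by simp only [mul_assoc]

omit [CompleteSpace H] in
theorem pinch_mul_right {ι : Type*} [Fintype ι] {p : ι → H →L[ℂ] H} {a : H →L[ℂ] H}
    (h : ∀ i, Commute (p i) a) (x : H →L[ℂ] H) : pinch p (x * a) = pinch p x * a := by
  rw [pinch, pinch, Finset.sum_mul]
  exact Finset.sum_congr rfl fun i _ => by
    calc p i * (x * a) * p i = p i * x * (a * p i) := by simp only [mul_assoc]
      _ = p i * x * (p i * a) := by rw [(h i).eq]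
      _ = _ := by simp only [mul_assoc]

namespace IsCState

theorem pinch_memM (hφ : IsCState M A φ) (Q : Part A (1 : H →L[ℂ] H)) {y : H →L[ℂ] H}
    (hy : y ∈ M) : pinch Q.p y ∈ M :=
  Q.isPart.pinch_mem hφ.masa.le hy

theorem map_pinch (hφ : IsCState M A φ) (Q : Part A (1 : H →L[ℂ] H)) {y : H →L[ℂ] H}
    (hy : y ∈ M) : φ (pinch Q.p y) = φ y := by
  simp only [pinch, map_sum]
  have e : ∀ i, φ (Q.p i * y * Q.p i) = φ (y * Q.p i) := fun i => by
    rw [mul_assoc, hφ.central _ (Q.isPart.mem i) _ (mul_mem hy (hφ.masa.le _ (Q.isPart.mem i))),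
      mul_assoc, (Q.isPart.proj i).isIdempotentElem.eq]
  rw [Finset.sum_congr rfl fun i _ => e i, ← map_sum, ← Finset.mul_sum, Q.isPart.sum_eq, mul_one]

theorem pinch_inner (hφ : IsCState M A φ) {Q P : Part A (1 : H →L[ℂ] H)}
    (h : Part.Refines Q P) {y : H →L[ℂ] H} (hy : y ∈ M) :
    φ (star (pinch Q.p y) * pinch P.p y) = φ (star (pinch Q.p y) * pinch Q.p y) := by
  have hc : ∀ i, Commute (Q.p i) (star (pinch Q.p y)) := fun i => by
    rw [Q.isPart.star_pinch]
    exact Q.isPart.commute_pinch i _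
  rw [← hφ.map_pinch Q (mul_mem (star_mem (hφ.pinch_memM Q hy)) (hφ.pinch_memM P hy)),
    pinch_mul_left hc, Part.pinch_pinch hφ.masa.comm h]

theorem sq_pinch_sub (hφ : IsCState M A φ) {Q P : Part A (1 : H →L[ℂ] H)}
    (h : Part.Refines Q P) {y : H →L[ℂ] H} (hy : y ∈ M) :
    sq φ (pinch P.p y - pinch Q.p y) = sq φ (pinch P.p y) - sq φ (pinch Q.p y) := by
  have hP := hφ.pinch_memM P hy
  have hQ := hφ.pinch_memM Q hy
  rw [sub_eq_add_neg, ← neg_one_smul ℂ (pinch Q.p y), hφ.sq_add_smul hP hQ]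
  have e : φ (star (pinch P.p y) * pinch Q.p y) = starRingEnd ℂ (φ (star (pinch Q.p y) * pinch Q.p y)) := by
    rw [← hφ.pinch_inner h hy, ← hφ.map_star (mul_mem (star_mem hQ) hP), star_mul, star_star]
  rw [e, sq, sq]
  simp
  ring

theorem exists_exp (hφ : IsCState M A φ) {y : H →L[ℂ] H} (hy : y ∈ M) :
    ∃ a ∈ A, ‖a‖ ≤ ‖y‖ ∧ Tendsto (fun Q => sq φ (pinch Q.p y - a)) (refF A) (𝓝 0) := by
  classical
  set g := ⨅ Q : Part A (1 : H →L[ℂ] H), sq φ (pinch Q.p y) with hg
  have : Nonempty (Part A (1 : H →L[ℂ] H)) := ⟨Part.triv (one_mem A) (IsStarProjection.one _)⟩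
  have hbdd : BddBelow (Set.range fun Q : Part A (1 : H →L[ℂ] H) => sq φ (pinch Q.p y)) :=
    ⟨0, by rintro _ ⟨Q, rfl⟩; exact hφ.sq_nonneg' (hφ.pinch_memM Q hy)⟩
  have hex : ∀ n : ℕ, ∃ Q : Part A (1 : H →L[ℂ] H), sq φ (pinch Q.p y) < g + 1 / ((n : ℝ) + 1) :=
    fun n => exists_lt_of_ciInf_lt (by rw [← hg]; linarith [show (0 : ℝ) < 1 / ((n : ℝ) + 1) by positivity])
  choose P hP using hex
  let R : ℕ → Part A (1 : H →L[ℂ] H) := fun n =>
    Nat.rec (P 0) (fun k r => Part.inf hφ.masa.comm (P (k + 1)) r) n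
  have hRref : ∀ {m n}, m ≤ n → Part.Refines (R n) (R m) := fun {m n} h => by
    induction h with
    | refl => exact Part.refines_refl _
    | step _ ih => exact Part.refines_trans (Part.inf_refines_right hφ.masa.comm _ _) ih
  have hmono : ∀ {Q Q' : Part A (1 : H →L[ℂ] H)}, Part.Refines Q Q' →
      sq φ (pinch Q.p y) ≤ sq φ (pinch Q'.p y) := fun {Q Q'} h => by
    have := hφ.sq_pinch_sub h hy
    linarith [hφ.sq_nonneg' (sub_mem (hφ.pinch_memM Q' hy) (hφ.pinch_memM Q hy))]
  have hR : ∀ n, sq φ (pinch (R n).p y) < g + 1 / ((n : ℝ) + 1) := fun n => by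
    refine lt_of_le_of_lt (hmono ?_) (hP n)
    cases n with
    | zero => exact Part.refines_refl _
    | succ k => exact Part.inf_refines_left hφ.masa.comm _ _
  have hclose : ∀ n (Q : Part A (1 : H →L[ℂ] H)), Part.Refines Q (R n) →
      sq φ (pinch (R n).p y - pinch Q.p y) ≤ 1 / ((n : ℝ) + 1) := fun n Q hQ => by
    rw [hφ.sq_pinch_sub hQ hy]
    linarith [hR n, ciInf_le hbdd Q]
  have hsymm : ∀ a b : H →L[ℂ] H, sq φ (a - b) = sq φ (b - a) := fun a b => by
    rw [← neg_sub b a, sq, sq, star_neg, neg_mul_neg]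
  obtain ⟨a, haM, han, hav, hasq⟩ := hφ.exists_limit (x := fun n => pinch (R n).p y) (c := ‖y‖)
    (fun n => hφ.pinch_memM _ hy) (fun n => (R n).isPart.norm_pinch_le y) (by
      intro η hη
      obtain ⟨N, hN⟩ := exists_nat_gt (4 / η)
      refine ⟨N, fun m hm n hn => ?_⟩
      have hb : 1 / ((N : ℝ) + 1) ≤ η / 4 := by
        rw [div_le_iff₀ (by positivity)]
        rw [div_lt_iff₀ hη] at hN
        nlinarith
      have h1 := (hclose N (R m) (hRref hm)).trans hb
      have h2 := (hclose N (R n) (hRref hn)).trans hb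
      have h3 := hφ.sqrt_sub_le (sub_mem (hφ.pinch_memM (R N) hy) (hφ.pinch_memM (R n) hy))
        (sub_mem (hφ.pinch_memM (R N) hy) (hφ.pinch_memM (R m) hy))
      rw [sub_sub_sub_cancel_left] at h3
      have h4 : √(sq φ (pinch (R m).p y - pinch (R n).p y)) ≤ √η := by
        refine h3.trans ((add_le_add (Real.sqrt_le_sqrt h2) (Real.sqrt_le_sqrt h1)).trans ?_)
        rw [show η / 4 = (1 / 2) ^ 2 * η by ring, Real.sqrt_mul (by positivity),
          Real.sqrt_sq (by norm_num)]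
        linarith
      exact (Real.sqrt_le_sqrt_iff hη.le).1 h4)
  have hcau : Tendsto (fun Q => sq φ (pinch Q.p y - a)) (refF A) (𝓝 0) := by
    refine Metric.tendsto_nhds.2 fun η hη => ?_
    have h1 : ∀ᶠ n : ℕ in atTop, sq φ (pinch (R n).p y - a) < η / 4 :=
      hasq.eventually (eventually_lt_nhds (by positivity))
    have h2 : ∀ᶠ n : ℕ in atTop, 1 / ((n : ℝ) + 1) < η / 4 :=
      tendsto_one_div_add_atTop_nhds_zero_nat.eventually (eventually_lt_nhds (by positivity))
    obtain ⟨n, hn1, hn2⟩ := (h1.and h2).exists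
    filter_upwards [eventually_refines (R n)] with Q hQ
    have hM1 := sub_mem (hφ.pinch_memM (R n) hy) haM
    have hM2 := sub_mem (hφ.pinch_memM (R n) hy) (hφ.pinch_memM Q hy)
    have h3 := hφ.sqrt_sub_le hM1 hM2
    rw [sub_sub_sub_cancel_left] at h3
    rw [dist_zero_right, Real.norm_of_nonneg (hφ.sq_nonneg' (sub_mem (hφ.pinch_memM Q hy) haM))]
    have h4 : √(sq φ (pinch Q.p y - a)) < √η := by
      refine h3.trans_lt ((add_lt_add_of_lt_of_le (Real.sqrt_lt_sqrt (hφ.sq_nonneg' hM1) hn1)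
        (Real.sqrt_le_sqrt ((hclose n Q hQ).trans hn2.le))).trans_le ?_)
      rw [show η / 4 = (1 / 2) ^ 2 * η by ring, Real.sqrt_mul (by positivity),
        Real.sqrt_sq (by norm_num)]
      linarith
    exact (Real.sqrt_lt_sqrt_iff (hφ.sq_nonneg' (sub_mem (hφ.pinch_memM Q hy) haM))).1 h4
  refine ⟨a, hφ.masa.max a haM fun b hb => commute_of_commute_proj A (fun f hf hfp => ?_) hb, han,
    hcau⟩
  have hne := refF_neBot hφ.masa.comm
  refine ContinuousLinearMap.ext fun v => ?_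
  have hs : ∀ w, Tendsto (fun Q : Part A (1 : H →L[ℂ] H) => pinch Q.p y w) (refF A) (𝓝 (a w)) :=
    fun w => by
    have := hφ.apply_tendsto_zero (fun Q => sub_mem (hφ.pinch_memM Q hy) haM)
      (c := ‖y‖ + ‖a‖) (fun Q => (norm_sub_le _ _).trans (by linarith [Q.isPart.norm_pinch_le y]))
      hcau w
    simpa [sub_apply] using this.add_const (a w)
  simp only [mul_apply_eq_comp]
  refine tendsto_nhds_unique ((f.continuous.tendsto _).comp (hs v)) ((hs (f v)).congr' ?_)
  filter_upwards [eventually_refines (twoPart hf hfp)] with Q hQ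
  have hc : Commute f (pinch Q.p y) :=
    Part.commute_pinch_of_refines hφ.masa.comm hQ (P := twoPart hf hfp) (0 : Fin 2) y
  exact (congrArg (fun T : H →L[ℂ] H => T v) hc.eq).symm

end IsCState

open Classical in
/-- The expectation. -/
noncomputable def expE (A : VonNeumannAlgebra H) (φ : (H →L[ℂ] H) →ₗ[ℂ] ℂ) (y : H →L[ℂ] H) :
    H →L[ℂ] H :=
  if h : ∃ a ∈ A, ‖a‖ ≤ ‖y‖ ∧ Tendsto (fun Q => sq φ (pinch Q.p y - a)) (refF A) (𝓝 0) then
    h.choose else 0

namespace IsCState

theorem expE_spec (hφ : IsCState M A φ) {y : H →L[ℂ] H} (hy : y ∈ M) :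
    expE A φ y ∈ A ∧ ‖expE A φ y‖ ≤ ‖y‖ ∧
      Tendsto (fun Q => sq φ (pinch Q.p y - expE A φ y)) (refF A) (𝓝 0) := by
  have h := hφ.exists_exp hy
  rw [expE, dif_pos h]
  exact h.choose_spec

theorem expE_mem (hφ : IsCState M A φ) {y : H →L[ℂ] H} (hy : y ∈ M) : expE A φ y ∈ A :=
  (hφ.expE_spec hy).1

theorem expE_memM (hφ : IsCState M A φ) {y : H →L[ℂ] H} (hy : y ∈ M) : expE A φ y ∈ M :=
  hφ.masa.le _ (hφ.expE_mem hy)

theorem tendsto_pinch (hφ : IsCState M A φ) {y : H →L[ℂ] H} (hy : y ∈ M) (v : H) :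
    Tendsto (fun Q : Part A (1 : H →L[ℂ] H) => pinch Q.p y v) (refF A) (𝓝 (expE A φ y v)) := by
  have := hφ.apply_tendsto_zero (fun Q => sub_mem (hφ.pinch_memM Q hy) (hφ.expE_memM hy))
    (c := ‖y‖ + ‖y‖) (fun Q => (norm_sub_le _ _).trans
      (add_le_add (Q.isPart.norm_pinch_le y) (hφ.expE_spec hy).2.1))
    (hφ.expE_spec hy).2.2 v
  simpa [sub_apply] using this.add_const (expE A φ y v)

theorem expE_unique (hφ : IsCState M A φ) {y a : H →L[ℂ] H} (hy : y ∈ M)
    (h : ∀ v, Tendsto (fun Q : Part A (1 : H →L[ℂ] H) => pinch Q.p y v) (refF A) (𝓝 (a v))) :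
    expE A φ y = a :=
  ContinuousLinearMap.ext fun v =>
    have := refF_neBot hφ.masa.comm
    tendsto_nhds_unique (hφ.tendsto_pinch hy v) (h v)

theorem expE_add (hφ : IsCState M A φ) {x y : H →L[ℂ] H} (hx : x ∈ M) (hy : y ∈ M) :
    expE A φ (x + y) = expE A φ x + expE A φ y :=
  hφ.expE_unique (add_mem hx hy) fun v => by
    simpa [pinch_add, add_apply] using (hφ.tendsto_pinch hx v).add (hφ.tendsto_pinch hy v)

theorem expE_smul (hφ : IsCState M A φ) {x : H →L[ℂ] H} (hx : x ∈ M) (c : ℂ) :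
    expE A φ (c • x) = c • expE A φ x :=
  hφ.expE_unique (smul_mem' M hx c) fun v => by
    simpa [pinch_smul, smul_apply] using (hφ.tendsto_pinch hx v).const_smul c

theorem expE_sub (hφ : IsCState M A φ) {x y : H →L[ℂ] H} (hx : x ∈ M) (hy : y ∈ M) :
    expE A φ (x - y) = expE A φ x - expE A φ y :=
  hφ.expE_unique (sub_mem hx hy) fun v => by
    simpa [pinch_sub, sub_apply] using (hφ.tendsto_pinch hx v).sub (hφ.tendsto_pinch hy v)

theorem expE_of_mem (hφ : IsCState M A φ) {a : H →L[ℂ] H} (ha : a ∈ A) : expE A φ a = a :=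
  hφ.expE_unique (hφ.masa.le a ha) fun v => by
    refine tendsto_const_nhds.congr' (.of_forall fun Q => ?_)
    simp only [Q.isPart.pinch_of_commute fun i => hφ.masa.comm _ (Q.isPart.mem i) a ha, mul_one]

theorem expE_mul_left (hφ : IsCState M A φ) {a x : H →L[ℂ] H} (ha : a ∈ A) (hx : x ∈ M) :
    expE A φ (a * x) = a * expE A φ x :=
  hφ.expE_unique (mul_mem (hφ.masa.le a ha) hx) fun v => by
    refine ((a.continuous.tendsto _).comp (hφ.tendsto_pinch hx v)).congr' (.of_forall fun Q => ?_)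
    simp only [Function.comp_apply]
    rw [pinch_mul_left fun i => hφ.masa.comm _ (Q.isPart.mem i) a ha]

    simp

theorem expE_mul_right (hφ : IsCState M A φ) {a x : H →L[ℂ] H} (ha : a ∈ A) (hx : x ∈ M) :
    expE A φ (x * a) = expE A φ x * a :=
  hφ.expE_unique (mul_mem hx (hφ.masa.le a ha)) fun v => by
    refine (hφ.tendsto_pinch hx (a v)).congr' (.of_forall fun Q => ?_)
    show _ = pinch Q.p (x * a) v
    rw [pinch_mul_right fun i => hφ.masa.comm _ (Q.isPart.mem i) a ha]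
    rfl

theorem expE_star (hφ : IsCState M A φ) {x : H →L[ℂ] H} (hx : x ∈ M) :
    expE A φ (star x) = star (expE A φ x) := by
  have := refF_neBot hφ.masa.comm
  refine ContinuousLinearMap.ext fun v => ext_inner_right ℂ fun w => ?_
  rw [ContinuousLinearMap.star_eq_adjoint (expE A φ x), ContinuousLinearMap.adjoint_inner_left]
  refine tendsto_nhds_unique ((hφ.tendsto_pinch (star_mem hx) v).inner tendsto_const_nhds)
    ((tendsto_const_nhds.inner (hφ.tendsto_pinch hx w)).congr' (.of_forall fun Q => ?_))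
  simp only [← Q.isPart.star_pinch]
  rw [ContinuousLinearMap.star_eq_adjoint (pinch Q.p x),
    ContinuousLinearMap.adjoint_inner_left]

theorem map_expE (hφ : IsCState M A φ) {x : H →L[ℂ] H} (hx : x ∈ M) : φ (expE A φ x) = φ x := by
  have := refF_neBot hφ.masa.comm
  rw [← sub_eq_zero, ← norm_le_zero_iff]
  have h := ((hφ.expE_spec hx).2.2.sqrt).const_mul (√(sq φ (1 : H →L[ℂ] H)))
  rw [Real.sqrt_zero, mul_zero] at h
  refine ge_of_tendsto h (.of_forall fun Q => ?_)
  have := hφ.norm_le_sqrt (one_mem M) (sub_mem (hφ.pinch_memM Q hx) (hφ.expE_memM hx))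
  rw [star_one, one_mul, map_sub, hφ.map_pinch Q hx] at this
  rwa [norm_sub_rev]

theorem expE_eq_zero (hφ : IsCState M A φ) {x : H →L[ℂ] H} (hx : x ∈ M) (hx0 : 0 ≤ x)
    (h : expE A φ x = 0) : x = 0 := by
  obtain ⟨s, hs, hsa, rfl⟩ := exists_sqrt M hx hx0
  have h1 := hφ.map_expE hx
  rw [h, map_zero] at h1
  rw [hφ.faithful s hs (by rw [hsa.star_eq, h1]), mul_zero]

end IsCState

end Vale.Agent.P078.General.Single
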