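import Vale.Agent.P078.General.Mixed

/-!
# A faithful centralised normal state of a MASA: basic estimates

`IsCState M A φ`: `φ` is a linear functional, strongly continuous on bounded parts of `M`, positive
and faithful on `M`, with `φ (a y) = φ (y a)` for `a ∈ A`.
-/

namespace Vale.Agent.P078.General.Single

open scoped InnerProductSpace Topology ComplexOrder
open Filter

universe u

variable {H : Type u} [NormedAddCommGroup H] [InnerProductSpace ℂ H] [CompleteSpace H]
variable {M A : VonNeumannAlgebra H} {φ : (H →L[ℂ] H) →ₗ[ℂ] ℂ}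

/-- A faithful normal positive functional on `M` centralised by the MASA `A`. -/
structure IsCState (M A : VonNeumannAlgebra H) (φ : (H →L[ℂ] H) →ₗ[ℂ] ℂ) : Prop where
  masa : IsMasa M A
  cont : StronglyContinuous M φ
  pos : ∀ y ∈ M, 0 ≤ φ (star y * y)
  central : ∀ a ∈ A, ∀ y ∈ M, φ (a * y) = φ (y * a)
  faithful : ∀ y ∈ M, φ (star y * y) = 0 → y = 0

/-- `sq φ y = φ (y* y)`. -/
noncomputable def sq (φ : (H →L[ℂ] H) →ₗ[ℂ] ℂ) (y : H →L[ℂ] H) : ℝ := (φ (star y * y)).re

theorem exists_sqrt (N : VonNeumannAlgebra H) {T : H →L[ℂ] H} (hT : T ∈ N) (h0 : 0 ≤ T) :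
    ∃ s ∈ N, IsSelfAdjoint s ∧ s * s = T := by
  refine ⟨CFC.sqrt T, mem_of_commute_commutant N fun y hy => ?_,
    (CFC.sqrt_nonneg T).isSelfAdjoint, CFC.sqrt_mul_sqrt_self T⟩
  rw [CFC.sqrt_eq_real_sqrt T]
  have hc : Commute T y := VonNeumannAlgebra.mem_commutant_iff.1 hy T hT
  exact (hc.cfcₙ_real _).symm

theorem norm_star_mul_le (T : H →L[ℂ] H) :
    0 ≤ ((‖T‖ ^ 2 : ℝ) : ℂ) • (1 : H →L[ℂ] H) - star T * T := by
  have h := CStarAlgebra.star_mul_le_algebraMap_norm_sq (a := T)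
  rw [sub_nonneg]
  simpa [Algebra.algebraMap_eq_smul_one, ← Complex.coe_smul] using h

/-- Weak limits of elements of an algebra stay in it. -/
theorem mem_of_weak_limit {κ : Type*} {l : Filter κ} [l.NeBot] (N : VonNeumannAlgebra H)
    {x : κ → H →L[ℂ] H} {a : H →L[ℂ] H} (hx : ∀ i, x i ∈ N)
    (h : ∀ v w, Tendsto (fun i => ⟪x i v, w⟫_ℂ) l (𝓝 ⟪a v, w⟫_ℂ)) : a ∈ N := by
  refine mem_of_commute_commutant N fun y hy => ?_
  refine ContinuousLinearMap.ext fun v => ext_inner_right ℂ fun w => ?_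
  simp only [mul_apply_eq_comp]
  have h3 : Tendsto (fun i => ⟪y (x i v), w⟫_ℂ) l (𝓝 ⟪y (a v), w⟫_ℂ) := by
    simpa only [← ContinuousLinearMap.adjoint_inner_right] using
      h v (ContinuousLinearMap.adjoint y w)
  refine tendsto_nhds_unique h3 ((h (y v) w).congr' (.of_forall fun i => ?_))
  have e := congrArg (fun f : H →L[ℂ] H => f v) (VonNeumannAlgebra.mem_commutant_iff.1 hy _ (hx i))
  simp only [mul_apply_eq_comp] at e
  exact congrArg (fun u => ⟪u, w⟫_ℂ) e

namespace IsCState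

theorem map_nonneg (hφ : IsCState M A φ) {T : H →L[ℂ] H} (hT : T ∈ M) (h0 : 0 ≤ T) :
    0 ≤ φ T := by
  obtain ⟨s, hs, hsa, rfl⟩ := exists_sqrt M hT h0
  simpa [hsa.star_eq] using hφ.pos s hs

theorem sq_nonneg' (hφ : IsCState M A φ) {y : H →L[ℂ] H} (hy : y ∈ M) : 0 ≤ sq φ y :=
  (Complex.le_def.1 (hφ.pos y hy)).1

theorem pos_im (hφ : IsCState M A φ) {y : H →L[ℂ] H} (hy : y ∈ M) : (φ (star y * y)).im = 0 :=
  (Complex.le_def.1 (hφ.pos y hy)).2.symm

theorem map_star (hφ : IsCState M A φ) {y : H →L[ℂ] H} (hy : y ∈ M) :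
    φ (star y) = starRingEnd ℂ (φ y) := by
  have h1 := hφ.pos_im (add_mem (one_mem M) hy)
  have h2 := hφ.pos_im (add_mem (one_mem M) (smul_mem' M hy Complex.I))
  have h3 := hφ.pos_im hy
  have h4 := hφ.pos_im (one_mem M)
  simp only [star_one, mul_one] at h4
  have e1 : star ((1 : H →L[ℂ] H) + y) * (1 + y) = 1 + y + star y + star y * y := by
    rw [star_add, star_one, add_mul, one_mul, mul_add, mul_one]; abel
  have e2 : star ((1 : H →L[ℂ] H) + Complex.I • y) * (1 + Complex.I • y) =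
      1 + Complex.I • y - Complex.I • star y + star y * y := by
    rw [star_add, star_one, star_smul, add_mul, one_mul, mul_add, mul_one, smul_mul_smul_comm,
      Complex.star_def, Complex.conj_I, neg_mul, Complex.I_mul_I, neg_neg, one_smul, neg_smul]
    abel
  rw [e1] at h1
  rw [e2] at h2
  simp only [map_add, map_sub, map_smul, Complex.add_im, Complex.sub_im, smul_eq_mul,
    Complex.I_mul_im] at h1 h2
  refine Complex.ext ?_ ?_
  · simp only [Complex.conj_re]; linarith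
  · simp only [Complex.conj_im]; linarith

theorem sq_add_smul (hφ : IsCState M A φ) {a b : H →L[ℂ] H} (ha : a ∈ M) (hb : b ∈ M) (c : ℂ) :
    sq φ (a + c • b) = sq φ a + 2 * (c * φ (star a * b)).re + Complex.normSq c * sq φ b := by
  have e : φ (star b * a) = starRingEnd ℂ (φ (star a * b)) := by
    rw [← hφ.map_star (mul_mem (star_mem ha) hb), star_mul, star_star]
  have e2 : star (a + c • b) * (a + c • b) = star a * a + c • (star a * b) +
      star c • (star b * a) + (star c * c) • (star b * b) := by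
    rw [star_add, star_smul, add_mul, mul_add, mul_add, mul_smul_comm, smul_mul_assoc,
      smul_mul_smul_comm]
    abel
  simp only [sq, e2, map_add, map_smul, e, smul_eq_mul, Complex.add_re, Complex.star_def]
  rw [← Complex.normSq_eq_conj_mul_self, Complex.re_ofReal_mul, ← map_mul, Complex.conj_re]
  ring

/-- Cauchy-Schwarz. -/
theorem norm_sq_le (hφ : IsCState M A φ) {a b : H →L[ℂ] H} (ha : a ∈ M) (hb : b ∈ M) :
    ‖φ (star a * b)‖ ^ 2 ≤ sq φ a * sq φ b := by
  set z := φ (star a * b) with hz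
  have key : ∀ t : ℝ, 0 ≤ sq φ a + 2 * t * ‖z‖ ^ 2 + t ^ 2 * ‖z‖ ^ 2 * sq φ b := by
    intro t
    have h := hφ.sq_nonneg' (add_mem ha (smul_mem' M hb ((t : ℂ) * starRingEnd ℂ z)))
    rw [hφ.sq_add_smul ha hb, ← hz, mul_assoc, ← Complex.normSq_eq_conj_mul_self, ← Complex.ofReal_mul,
      Complex.ofReal_re, Complex.normSq_mul, Complex.normSq_ofReal, Complex.normSq_conj,
      Complex.normSq_eq_norm_sq] at h
    linarith
  rcases (hφ.sq_nonneg' hb).eq_or_lt with h0 | h0
  · by_contra hne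
    rw [← h0, mul_zero, not_le] at hne
    have := key (-(sq φ a + 1) / (2 * ‖z‖ ^ 2))
    have e : 2 * (-(sq φ a + 1) / (2 * ‖z‖ ^ 2)) * ‖z‖ ^ 2 = -(sq φ a + 1) := by
      rw [mul_div_assoc', div_mul_eq_mul_div, div_eq_iff (by positivity)]; ring
    rw [e, ← h0, mul_zero] at this
    linarith
  · have := key (-1 / sq φ b)
    have e : sq φ a + 2 * (-1 / sq φ b) * ‖z‖ ^ 2 + (-1 / sq φ b) ^ 2 * ‖z‖ ^ 2 * sq φ b =
        (sq φ a * sq φ b - ‖z‖ ^ 2) / sq φ b := by field_simp; ring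
    rw [e, le_div_iff₀ h0] at this
    linarith

theorem norm_le_sqrt (hφ : IsCState M A φ) {a b : H →L[ℂ] H} (ha : a ∈ M) (hb : b ∈ M) :
    ‖φ (star a * b)‖ ≤ √(sq φ a) * √(sq φ b) := by
  rw [← Real.sqrt_mul (hφ.sq_nonneg' ha)]
  refine Real.le_sqrt_of_sq_le ?_
  exact hφ.norm_sq_le ha hb

theorem sqrt_add_le (hφ : IsCState M A φ) {a b : H →L[ℂ] H} (ha : a ∈ M) (hb : b ∈ M) :
    √(sq φ (a + b)) ≤ √(sq φ a) + √(sq φ b) := by
  rw [Real.sqrt_le_left (by positivity)]
  have h := hφ.sq_add_smul ha hb 1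
  simp only [one_smul, one_mul, map_one] at h
  have h1 := (Complex.re_le_norm _).trans (hφ.norm_le_sqrt ha hb)
  rw [h, add_sq, Real.sq_sqrt (hφ.sq_nonneg' ha), Real.sq_sqrt (hφ.sq_nonneg' hb)]
  linarith

theorem sq_smul (φ : (H →L[ℂ] H) →ₗ[ℂ] ℂ) (c : ℂ) (y : H →L[ℂ] H) :
    sq φ (c • y) = ‖c‖ ^ 2 * sq φ y := by
  simp only [sq, star_smul, smul_mul_smul_comm, map_smul, smul_eq_mul, Complex.star_def]
  rw [← Complex.normSq_eq_conj_mul_self, Complex.re_ofReal_mul, Complex.normSq_eq_norm_sq]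

theorem sqrt_sub_le (hφ : IsCState M A φ) {a b : H →L[ℂ] H} (ha : a ∈ M) (hb : b ∈ M) :
    √(sq φ (a - b)) ≤ √(sq φ a) + √(sq φ b) := by
  have h := hφ.sqrt_add_le ha (smul_mem' M hb (-1))
  rwa [neg_one_smul, ← sub_eq_add_neg, show sq φ (-b) = sq φ b by simp [sq]] at h

/-- Left multiplication. -/
theorem sq_mul_left (hφ : IsCState M A φ) {a b : H →L[ℂ] H} (ha : a ∈ M) (hb : b ∈ M) :
    sq φ (a * b) ≤ ‖a‖ ^ 2 * sq φ b := by
  obtain ⟨s, hs, hsa, hss⟩ := exists_sqrt M
    (sub_mem (smul_one_mem M _) (mul_mem (star_mem ha) ha)) (norm_star_mul_le a)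
  have h := hφ.sq_nonneg' (mul_mem hs hb)
  have e : star (s * b) * (s * b) =
      ((‖a‖ ^ 2 : ℝ) : ℂ) • (star b * b) - star (a * b) * (a * b) := by
    calc star (s * b) * (s * b) = star b * (s * s) * b := by
          rw [star_mul, hsa.star_eq]; simp only [mul_assoc]
      _ = _ := by rw [hss]; simp [mul_sub, sub_mul, mul_assoc, star_mul]
  simp only [sq, e, map_sub, map_smul, Complex.sub_re, smul_eq_mul, Complex.re_ofReal_mul] at h
  simp only [sq]
  linarith

/-- Right multiplication by the MASA. -/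
theorem sq_mul_right (hφ : IsCState M A φ) {y a : H →L[ℂ] H} (hy : y ∈ M) (ha : a ∈ A) :
    sq φ (y * a) ≤ ‖a‖ ^ 2 * sq φ y := by
  have haM := hφ.masa.le a ha
  obtain ⟨s, hs, hsa, hss⟩ := exists_sqrt A
    (sub_mem (smul_one_mem A _) (mul_mem ha (star_mem ha)))
    (by simpa [norm_star] using norm_star_mul_le (star a))
  have hsM := hφ.masa.le s hs
  set T := star y * y with hT
  have hTM : T ∈ M := mul_mem (star_mem hy) hy
  have h := hφ.sq_nonneg' (mul_mem hy hsM)
  have e1 : φ (star (y * s) * (y * s)) = φ (T * (s * s)) := by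
    rw [star_mul, hsa.star_eq, show s * star y * (y * s) = s * (T * s) by simp [hT, mul_assoc],
      hφ.central s hs _ (mul_mem hTM hsM), mul_assoc]
  have e2 : φ (star (y * a) * (y * a)) = φ (T * (a * star a)) := by
    rw [star_mul, show star a * star y * (y * a) = star a * (T * a) by simp [hT, mul_assoc],
      hφ.central _ (star_mem ha) _ (mul_mem hTM haM), mul_assoc]
  rw [sq, e1, hss, mul_sub, map_sub, mul_smul_comm, mul_one, map_smul] at h
  rw [sq, e2, sq]
  simp only [Complex.sub_re, smul_eq_mul, ← Complex.ofReal_pow, Complex.re_ofReal_mul] at h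
  linarith

theorem map_sq_le (hφ : IsCState M A φ) {y : H →L[ℂ] H} (hy : y ∈ M) :
    sq φ y ≤ ‖y‖ ^ 2 * (φ 1).re := by
  simpa [sq] using hφ.sq_mul_left hy (one_mem M)

/-- `φ` at bounded elements that are small on finitely many vectors. -/
theorem small_of_vectors (hφ : IsCState M A φ) {c δ : ℝ} (hc : 0 ≤ c) (hδ : 0 < δ) :
    ∃ (F : Finset H) (η : ℝ), 0 < η ∧
      ∀ y ∈ M, ‖y‖ ≤ c → (∀ v ∈ F, ‖y v‖ ≤ η) → ‖φ y‖ ≤ δ := by
  obtain ⟨F, η, hη, h⟩ := hφ.cont (δ / (c + 1)) (by positivity)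
  refine ⟨F, (c + 1) * η, by positivity, fun y hy hyc hv => ?_⟩
  have hn : ‖(((c + 1)⁻¹ : ℝ) : ℂ)‖ = (c + 1)⁻¹ := by
    rw [Complex.norm_real, Real.norm_of_nonneg (by positivity)]
  have h1 := h ((((c + 1)⁻¹ : ℝ) : ℂ) • y) (smul_mem' M hy _)
    (by rw [norm_smul, hn, inv_mul_le_iff₀ (by positivity)]; linarith)
    (fun v hvF => by
      rw [smul_apply, norm_smul, hn, inv_mul_le_iff₀ (by positivity)]
      exact hv v hvF)
  rw [map_smul, smul_eq_mul, norm_mul, hn, inv_mul_le_iff₀ (by positivity),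
    mul_div_cancel₀ _ (by positivity)] at h1
  exact h1

/-- A bounded positive element with small value of `φ` is small on each vector. -/
theorem small_on_vector (hφ : IsCState M A φ) (v : H) (c : ℝ) {η : ℝ} (hη : 0 < η) :
    ∃ δ : ℝ, 0 < δ ∧ ∀ T ∈ M, 0 ≤ T → ‖T‖ ≤ c → (φ T).re < δ → (⟪T v, v⟫_ℂ).re < η := by
  classical
  by_contra hne
  push Not at hne
  choose T hTM hT0 hTc hTφ hTv using fun n : ℕ => hne (1 / ((n : ℝ) + 1)) (by positivity)
  have hc : 0 ≤ c := (norm_nonneg _).trans (hTc 0)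
  set U : Ultrafilter ℕ := Ultrafilter.of atTop with hU
  obtain ⟨S, hS, hSn⟩ := exists_wot_limit U T hTc
  have hSM : S ∈ M := mem_of_weak_limit M hTM hS
  have hSsa : IsSelfAdjoint S := by
    refine ContinuousLinearMap.isSelfAdjoint_iff'.2 ?_
    refine ContinuousLinearMap.ext fun x => ext_inner_right ℂ fun w => ?_
    rw [ContinuousLinearMap.adjoint_inner_left, ← inner_conj_symm]
    refine tendsto_nhds_unique
      ((Complex.continuous_conj.tendsto _).comp (hS w x)) ((hS x w).congr' (.of_forall fun n => ?_))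
    simp only [Function.comp_apply]
    rw [inner_conj_symm, inner_sa (IsSelfAdjoint.of_nonneg (hT0 n))]
  have hS0 : 0 ≤ S := nonneg_of_re_inner hSsa fun x =>
    ge_of_tendsto ((Complex.continuous_re.tendsto _).comp (hS x x))
      (.of_forall fun n => re_inner_nonneg_of_nonneg (hT0 n) x)
  have hφS : φ S = 0 := by
    rw [← norm_le_zero_iff]
    refine le_of_forall_pos_le_add fun κ hκ => ?_
    obtain ⟨F, η', hη', hF⟩ := hφ.small_of_vectors (c := 2 * c) (by linarith) (half_pos hκ)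
    obtain ⟨N, hN⟩ := exists_nat_gt (2 / κ)
    let x : ℕ → PiLp 2 (fun _ : F => H) := fun n => WithLp.toLp 2 fun w => (T n - S) w.1
    have hx : ∀ w, Tendsto (fun n => ⟪x n, w⟫_ℂ) (U : Filter ℕ) (𝓝 0) := by
      intro w
      simp only [PiLp.inner_apply, x]
      rw [show (0 : ℂ) = ∑ _w : F, (0 : ℂ) by simp]
      refine tendsto_finsetSum _ fun i _ => ?_
      simp only [sub_apply, inner_sub_left]
      have := (hS i.1 (w i)).sub (tendsto_const_nhds (x := ⟪S i.1, w i⟫_ℂ))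
      simpa using this
    have hmem : Set.Ici N ∈ U := Ultrafilter.of_le atTop (mem_atTop N)
    obtain ⟨J, hJ, lam, σ, h0, h1, hσ, hsmall⟩ := exists_convex_small hmem x hx hη'
    set y := ∑ j, (lam j : ℂ) • (T (σ j) - S) with hy
    have hyM : y ∈ M := sum_mem fun j _ => smul_mem' M (sub_mem (hTM _) hSM) _
    have hyn : ‖y‖ ≤ 2 * c := by
      refine (norm_sum_le _ _).trans ?_
      calc ∑ j, ‖(lam j : ℂ) • (T (σ j) - S)‖ ≤ ∑ j, lam j * (2 * c) :=
            Finset.sum_le_sum fun j _ => by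
              rw [norm_smul, Complex.norm_real, Real.norm_of_nonneg (h0 j)]
              refine mul_le_mul_of_nonneg_left ((norm_sub_le _ _).trans ?_) (h0 j)
              linarith [hTc (σ j)]
        _ = 2 * c := by rw [← Finset.sum_mul, h1, one_mul]
    have hyF : ∀ w ∈ F, ‖y w‖ ≤ η' := by
      intro w hw
      refine le_trans (le_of_eq ?_) ((PiLp.norm_apply_le _ ⟨w, hw⟩).trans hsmall.le)
      simp [x, hy, sum_apply]
    have h3 := hF y hyM hyn hyF
    have h4 : ∀ j, ‖φ (T (σ j))‖ ≤ κ / 2 := by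
      intro j
      have hp := Complex.le_def.1 (hφ.map_nonneg (hTM (σ j)) (hT0 (σ j)))
      have e : φ (T (σ j)) = ((φ (T (σ j))).re : ℂ) := Complex.ext (by simp) (by simpa using hp.2.symm)
      rw [e, Complex.norm_real, Real.norm_of_nonneg (by simpa using hp.1)]
      refine (hTφ (σ j)).le.trans ?_
      have hσN : (N : ℝ) ≤ (σ j : ℕ) := by exact_mod_cast hσ j
      rw [div_le_iff₀ (by positivity)]
      rw [div_lt_iff₀ hκ] at hN
      nlinarith
    have e : φ S = ∑ j, (lam j : ℂ) * φ (T (σ j)) - φ y := by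
      simp only [hy, map_sum, map_smul, map_sub, smul_eq_mul, mul_sub, Finset.sum_sub_distrib,
        ← Finset.sum_mul]
      rw [show (∑ j, (lam j : ℂ)) = 1 by exact_mod_cast h1]
      ring
    rw [e, zero_add]
    refine (norm_sub_le _ _).trans ?_
    have h5 : ‖∑ j, (lam j : ℂ) * φ (T (σ j))‖ ≤ κ / 2 := by
      refine (norm_sum_le _ _).trans ?_
      calc ∑ j, ‖(lam j : ℂ) * φ (T (σ j))‖ ≤ ∑ j, lam j * (κ / 2) :=
            Finset.sum_le_sum fun j _ => by
              rw [norm_mul, Complex.norm_real, Real.norm_of_nonneg (h0 j)]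
              exact mul_le_mul_of_nonneg_left (h4 j) (h0 j)
        _ = κ / 2 := by rw [← Finset.sum_mul, h1, one_mul]
    linarith
  obtain ⟨s, hs, hsa, hss⟩ := exists_sqrt M hSM hS0
  have hs0 : s = 0 := hφ.faithful s hs (by rw [hsa.star_eq, hss, hφS])
  have h6 : η ≤ (⟪S v, v⟫_ℂ).re :=
    ge_of_tendsto ((Complex.continuous_re.tendsto _).comp (hS v v)) (.of_forall hTv)
  rw [← hss, hs0, mul_zero] at h6
  simp at h6
  linarith

/-- A bounded element with small `sq` is small on each vector. -/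
theorem norm_apply_small (hφ : IsCState M A φ) (v : H) (c : ℝ) {η : ℝ} (hη : 0 < η) :
    ∃ δ : ℝ, 0 < δ ∧ ∀ a ∈ M, ‖a‖ ≤ c → sq φ a < δ → ‖a v‖ < η := by
  obtain ⟨δ, hδ, h⟩ := hφ.small_on_vector v (c ^ 2) (η := η ^ 2) (by positivity)
  refine ⟨δ, hδ, fun a ha hac hs => ?_⟩
  have h1 := h (star a * a) (mul_mem (star_mem ha) ha) (star_mul_self_nonneg a)
    (by rw [CStarRing.norm_star_mul_self, pow_two]
        exact mul_le_mul hac hac (norm_nonneg _) ((norm_nonneg _).trans hac)) hs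
  have e : (⟪(star a * a) v, v⟫_ℂ).re = ‖a v‖ ^ 2 := by
    rw [mul_apply_eq_comp, ContinuousLinearMap.star_eq_adjoint,
      ContinuousLinearMap.adjoint_inner_left]
    exact inner_self_eq_norm_sq (𝕜 := ℂ) (a v)
  rw [e] at h1
  exact lt_of_pow_lt_pow_left₀ 2 hη.le h1

/-- Bounded and strongly small means small `sq`. -/
theorem sq_tendsto_zero (hφ : IsCState M A φ) {κ : Type*} {l : Filter κ} {a : κ → H →L[ℂ] H}
    {c : ℝ} (ha : ∀ i, a i ∈ M) (hc : ∀ i, ‖a i‖ ≤ c)
    (h : ∀ v, Tendsto (fun i => a i v) l (𝓝 0)) : Tendsto (fun i => sq φ (a i)) l (𝓝 0) := by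
  rcases l.eq_or_neBot with rfl | hl
  · exact tendsto_bot
  obtain ⟨i0⟩ := nonempty_of_neBot l
  have hc0 : 0 ≤ c := (norm_nonneg _).trans (hc i0)
  refine Metric.tendsto_nhds.2 fun η hη => ?_
  obtain ⟨F, η', hη', hF⟩ := hφ.small_of_vectors (c := c ^ 2) (by positivity) (half_pos hη)
  have hev : ∀ᶠ i in l, ∀ v ∈ F, ‖a i v‖ ≤ η' / (c + 1) :=
    (Filter.eventually_all_finset F).2 fun v _ =>
      (Metric.tendsto_nhds.1 (h v) (η' / (c + 1)) (div_pos hη' (by linarith))).mono fun i hi => by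
        rw [dist_zero_right] at hi; exact hi.le
  filter_upwards [hev] with i hi
  have h1 := hF (star (a i) * a i) (mul_mem (star_mem (ha i)) (ha i))
    (by rw [CStarRing.norm_star_mul_self, pow_two]; exact mul_le_mul (hc i) (hc i) (norm_nonneg _) hc0)
    (fun v hv => by
      rw [mul_apply_eq_comp]
      refine ((star (a i)).le_opNorm _).trans ?_
      rw [norm_star]
      have := mul_le_mul (hc i) (hi v hv) (norm_nonneg _) hc0
      refine this.trans ?_
      rw [← mul_div_assoc, div_le_iff₀ (by linarith)]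
      nlinarith)
  rw [dist_zero_right, Real.norm_eq_abs]
  exact ((Complex.abs_re_le_norm _).trans h1).trans_lt (half_lt_self hη)

/-- `sq`-small bounded families tend to zero strongly. -/
theorem apply_tendsto_zero (hφ : IsCState M A φ) {κ : Type*} {l : Filter κ} {a : κ → H →L[ℂ] H}
    {c : ℝ} (ha : ∀ i, a i ∈ M) (hc : ∀ i, ‖a i‖ ≤ c)
    (h : Tendsto (fun i => sq φ (a i)) l (𝓝 0)) (v : H) : Tendsto (fun i => a i v) l (𝓝 0) := by
  refine Metric.tendsto_nhds.2 fun η hη => ?_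
  obtain ⟨δ, hδ, hd⟩ := hφ.norm_apply_small v c hη
  filter_upwards [(h.eventually (eventually_lt_nhds hδ))] with i hi
  rw [dist_zero_right]
  exact hd _ (ha i) (hc i) hi

/-- Bounded Cauchy sequences for `sq` converge in `M`. -/
theorem exists_limit (hφ : IsCState M A φ) {x : ℕ → H →L[ℂ] H} {c : ℝ} (hx : ∀ n, x n ∈ M)
    (hc : ∀ n, ‖x n‖ ≤ c)
    (hcau : ∀ η : ℝ, 0 < η → ∃ N, ∀ m, N ≤ m → ∀ n, N ≤ n → sq φ (x m - x n) ≤ η) :
    ∃ a ∈ M, ‖a‖ ≤ c ∧ (∀ v, Tendsto (fun n => x n v) atTop (𝓝 (a v))) ∧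
      Tendsto (fun n => sq φ (x n - a)) atTop (𝓝 0) := by
  have hcs : ∀ v, CauchySeq fun n => x n v := by
    intro v
    refine Metric.cauchySeq_iff.2 fun η hη => ?_
    obtain ⟨δ, hδ, hd⟩ := hφ.norm_apply_small v (2 * c) hη
    obtain ⟨N, hN⟩ := hcau (δ / 2) (half_pos hδ)
    refine ⟨N, fun m hm n hn => ?_⟩
    rw [dist_eq_norm, ← sub_apply]
    exact hd _ (sub_mem (hx m) (hx n)) ((norm_sub_le _ _).trans (by linarith [hc m, hc n]))
      (lt_of_le_of_lt (hN m hm n hn) (half_lt_self hδ))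
  choose L hL using fun v => cauchySeq_tendsto_of_complete (hcs v)
  set U : Ultrafilter ℕ := Ultrafilter.of atTop
  obtain ⟨a, ha, han⟩ := exists_wot_limit U x hc
  have hLa : ∀ v, L v = a v := fun v => ext_inner_right ℂ fun w =>
    tendsto_nhds_unique (((hL v).inner tendsto_const_nhds).mono_left (Ultrafilter.of_le atTop))
      (ha v w)
  have haM := mem_of_weak_limit M hx ha
  have hlim : ∀ v, Tendsto (fun n => x n v) atTop (𝓝 (a v)) := fun v => hLa v ▸ hL v
  refine ⟨a, haM, han, hlim, hφ.sq_tendsto_zero (c := 2 * c) (fun n => sub_mem (hx n) haM)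
    (fun n => (norm_sub_le _ _).trans (by linarith [hc n])) fun v => ?_⟩
  simpa only [sub_apply, sub_self] using (hlim v).sub (tendsto_const_nhds (x := a v))

end IsCState

end Vale.Agent.P078.General.Single
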