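import Vale.Agent.P078.Single.Moments

/-!
# Binary trees of projections in a MASA and two-sided pinchings along them
-/

namespace Vale.Agent.P078.General.Single

open scoped InnerProductSpace Topology ComplexOrder
open Filter

universe u

variable {H : Type u} [NormedAddCommGroup H] [InnerProductSpace ℂ H] [CompleteSpace H]
variable {M A : VonNeumannAlgebra H} {φ : (H →L[ℂ] H) →ₗ[ℂ] ℂ}

/-- A binary tree of projections of `A`: each node is the sum of its two children. -/
structure IsTree (A : VonNeumannAlgebra H) (u : ∀ n, (Fin n → Bool) → H →L[ℂ] H) : Prop where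
  mem : ∀ n s, u n s ∈ A
  proj : ∀ n s, IsStarProjection (u n s)
  split : ∀ n s, u (n + 1) (Fin.cons true s) + u (n + 1) (Fin.cons false s) = u n s

omit [CompleteSpace H] in
theorem sum_cons {N : Type*} [AddCommMonoid N] (n : ℕ) (F : (Fin (n + 1) → Bool) → N) :
    ∑ s, F s = ∑ s : Fin n → Bool, (F (Fin.cons true s) + F (Fin.cons false s)) := by
  rw [← (Fin.consEquiv fun _ => Bool).sum_comp, Fintype.sum_prod_type, Fintype.sum_bool,
    ← Finset.sum_add_distrib]
  rfl

/-- `∑ u_s y v_s` over one level. -/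
noncomputable def lvl (u v : ∀ n, (Fin n → Bool) → H →L[ℂ] H) (n : ℕ) (y : H →L[ℂ] H) :
    H →L[ℂ] H :=
  ∑ s, u n s * y * v n s

namespace IsTree

variable {u v : ∀ n, (Fin n → Bool) → H →L[ℂ] H}

theorem mul_sibling (hu : IsTree A u) (hc : ∀ a ∈ A, ∀ b ∈ A, Commute a b) (n : ℕ)
    (s : Fin n → Bool) : u (n + 1) (Fin.cons true s) * u (n + 1) (Fin.cons false s) = 0 := by
  set p := u (n + 1) (Fin.cons true s)
  set p' := u (n + 1) (Fin.cons false s)
  have h := (hu.proj n s).isIdempotentElem.eq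
  rw [← hu.split] at h
  have hpp : p * p = p := (hu.proj _ _).isIdempotentElem.eq
  have hpp' : p' * p' = p' := (hu.proj _ _).isIdempotentElem.eq
  have hcc : p' * p = p * p' := (hc _ (hu.mem _ _) _ (hu.mem _ _)).eq
  simp only [add_mul, mul_add] at h
  rw [hpp, hpp', hcc] at h
  have h2 : p * p' + p * p' = 0 := by
    rw [← sub_eq_zero] at h
    rw [← h]
    abel
  rwa [← two_smul ℂ, smul_eq_zero, or_iff_right (two_ne_zero : (2 : ℂ) ≠ 0)] at h2

theorem mul_parent (hu : IsTree A u) (hc : ∀ a ∈ A, ∀ b ∈ A, Commute a b) (n : ℕ) (d : Bool)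
    (s : Fin n → Bool) : u (n + 1) (Fin.cons d s) * u n s = u (n + 1) (Fin.cons d s) := by
  rw [← hu.split n s, mul_add]
  cases d
  · rw [(hu.proj _ _).isIdempotentElem.eq, ← (hc _ (hu.mem _ _) _ (hu.mem _ _)).eq,
      hu.mul_sibling hc, zero_add]
  · rw [(hu.proj _ _).isIdempotentElem.eq, hu.mul_sibling hc, add_zero]

theorem orth (hu : IsTree A u) (hc : ∀ a ∈ A, ∀ b ∈ A, Commute a b) (n : ℕ) :
    ∀ s t : Fin n → Bool, s ≠ t → u n s * u n t = 0 := by
  induction n with
  | zero => exact fun s t h => absurd (Subsingleton.elim s t) h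
  | succ n ih =>
    intro s t h
    obtain ⟨d, s, rfl⟩ : ∃ d s', s = Fin.cons d s' := ⟨s 0, Fin.tail s, (Fin.cons_self_tail s).symm⟩
    obtain ⟨d', t, rfl⟩ : ∃ d s', t = Fin.cons d s' := ⟨t 0, Fin.tail t, (Fin.cons_self_tail t).symm⟩
    rcases eq_or_ne s t with rfl | hst
    · have hd : d ≠ d' := fun e => h (by rw [e])
      cases d <;> cases d' <;> first | exact absurd rfl hd | skip
      · rw [← (hc _ (hu.mem _ _) _ (hu.mem _ _)).eq, hu.mul_sibling hc]
      · exact hu.mul_sibling hc n s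
    · rw [← hu.mul_parent hc n d s, ← hu.mul_parent hc n d' t,
        (hc _ (hu.mem _ (Fin.cons d' t)) _ (hu.mem n t)).eq,
        ← mul_assoc, mul_assoc (u (n + 1) (Fin.cons d s)) (u n s) (u n t), ih s t hst, mul_zero,
        zero_mul]

theorem sum_level (hu : IsTree A u) (n : ℕ) :
    ∑ s : Fin n → Bool, u n s = u 0 Fin.elim0 := by
  induction n with
  | zero => exact Fintype.sum_eq_single _ fun s h => absurd (Subsingleton.elim s _) h
  | succ n ih => rw [sum_cons, Finset.sum_congr rfl fun s _ => hu.split n s, ih]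

theorem isPart (hu : IsTree A u) (hc : ∀ a ∈ A, ∀ b ∈ A, Commute a b) (n : ℕ) :
    IsPart A (u 0 Fin.elim0) (u n) :=
  ⟨hu.mem n, hu.proj n, hu.orth hc n, hu.sum_level n⟩

theorem lvl_lvl_succ (hu : IsTree A u) (hv : IsTree A v) (hc : ∀ a ∈ A, ∀ b ∈ A, Commute a b)
    (n : ℕ) (y : H →L[ℂ] H) : lvl u v n (lvl u v (n + 1) y) = lvl u v (n + 1) y := by
  simp only [lvl, Finset.mul_sum, Finset.sum_mul]
  rw [Finset.sum_comm]
  refine Finset.sum_congr rfl fun s _ => ?_
  obtain ⟨d, s, rfl⟩ : ∃ d s', s = Fin.cons d s' := ⟨s 0, Fin.tail s, (Fin.cons_self_tail s).symm⟩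
  have e1 : ∀ t, u n t * u (n + 1) (Fin.cons d s) =
      if t = s then u (n + 1) (Fin.cons d s) else 0 := by
    intro t
    rw [(hc _ (hu.mem n t) _ (hu.mem (n + 1) (Fin.cons d s))).eq]
    split_ifs with h
    · rw [h, hu.mul_parent hc]
    · rw [← hu.mul_parent hc n d s, mul_assoc, hu.orth hc n s t (Ne.symm h), mul_zero]
  rw [Finset.sum_eq_single s]
  · rw [← mul_assoc, ← mul_assoc, e1, if_pos rfl, mul_assoc _ _ (v n s), hv.mul_parent hc]
  · intro t _ h
    rw [← mul_assoc, ← mul_assoc, e1, if_neg h]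
    simp
  · exact fun h => absurd (Finset.mem_univ s) h

theorem lvl_lvl (hu : IsTree A u) (hv : IsTree A v) (hc : ∀ a ∈ A, ∀ b ∈ A, Commute a b)
    {n m : ℕ} (h : n ≤ m) : ∀ y, lvl u v n (lvl u v m y) = lvl u v m y := by
  induction h with
  | refl =>
    intro y
    simp only [lvl, Finset.mul_sum, Finset.sum_mul]
    refine Finset.sum_congr rfl fun s _ => ?_
    rw [Finset.sum_eq_single s]
    · calc u n s * (u n s * y * v n s) * v n s
          = (u n s * u n s) * y * (v n s * v n s) := by simp only [mul_assoc]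
        _ = _ := by rw [(hu.proj n s).isIdempotentElem.eq, (hv.proj n s).isIdempotentElem.eq]
    · intro t _ h
      rw [← mul_assoc, ← mul_assoc, hu.orth hc n s t h.symm]
      simp
    · exact fun h => absurd (Finset.mem_univ s) h
  | @step m _ ih =>
    intro y
    calc lvl u v n (lvl u v (m + 1) y) = lvl u v n (lvl u v m (lvl u v (m + 1) y)) := by
          rw [hu.lvl_lvl_succ hv hc]
      _ = _ := by rw [ih, hu.lvl_lvl_succ hv hc]

theorem star_lvl (hu : IsTree A u) (hv : IsTree A v) (n : ℕ) (y : H →L[ℂ] H) :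
    star (lvl u v n y) = lvl v u n (star y) := by
  simp [lvl, star_sum, (hu.proj n _).isSelfAdjoint.star_eq, (hv.proj n _).isSelfAdjoint.star_eq,
    mul_assoc]

theorem norm_lvl_le (hu : IsTree A u) (hv : IsTree A v) (hc : ∀ a ∈ A, ∀ b ∈ A, Commute a b)
    (n : ℕ) (y : H →L[ℂ] H) : ‖lvl u v n y‖ ≤ ‖y‖ := by
  refine ContinuousLinearMap.opNorm_le_bound _ (norm_nonneg _) fun w => ?_
  refine le_of_pow_le_pow_left₀ two_ne_zero (by positivity) ?_
  have e : lvl u v n y w = ∑ s, u n s (y (v n s w)) := by simp [lvl, sum_apply]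
  rw [e, (hu.isPart hc n).norm_sq_sum_apply]
  calc ∑ s, ‖u n s (y (v n s w))‖ ^ 2 ≤ ∑ s, ‖y‖ ^ 2 * ‖v n s w‖ ^ 2 :=
        Finset.sum_le_sum fun s _ => by
          rw [← mul_pow]
          exact pow_le_pow_left₀ (norm_nonneg _)
            ((norm_proj_le (hu.proj n s) _).trans (y.le_opNorm _)) 2
    _ ≤ ‖y‖ ^ 2 * ‖w‖ ^ 2 := by
        rw [← Finset.mul_sum]
        exact mul_le_mul_of_nonneg_left ((hv.isPart hc n).sum_norm_sq_le w) (sq_nonneg _)
    _ = _ := by ring

end IsTree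

namespace IsCState

variable {u v : ∀ n, (Fin n → Bool) → H →L[ℂ] H}

theorem lvl_mem (hφ : IsCState M A φ) (hu : IsTree A u) (hv : IsTree A v) (n : ℕ)
    {y : H →L[ℂ] H} (hy : y ∈ M) : lvl u v n y ∈ M :=
  sum_mem fun s _ => mul_mem (mul_mem (hφ.masa.le _ (hu.mem n s)) hy) (hφ.masa.le _ (hv.mem n s))

theorem map_lvl_adjoint (hφ : IsCState M A φ) (hu : IsTree A u) (hv : IsTree A v) (n : ℕ)
    {y z : H →L[ℂ] H} (hy : y ∈ M) (hz : z ∈ M) :
    φ (star (lvl u v n y) * z) = φ (star y * lvl u v n z) := by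
  simp only [lvl, star_sum, Finset.sum_mul, Finset.mul_sum, map_sum]
  refine Finset.sum_congr rfl fun s _ => ?_
  have hu' := hφ.masa.le _ (hu.mem n s)
  rw [star_mul, star_mul, (hu.proj n s).isSelfAdjoint.star_eq, (hv.proj n s).isSelfAdjoint.star_eq,
    mul_assoc, hφ.central _ (hv.mem n s) _ (mul_mem (mul_mem (star_mem hy) hu') hz)]
  simp only [mul_assoc]

theorem sq_lvl (hφ : IsCState M A φ) (hu : IsTree A u) (hv : IsTree A v) (n : ℕ)
    {y : H →L[ℂ] H} (hy : y ∈ M) : sq φ (lvl u v n y) = (φ (star y * lvl u v n y)).re := by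
  rw [sq, hφ.map_lvl_adjoint hu hv n hy (hφ.lvl_mem hu hv n hy),
    hu.lvl_lvl hv hφ.masa.comm le_rfl]

theorem sq_lvl_sub (hφ : IsCState M A φ) (hu : IsTree A u) (hv : IsTree A v) {n m : ℕ} (h : n ≤ m)
    {y : H →L[ℂ] H} (hy : y ∈ M) :
    sq φ (lvl u v n y - lvl u v m y) = sq φ (lvl u v n y) - sq φ (lvl u v m y) := by
  have e : φ (star (lvl u v n y) * lvl u v m y) = φ (star y * lvl u v m y) := by
    rw [hφ.map_lvl_adjoint hu hv n hy (hφ.lvl_mem hu hv m hy), hu.lvl_lvl hv hφ.masa.comm h]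
  rw [sub_eq_add_neg, ← neg_one_smul ℂ (lvl u v m y),
    hφ.sq_add_smul (hφ.lvl_mem hu hv n hy) (hφ.lvl_mem hu hv m hy), e, hφ.sq_lvl hu hv m hy]
  simp
  ring

/-- The levels converge strongly. -/
theorem exists_lvl_limit (hφ : IsCState M A φ) (hu : IsTree A u) (hv : IsTree A v)
    {y : H →L[ℂ] H} (hy : y ∈ M) : ∃ S ∈ M,
      (∀ w, Tendsto (fun n => lvl u v n y w) atTop (𝓝 (S w))) ∧
      Tendsto (fun n => sq φ (lvl u v n y - S)) atTop (𝓝 0) := by
  obtain ⟨S, hS, -, h1, h2⟩ := hφ.exists_limit (c := ‖y‖) (fun n => hφ.lvl_mem hu hv n hy)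
    (fun n => hu.norm_lvl_le hv hφ.masa.comm n y) (by
      intro η hη
      have hanti : ∀ n m, n ≤ m → sq φ (lvl u v m y) ≤ sq φ (lvl u v n y) := fun n m h => by
        linarith [hφ.sq_lvl_sub hu hv h hy,
          hφ.sq_nonneg' (sub_mem (hφ.lvl_mem hu hv n hy) (hφ.lvl_mem hu hv m hy))]
      obtain ⟨N, hN⟩ := exists_lt_of_ciInf_lt
        (lt_add_of_pos_right (⨅ n, sq φ (lvl u v n y)) hη)
      have hbd : BddBelow (Set.range fun n => sq φ (lvl u v n y)) :=
        ⟨0, by rintro _ ⟨n, rfl⟩; exact hφ.sq_nonneg' (hφ.lvl_mem hu hv n hy)⟩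
      refine ⟨N, fun m hm n hn => ?_⟩
      rcases le_total m n with h | h
      · rw [hφ.sq_lvl_sub hu hv h hy]
        linarith [hanti N m hm, ciInf_le hbd n]
      · rw [show sq φ (lvl u v m y - lvl u v n y) = sq φ (lvl u v n y - lvl u v m y) by
          rw [← neg_sub (lvl u v n y), sq, sq, star_neg, neg_mul_neg], hφ.sq_lvl_sub hu hv h hy]
        linarith [hanti N n hn, ciInf_le hbd m])
  exact ⟨S, hS, h1, h2⟩

theorem sq_sum_orth' (hφ : IsCState M A φ) {ι : Type*} [Fintype ι] {Z : ι → H →L[ℂ] H}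
    (_hZ : ∀ i, Z i ∈ M) (h : ∀ i j, i ≠ j → star (Z i) * Z j = 0) :
    sq φ (∑ i, Z i) = ∑ i, sq φ (Z i) := by
  simp only [sq, star_sum, Finset.sum_mul, Finset.mul_sum, map_sum, Complex.re_sum]
  exact Finset.sum_congr rfl fun i _ =>
    Finset.sum_eq_single i (fun j _ hj => by rw [h j i hj, map_zero, Complex.zero_re])
      fun hi => absurd (Finset.mem_univ i) hi

theorem exists_proj_limit (hφ : IsCState M A φ) {e : ℕ → H →L[ℂ] H} (he : ∀ n, e n ∈ A)
    (hp : ∀ n, IsStarProjection (e n)) (hmono : ∀ n, e n * e (n + 1) = e n) :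
    ∃ p ∈ A, IsStarProjection p ∧ (∀ n, e n * p = e n) ∧
      (∀ w, Tendsto (fun n => e n w) atTop (𝓝 (p w))) ∧
      Tendsto (fun n => (φ (e n)).re) atTop (𝓝 (φ p).re) := by
  have hle : ∀ {n m}, n ≤ m → e n * e m = e n := fun {n m} h => by
    induction h with
    | refl => exact (hp n).isIdempotentElem.eq
    | @step m _ ih => rw [← ih, mul_assoc, hmono, ih]
  have hsq : ∀ {n m}, n ≤ m → sq φ (e m - e n) = (φ (e m)).re - (φ (e n)).re := fun {n m} h => by
    have h' : e m * e n = e n := (hφ.masa.comm _ (he m) _ (he n)).eq.trans (hle h)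
    rw [sq, star_sub, (hp m).isSelfAdjoint.star_eq, (hp n).isSelfAdjoint.star_eq]
    simp [sub_mul, mul_sub, hle h, h', (hp n).isIdempotentElem.eq, (hp m).isIdempotentElem.eq]
  have hM : ∀ n, e n ∈ M := fun n => hφ.masa.le _ (he n)
  have hmon : Monotone fun n => (φ (e n)).re := fun n m h => by
    linarith [hsq h, hφ.sq_nonneg' (sub_mem (hM m) (hM n))]
  have hbd : BddAbove (Set.range fun n => (φ (e n)).re) := by
    refine ⟨(φ 1).re, ?_⟩
    rintro _ ⟨n, rfl⟩
    have := hφ.sq_nonneg' (sub_mem (one_mem M) (hM n))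
    rw [sq, (hp n).one_sub.isSelfAdjoint.star_eq, (hp n).one_sub.isIdempotentElem.eq, map_sub,
      Complex.sub_re] at this
    simpa using this
  obtain ⟨p, hpM, -, hlim, hsqlim⟩ := hφ.exists_limit (c := 1) hM
    (fun n => opNorm_proj_le_one (hp n)) (by
      intro η hη
      obtain ⟨N, hN⟩ := exists_lt_of_lt_ciSup (sub_lt_self (⨆ n, (φ (e n)).re) hη)
      refine ⟨N, fun m hm n hn => ?_⟩
      rcases le_total n m with h | h
      · rw [hsq h]
        linarith [le_ciSup hbd m, hmon hn]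
      · rw [show sq φ (e m - e n) = sq φ (e n - e m) by
          rw [← neg_sub (e n), sq, sq, star_neg, neg_mul_neg], hsq h]
        linarith [le_ciSup hbd n, hmon hm])
  have hpA : p ∈ A := mem_of_weak_limit A he fun v w => (hlim v).inner tendsto_const_nhds
  have hnp : ∀ n, e n * p = e n := fun n => ContinuousLinearMap.ext fun w => by
    rw [mul_apply_eq_comp]
    refine tendsto_nhds_unique (((e n).continuous.tendsto _).comp (hlim w))
      (tendsto_const_nhds.congr' ?_)
    filter_upwards [eventually_ge_atTop n] with m hm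
    exact (congrArg (fun T : H →L[ℂ] H => T w) (hle hm)).symm
  have hsa : IsSelfAdjoint p := by
    refine ContinuousLinearMap.isSelfAdjoint_iff'.2
      (ContinuousLinearMap.ext fun x => ext_inner_right ℂ fun w => ?_)
    rw [ContinuousLinearMap.adjoint_inner_left]
    refine tendsto_nhds_unique (tendsto_const_nhds.inner (hlim w))
      (((hlim x).inner tendsto_const_nhds).congr' (.of_forall fun n => ?_))
    rw [inner_sa (hp n).isSelfAdjoint]
  have hid : p * p = p := ContinuousLinearMap.ext fun w => by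
    rw [mul_apply_eq_comp]
    exact tendsto_nhds_unique (hlim (p w)) ((hlim w).congr fun n =>
      (congrArg (fun T : H →L[ℂ] H => T w) (hnp n)).symm)
  refine ⟨p, hpA, ⟨hid, hsa⟩, hnp, hlim, ?_⟩
  have e1 : ∀ n, sq φ (e n - p) = (φ p).re - (φ (e n)).re := fun n => by
    have h' : p * e n = e n := (hφ.masa.comm _ hpA _ (he n)).eq.trans (hnp n)
    rw [sq, star_sub, (hp n).isSelfAdjoint.star_eq, hsa.star_eq]
    simp [sub_mul, mul_sub, hnp n, h', (hp n).isIdempotentElem.eq, hid]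
  have := hsqlim
  simp only [e1] at this
  simpa using (tendsto_const_nhds (x := (φ p).re)).sub this

end IsCState

end Vale.Agent.P078.General.Single
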